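import Vale.Agent.P182.H62.BVers

/-!
# Families killing a vector of coefficients
-/

namespace Vale.Agent.P182.H588

open Module Matrix Vale.Agent.P182.H533 Vale.Agent.P182.B1

universe u v w

section defs

variable {L : Type u} {V : Type v} {J : Type w} [Field L] [AddCommGroup V] [Module L V]
  [Fintype J]

variable (V) in
/-- the families killing `u` -/
def Uu (u : J → L) : Submodule L (J → V) where
  carrier := {r | ∑ l, u l • r l = 0}
  zero_mem' := by
    show ∑ l, u l • (0 : J → V) l = 0
    simp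
  add_mem' := by
    intro a b ha hb
    show ∑ l, u l • (a + b) l = 0
    rw [← add_zero (0 : V)]
    nth_rw 1 [← (show ∑ l, u l • a l = 0 from ha)]
    rw [← (show ∑ l, u l • b l = 0 from hb), ← Finset.sum_add_distrib]
    exact Finset.sum_congr rfl fun l _ => by rw [Pi.add_apply, smul_add]
  smul_mem' := by
    intro c a ha
    show ∑ l, u l • (c • a) l = 0
    have h1 : ∑ l, u l • (c • a) l = c • ∑ l, u l • a l := by
      rw [Finset.smul_sum]
      exact Finset.sum_congr rfl fun l _ => by rw [Pi.smul_apply, smul_comm]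
    rw [h1, (show ∑ l, u l • a l = 0 from ha), smul_zero]

theorem mem_Uu {u : J → L} {r : J → V} : r ∈ Uu V u ↔ ∑ l, u l • r l = 0 := Iff.rfl

/-- an endomorphism preserves the families killing `u` -/
theorem map_Uu {u : J → L} {r : J → V} (hr : r ∈ Uu V u) (f : End L V) :
    (fun l => f (r l)) ∈ Uu V u := by
  rw [mem_Uu] at hr ⊢
  have h1 := congrArg f hr
  rw [map_zero, map_sum] at h1
  rw [← h1]
  exact Finset.sum_congr rfl fun l _ => by rw [map_smul]

/-- the part of the kernel killing `u` -/
def Ku (𝒟 : Cfg L V J) (u : J → L) : Submodule L (J → V) := 𝒟.K ⊓ Uu V u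

theorem Ku_le (𝒟 : Cfg L V J) (u : J → L) : Ku 𝒟 u ≤ 𝒟.K := inf_le_left

theorem Ku_zero (𝒟 : Cfg L V J) : Ku 𝒟 0 = 𝒟.K := by
  refine le_antisymm inf_le_left (le_inf le_rfl fun r _ => ?_)
  rw [mem_Uu]
  simp

end defs

end Vale.Agent.P182.H588
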