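import Vale.Agent.P182.H588.SLift
import Vale.Agent.P182.H922.DichoCfg
import Vale.Agent.P182.H338.SDefs

/-!
# T-SPIN: the dichotomy for special configurations
-/

namespace Vale.Agent.P182.H588

open Module Matrix Vale.Agent.P182.H533 Vale.Agent.P182.H922 Vale.Agent.P182.B1
  Vale.Agent.P182.H338

section cfg

variable {L V J : Type*} [Field L] [AddCommGroup V] [Module L V]
  {𝒟 : Cfg L V J} {c0 c1 : J}

theorem spO_of_spinC (hs : SpinC 𝒟 c0 c1) (hG : 𝒟.Good) : SpO 𝒟.Ω c0 c1 :=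
  ⟨hG.skew, hs.ne, hs.sp⟩

variable [Fintype J]

/-- the other form of the condition -/
theorem uzM_eq (h2 : (2 : L) ≠ 0) (hs : SpinC 𝒟 c0 c1) (hG : 𝒟.Good) (t : J → V) :
    uzM 𝒟 c0 c1 t = 𝒟.om t c0 - 𝒟.Ω c0 c1 • t c0 := by
  classical
  have hsp := spO_of_spinC hs hG
  have h1 : ∀ l, uz 𝒟 c0 c1 l • t l = 𝒟.Ω c0 l • t l -
      (if l = c0 then 𝒟.Ω c0 c1 • t c0 else 0) := by
    intro l
    rw [uz]
    by_cases h : l = c0
    · subst h
      rw [if_pos hs.arm0, if_pos rfl, skew_diag h2 hG.skew, zero_smul, zero_sub,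
        skew_apply hG.skew c1 l, neg_smul]
    · rw [if_neg h, sub_zero]
      split_ifs with h3
      · rw [hs.sp l h]
        rintro rfl
        rw [hs.arm1] at h3
        exact absurd h3 (by decide)
      · rfl
  show ∑ l, uz 𝒟 c0 c1 l • t l = _
  rw [Finset.sum_congr rfl fun l _ => h1 l, Finset.sum_sub_distrib, Finset.sum_ite_eq',
    if_pos (Finset.mem_univ _)]
  rfl

theorem mem_Ks (h2 : (2 : L) ≠ 0) (hs : SpinC 𝒟 c0 c1) (hG : 𝒟.Good) {t : J → V} :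
    t ∈ Ks 𝒟 c0 c1 ↔ t ∈ 𝒟.K ∧ 𝒟.om t c0 = 𝒟.Ω c0 c1 • t c0 := by
  rw [Ks, Submodule.mem_inf, LinearMap.mem_ker, uzM_eq h2 hs hG, sub_eq_zero]

theorem Ks_le : Ks 𝒟 c0 c1 ≤ 𝒟.K := inf_le_left

variable [DecidableEq J]

theorem kl_Tt (h2 : (2 : L) ≠ 0) (hs : SpinC 𝒟 c0 c1) (hG : 𝒟.Good) {t : J → V}
    (ht : t ∈ Ks 𝒟 c0 c1) : Kl 𝒟.Ω c0 c1 (Tt L t) := by
  rw [Kl, Tt_single]
  exact ((mem_Ks h2 hs hG).mp ht).2

omit [DecidableEq J] in
/-- **The first order relation.** -/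
theorem first_order_s (hG : 𝒟.Good) (hV : SVersal 𝒟 c0 c1) {x y : J → V} (hx : x ∈ 𝒟.K)
    (hy : y ∈ 𝒟.K) {Y : Fin 3 → End L V} (hY : ∀ s, IsSk 𝒟.q (Y s)) {η : Matrix J J L}
    (hη : ηᵀ = -η) (hηs : ∀ l, η c0 l = η c1 l) :
    ∑ l, ∑ k, η l k * 𝒟.q (x l) (y k) +
      ∑ l, (𝒟.q (Y (𝒟.arm l) (x l)) (𝒟.om y l) + 𝒟.q (Y (𝒟.arm l) (𝒟.om x l)) (y l)) = 0 := by
  obtain ⟨n, hn, hd⟩ := hV Y hY η hη hηs
  have hn' : ∀ l, ∀ v ∈ 𝒟.C l, n.δ v - Y (𝒟.arm l) v ∈ 𝒟.C l := fun l => hn _ _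
  -- `M (x, y) = 0`
  have h0 : ∑ l, 𝒟.q (x l) (𝒟.om y l) = 0 := Finset.sum_eq_zero fun l _ => by
    rw [hG.form.symm]; exact hy.2 l _ (hx.1 l)
  have h1 := congrArg n.d h0
  rw [map_zero, map_sum] at h1
  have h2 : ∀ l, n.d (𝒟.q (x l) (𝒟.om y l)) =
      𝒟.q (Y (𝒟.arm l) (x l)) (𝒟.om y l) + (∑ k, η l k * 𝒟.q (x l) (y k) +
        𝒟.q (x l) (𝒟.om (fun k => n.δ (y k)) l)) := by
    intro l
    rw [n.metric]
    congr 1
    · have h3 := hy.2 l _ (hn' l _ (hx.1 l))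
      rw [hG.form.symm, map_sub, LinearMap.sub_apply, sub_eq_zero] at h3
      exact h3
    · rw [conn_om, map_add, map_sum]
      congr 1
      refine Finset.sum_congr rfl fun k _ => ?_
      rw [map_smul, smul_eq_mul, hd]
  rw [Finset.sum_congr rfl fun l _ => h2 l, Finset.sum_add_distrib, Finset.sum_add_distrib,
    pair_om hG x] at h1
  have h3 : ∀ l, 𝒟.q (n.δ (y l)) (𝒟.om x l) = - 𝒟.q (Y (𝒟.arm l) (𝒟.om x l)) (y l) := by
    intro l
    have h4 := hx.2 l _ (hn' l _ (hy.1 l))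
    rw [map_sub, sub_eq_zero] at h4
    rw [hG.form.symm, h4, hY, neg_neg]
  rw [Finset.sum_congr rfl fun l _ => h3 l, Finset.sum_neg_distrib, neg_neg] at h1
  rw [Finset.sum_add_distrib, ← h1]
  ring

/-- the sum for a basic variation -/
theorem sum_ad1 (f : J → J → L) (i j : J) :
    ∑ l, ∑ k, (ad1 i j : Matrix J J L) l k * f l k = f i j - f j i := by
  have h3 : ∀ l k, (ad1 i j : Matrix J J L) l k * f l k =
      (if l = i then (if k = j then f i j else 0) else 0) -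
        (if l = j then (if k = i then f j i else 0) else 0) := by
    intro l k
    rw [ad1, Matrix.sub_apply, sub_mul]
    congr 1
    · by_cases hl : l = i
      · by_cases hk : k = j
        · rw [hl, hk, if_pos rfl, if_pos rfl, Matrix.single_apply_same, one_mul]
        · rw [if_neg hk, ite_self, Matrix.single_apply_of_ne _ _ _ _ _
            (fun h => hk h.2.symm), zero_mul]
      · rw [if_neg hl, Matrix.single_apply_of_ne _ _ _ _ _
            (fun h => hl h.1.symm), zero_mul]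
    · by_cases hl : l = j
      · by_cases hk : k = i
        · rw [hl, hk, if_pos rfl, if_pos rfl, Matrix.single_apply_same, one_mul]
        · rw [if_neg hk, ite_self, Matrix.single_apply_of_ne _ _ _ _ _
            (fun h => hk h.2.symm), zero_mul]
      · rw [if_neg hl, Matrix.single_apply_of_ne _ _ _ _ _
            (fun h => hl h.1.symm), zero_mul]
  simp only [h3, Finset.sum_sub_distrib]
  simp only [Finset.sum_ite_irrel, Finset.sum_const_zero, Finset.sum_ite_eq', Finset.mem_univ,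
    if_true]

/-- a bilinear criterion for the symmetric relations: the argument of FACT 1, for families in
any space with a bilinear form -/
theorem symm_of_first {W : Type*} [AddCommGroup W] [Module L W] (h2 : (2 : L) ≠ 0)
    {Ω : Matrix J J L} (hsp : SpO Ω c0 c1) {B : V →ₗ[L] W →ₗ[L] L} {x : J → V} {y : J → W}
    {B' : W →ₗ[L] V →ₗ[L] L}
    (hB : ∀ v w, B' w v = B v w)
    (hx : ∑ l, Ω c0 l • x l = Ω c0 c1 • x c0) (hy : ∑ l, Ω c0 l • y l = Ω c0 c1 • y c0)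
    (h : ∀ η : Matrix J J L, ηᵀ = -η → (∀ l, η c0 l = η c1 l) →
      ∑ l, ∑ k, η l k * B (x l) (y k) = 0) (l k : J) : B (x l) (y k) = B (x k) (y l) := by
  have hne := hsp.ne h2
  have hb := hsp.symm_zero h2 (b := fun l k => B (x l) (y k) - B (x k) (y l))
    (fun l k => (neg_sub _ _).symm) ?_ ?_ ?_ l k
  · exact sub_eq_zero.mp hb
  · intro l k hl0 hl1 hk0 hk1
    have h3 := h (ad1 l k) (ad1_skew l k) fun m => by rw [ad1_row hl0 hk0, ad1_row hl1 hk1]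
    rwa [sum_ad1] at h3
  · intro k hk0 hk1
    have h3 := h (ad1 c0 k + ad1 c1 k) (by
      rw [Matrix.transpose_add, ad1_skew, ad1_skew, neg_add]) (ad2_row hne hk0 hk1)
    simp only [Matrix.add_apply, add_mul, Finset.sum_add_distrib] at h3
    rw [sum_ad1, sum_ad1] at h3
    exact h3
  · intro k
    have h3 : ∑ l, Ω c0 l * (B (x l) (y k) - B (x k) (y l)) =
        B' (y k) (∑ l, Ω c0 l • x l) - B (x k) (∑ l, Ω c0 l • y l) := by
      rw [map_sum, map_sum, ← Finset.sum_sub_distrib]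
      refine Finset.sum_congr rfl fun l _ => ?_
      rw [map_smul, map_smul, smul_eq_mul, smul_eq_mul, hB]
      ring
    rw [h3, hx, hy, map_smul, map_smul, smul_eq_mul, smul_eq_mul, hB]
    ring

/-- **FACT 1**: the symmetric relations on the special part of the kernel -/
theorem symm_Ks (h2 : (2 : L) ≠ 0) (hs : SpinC 𝒟 c0 c1) (hG : 𝒟.Good)
    (hV : SVersal 𝒟 c0 c1) {x y : J → V} (hx : x ∈ Ks 𝒟 c0 c1) (hy : y ∈ Ks 𝒟 c0 c1) (l k : J) :
    𝒟.q (x l) (y k) = 𝒟.q (x k) (y l) := by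
  refine symm_of_first h2 (spO_of_spinC hs hG) (B := 𝒟.q) (B' := 𝒟.q)
    (fun v w => hG.form.symm w v) ((mem_Ks h2 hs hG).mp hx).2 ((mem_Ks h2 hs hG).mp hy).2 ?_ l k
  intro η hη hηs
  have h1 := first_order_s hG hV (Ks_le hx) (Ks_le hy) (Y := fun _ => 0)
    (fun s u v => by simp) hη hηs
  simpa using h1

theorem kRelC_s (h2 : (2 : L) ≠ 0) (hs : SpinC 𝒟 c0 c1) (hG : 𝒟.Good)
    (hV : SVersal 𝒟 c0 c1) :
    KRel 𝒟.arm 𝒟.q 𝒟.Ω (Tt L '' (Ks 𝒟 c0 c1 : Set (J → V))) where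
  F1 := by
    rintro _ ⟨r, hr, rfl⟩ _ ⟨r', hr', rfl⟩ x y
    have key : ∀ l k, 𝒟.q (r l) (r' k) = 𝒟.q (r' l) (r k) := fun l k => by
      rw [symm_Ks h2 hs hG hV hr hr', hG.form.symm]
    rw [Tt_apply, Tt_apply, Tt_apply, Tt_apply]
    simp only [map_sum, map_smul, LinearMap.sum_apply, LinearMap.smul_apply, smul_eq_mul]
    refine Finset.sum_congr rfl fun k _ => ?_
    congr 1
    refine Finset.sum_congr rfl fun l _ => ?_
    rw [key]
  F2 := by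
    rintro _ ⟨r, hr, rfl⟩ _ ⟨r', hr', rfl⟩ s v w
    -- the rank two skew endomorphism
    let X : End L V := (𝒟.q v).smulRight w - (𝒟.q w).smulRight v
    have hX : ∀ a, X a = 𝒟.q v a • w - 𝒟.q w a • v := fun a => rfl
    have hXs : IsSk 𝒟.q X := by
      intro a b
      rw [hX, hX]
      simp only [map_sub, map_smul, LinearMap.sub_apply, LinearMap.smul_apply, smul_eq_mul]
      rw [hG.form.symm a w, hG.form.symm a v]
      ring
    have h := first_order_s hG hV (Ks_le hr) (Ks_le hr') (Y := fun s' => if s' = s then X else 0)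
      (fun s' => by
        split_ifs
        · exact hXs
        · intro a b; simp) (η := 0) (by simp) (fun _ => rfl)
    have h1 : ∀ l, 𝒟.q ((if 𝒟.arm l = s then X else 0 : End L V) (r l)) (𝒟.om r' l) +
        𝒟.q ((if 𝒟.arm l = s then X else 0 : End L V) (𝒟.om r l)) (r' l) =
        if 𝒟.arm l = s then 𝒟.q (X (r l)) (𝒟.om r' l) + 𝒟.q (X (𝒟.om r l)) (r' l) else 0 := by
      intro l
      split_ifs
      · rfl
      · simp
    rw [Finset.sum_congr rfl fun l _ => h1 l] at h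
    simp only [Matrix.zero_apply, zero_mul, Finset.sum_const_zero, zero_add] at h
    rw [← Finset.sum_filter] at h
    rw [opr_Tt 𝒟 hG.skew, opr_Tt 𝒟 hG.skew, map_sum, LinearMap.sum_apply, map_sum, ← sub_eq_zero,
      ← Finset.sum_sub_distrib, ← neg_eq_zero, ← Finset.sum_neg_distrib, ← h]
    refine Finset.sum_congr rfl fun l _ => ?_
    rw [hX, hX]
    simp only [map_add, map_sub, map_smul, LinearMap.sub_apply, LinearMap.smul_apply,
      LinearMap.add_apply, smul_eq_mul]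
    rw [hG.form.symm (𝒟.om r' l) v, hG.form.symm (𝒟.om r l) w, hG.form.symm (r' l) v,
      hG.form.symm (r l) w, hG.form.symm (r' l) w, hG.form.symm (𝒟.om r' l) w]
    ring

/-- the realisation hypothesis -/
theorem realC_s (h2 : (2 : L) ≠ 0) (hs : SpinC 𝒟 c0 c1) (hG : 𝒟.Good)
    (hV : SVersal 𝒟 c0 c1) {t : J → V} (ht : t ∈ Ks 𝒟 c0 c1)
    (X : Fin 3 → End L V) (η : Matrix J J L) (hX : ∀ s, IsSk 𝒟.q (X s)) (hη : ηᵀ = -η)
    (hηs : ∀ l, η c0 l = η c1 l)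
    (hT : ∀ x, Tt L t (η *ᵥ x) + ∑ s, X s (Tt L t (Gm 𝒟.arm 𝒟.Ω s *ᵥ x)) = 0) :
    ∃ n : H533.Conn 𝒟.q, ∃ R ∈ Tt L '' (Ks 𝒟 c0 c1 : Set (J → V)),
      (∀ j, n.δ (Tt L t (Pi.single j 1)) =
        X (𝒟.arm j) (Tt L t (Pi.single j 1)) + R (Pi.single j 1)) ∧
        ∀ i j, n.d (𝒟.Ω i j) = η i j := by
  have hΩ' := skew_apply hG.skew
  have hη' := skew_apply hη
  obtain ⟨n, hn, hd⟩ := hV X hX η hη hηs
  have hXη : ∀ k, ∑ l, η k l • t l = X (𝒟.arm k) (𝒟.om t k) -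
      ∑ l, 𝒟.Ω k l • X (𝒟.arm l) (t l) := by
    intro k
    have h1 := hT (Pi.single k 1)
    have h2 : Tt L t (η *ᵥ Pi.single k 1) = - ∑ l, η k l • t l := by
      rw [Tt_apply, ← Finset.sum_neg_distrib]
      refine Finset.sum_congr rfl fun l _ => ?_
      rw [Matrix.mulVec_single_one, Matrix.col_apply, hη' l k, neg_smul]
    have h3 : ∀ s, X s (Tt L t (Gm 𝒟.arm 𝒟.Ω s *ᵥ Pi.single k 1)) =
        ∑ l, ((if 𝒟.arm k = s then 𝒟.Ω k l • X s (t l) else 0) -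
          (if 𝒟.arm l = s then 𝒟.Ω k l • X s (t l) else 0)) := by
      intro s
      rw [Tt_apply, map_sum]
      refine Finset.sum_congr rfl fun l _ => ?_
      rw [Matrix.mulVec_single_one, Matrix.col_apply, Gm_apply, hΩ' l k, map_smul]
      split_ifs <;> simp
    have h4 : ∑ s, X s (Tt L t (Gm 𝒟.arm 𝒟.Ω s *ᵥ Pi.single k 1)) =
        X (𝒟.arm k) (𝒟.om t k) - ∑ l, 𝒟.Ω k l • X (𝒟.arm l) (t l) := by
      rw [Finset.sum_congr rfl fun s _ => h3 s, Finset.sum_comm]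
      simp only [Finset.sum_sub_distrib, Finset.sum_ite_eq, Finset.mem_univ, if_true]
      rw [Cfg.om, map_sum]
      simp only [map_smul]
    rw [h2, h4] at h1
    have h5 := neg_eq_zero.mpr h1
    rw [neg_add, neg_neg, neg_sub] at h5
    rw [← sub_eq_zero, ← h5]
    abel
  have htK := Ks_le ht
  have hom : ∀ l, 𝒟.om (fun l => n.δ (t l) - X (𝒟.arm l) (t l)) l =
      n.δ (𝒟.om t l) - X (𝒟.arm l) (𝒟.om t l) := by
    intro l
    rw [conn_om]
    have h2 : 𝒟.om (fun l => n.δ (t l) - X (𝒟.arm l) (t l)) l =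
        𝒟.om (fun l => n.δ (t l)) l - ∑ k, 𝒟.Ω l k • X (𝒟.arm k) (t k) := by
      simp only [Cfg.om, smul_sub, Finset.sum_sub_distrib]
    simp only [hd]
    rw [h2, hXη]
    abel
  refine ⟨n, Tt L (fun l => n.δ (t l) - X (𝒟.arm l) (t l)), ⟨_, ?_, rfl⟩, fun j => ?_, hd⟩
  · rw [SetLike.mem_coe, mem_Ks h2 hs hG]
    refine ⟨⟨fun l => hn _ _ _ (htK.1 l), fun l => ?_⟩, ?_⟩
    · rw [hom]
      exact conn_perp n (hX _) (hn _ _) _ (htK.2 l)
    · rw [hom, ((mem_Ks h2 hs hG).mp ht).2, n.smul, hd, hηs, skew_diag h2 hη, zero_smul, zero_add,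
        map_smul, smul_sub]
  · rw [Tt_single, Tt_single]
    abel

/-- `t` has a core of maximal dimension among the elements of the special part of the kernel -/
def MaxCoreS (𝒟 : Cfg L V J) (c0 c1 : J) (t : J → V) : Prop :=
  t ∈ Ks 𝒟 c0 c1 ∧ ∀ t' ∈ Ks 𝒟 c0 c1, ∀ C : Core 𝒟.q (Res 𝒟 t), ∀ C' : Core 𝒟.q (Res 𝒟 t'),
      finrank L C'.V1 ≤ finrank L C.V1

theorem exists_maxCoreS [FiniteDimensional L V] (𝒟 : Cfg L V J) (c0 c1 : J) :
    ∃ t, MaxCoreS 𝒟 c0 c1 t := by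
  classical
  let P : ℕ → Prop := fun d => ∃ t ∈ Ks 𝒟 c0 c1, ∃ C : Core 𝒟.q (Res 𝒟 t), finrank L C.V1 = d
  have hP : ∃ d, P d := by
    obtain ⟨C⟩ := exists_core 𝒟.q (Res 𝒟 (0 : J → V))
    exact ⟨_, 0, Submodule.zero_mem _, C, rfl⟩
  have hb : ∀ d, P d → d ≤ finrank L V := by
    rintro d ⟨t, _, C, rfl⟩
    exact Submodule.finrank_le _
  obtain ⟨t, ht, C, hC⟩ := Nat.findGreatest_spec (P := P) (hb _ hP.choose_spec) hP.choose_spec
  refine ⟨t, ht, fun t' ht' C1 C' => ?_⟩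
  rw [finrank_core' C1 C, hC]
  exact Nat.le_findGreatest (Submodule.finrank_le _) ⟨t', ht', C', rfl⟩

/-- **The dichotomy for special configurations.** -/
theorem dichotomyS [FiniteDimensional L V] [IsAlgClosed L] [CharZero L]
    (hs : SpinC 𝒟 c0 c1) (hG : 𝒟.Good)
    (hV : SVersal 𝒟 c0 c1) {t : J → V} (ht : MaxCoreS 𝒟 c0 c1 t) (C : Core 𝒟.q (Res 𝒟 t)) :
    NullCore C hG.form ∨ ∀ t' ∈ Ks 𝒟 c0 c1, ∃ d : L, ∀ a : Fin 3 → L,
      IsNilpotent (lc (Res 𝒟 (t' - d • t)) a) := by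
  by_cases hnull : NullCore C hG.form
  · exact Or.inl hnull
  right
  intro t' ht'
  have hq : IsForm 𝒟.q := hG.form
  have h2 : (2 : L) ≠ 0 := two_ne_zero
  have hK := kRelC_s h2 hs hG hV
  have hT : Tt L t ∈ Tt L '' (Ks 𝒟 c0 c1 : Set (J → V)) := ⟨t, ht.1, rfl⟩
  have hT' : Tt L t' ∈ Tt L '' (Ks 𝒟 c0 c1 : Set (J → V)) := ⟨t', ht', rfl⟩
  have hSA := Sop_SA 𝒟.arm hq (Tt L t) hG.skew
  obtain ⟨D, hDs, hD1, hD2⟩ := C.exists_D hq hSA (hK.compat hq hG.skew hT hT')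
  rcases one_eigenvalue_or_null_s hq h2 (spO_of_spinC hs hG) hK hT (kl_Tt h2 hs hG ht.1)
    (fun X η hX hη hηs hTη => realC_s h2 hs hG hV ht.1 X η hX hη hηs hTη)
    (fun s => nilp_Res hG (Ks_le ht.1) s) C hT' hD1 hD2 hDs with ⟨d, hd⟩ | h
  swap
  · exact absurd h hnull
  refine ⟨d, fun a => ?_⟩
  have hx : t' - d • t ∈ Ks 𝒟 c0 c1 := Submodule.sub_mem _ ht' (Submodule.smul_mem _ _ ht.1)
  have hy : t + (t' - d • t) ∈ Ks 𝒟 c0 c1 := Submodule.add_mem _ ht.1 hx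
  have hxe : Tt L (t' - d • t) = Tt L t' - d • Tt L t := by rw [Tt_sub, Tt_smul]
  have hx' : Tt L t' - d • Tt L t ∈ Tt L '' (Ks 𝒟 c0 c1 : Set (J → V)) := ⟨_, hx, hxe⟩
  have hTe : Tt L (t + (t' - d • t)) = Tt L t + (Tt L t' - d • Tt L t) := by rw [Tt_add, hxe]
  have hTx : Tt L t + (Tt L t' - d • Tt L t) ∈ Tt L '' (Ks 𝒟 c0 c1 : Set (J → V)) :=
    ⟨_, hy, hTe⟩
  have hmax : ∀ C' : Core 𝒟.q (Sop 𝒟.arm 𝒟.q (Tt L t + (Tt L t' - d • Tt L t)) 𝒟.Ω),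
      finrank L C'.V1 ≤ finrank L C.V1 := by
    rw [← hTe]
    exact fun C' => ht.2 _ hy C C'
  obtain ⟨C'⟩ := exists_core 𝒟.q
    (Sop 𝒟.arm 𝒟.q (Tt L t + (Tt L t' - d • Tt L t)) 𝒟.Ω)
  show IsNilpotent (lc (Sop 𝒟.arm 𝒟.q (Tt L (t' - d • t)) 𝒟.Ω) a)
  rw [hxe]
  exact nilpotent_sub hq hG.skew hK hT hx' hTx C C' (hmax C') hD1 hD2 hd a

end cfg

end Vale.Agent.P182.H588
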