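import Vale.Agent.P182.H578.NullU1

/-!
# Realisation, with the localisation of the condition `∑ u_l z_l = 0`
-/

namespace Vale.Agent.P182.H588

open Module Matrix Vale.Agent.P182.H533 Vale.Agent.P182.B1 Vale.Agent.P182.H922
  Vale.Agent.P182.H338 Vale.Agent.P182.H578

variable {L V J : Type*} [Field L] [AddCommGroup V] [Module L V] [Fintype J] [DecidableEq J]

/-- the realisation property, and the condition `∑ u_l z_l = 0` is a condition on one `Ω`-row -/
structure RealL (𝒟 : Cfg L V J) (u σ : J → L) : Prop extends RealU 𝒟 u σ where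
  loc : u = 0 ∨ ∃ (c0 : J) (w : L), (∀ z : J → V, ∑ l, u l • z l = 𝒟.om z c0 - w • z c0) ∧
    ∀ n : H533.Conn 𝒟.q, (∀ l, ∑ k, n.d (𝒟.Ω l k) * σ k = 0) → n.d w = 0

variable {𝒟 : Cfg L V J}

/-- versal configurations -/
theorem realL_versal (hV : 𝒟.Versal) : RealL 𝒟 0 0 where
  toRealU := realU_versal hV
  loc := Or.inl rfl

/-- special configurations -/
theorem realL_spin (h2 : (2 : L) ≠ 0) {c0 c1 : J} (hs : SpinC 𝒟 c0 c1) (hG : 𝒟.Good)
    (hV : SVersal 𝒟 c0 c1) :
    RealL 𝒟 (uz 𝒟 c0 c1) (Pi.single c0 1 - Pi.single c1 1) where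
  toRealU := realU_spin h2 hs hG hV
  loc := by
    refine Or.inr ⟨c0, 𝒟.Ω c0 c1, fun z => uzM_eq h2 hs hG z, fun n hσ => ?_⟩
    have h1 := hσ c0
    have h3 : ∀ k, n.d (𝒟.Ω c0 k) * (Pi.single c0 1 - Pi.single c1 1 : J → L) k =
        (if k = c0 then n.d (𝒟.Ω c0 c0) else 0) - (if k = c1 then n.d (𝒟.Ω c0 c1) else 0) := by
      intro k
      rw [Pi.sub_apply, mul_sub, Pi.single_apply, Pi.single_apply]
      split_ifs with h4 h5 h5
      · rw [← h4, ← h5]; ring
      · rw [h4]; ring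
      · rw [h5]; ring
      · ring
    rw [Finset.sum_congr rfl fun k _ => h3 k, Finset.sum_sub_distrib, Finset.sum_ite_eq',
      Finset.sum_ite_eq', if_pos (Finset.mem_univ _), if_pos (Finset.mem_univ _),
      skew_diag h2 hG.skew, map_zero, zero_sub, neg_eq_zero] at h1
    exact h1

end Vale.Agent.P182.H588
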