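import Vale.Agent.P182.H532.SSurj
import Vale.Agent.P182.H588.SDicho
import Vale.Agent.P182.H588.Uu
import Vale.Agent.P182.H578.NullU1
import Vale.Agent.P182.H578.RealRS
import Vale.Agent.P182.H578.GenU
import Vale.Agent.P182.H922.CritN
import Vale.Agent.P182.H532.GSurj
import Vale.Agent.P182.H588.RealL

/-!
# The common context of the null case

`u : J → L` is a vector of coefficients; `Uu u` is the space of families killing `u`, and
`Ku 𝒟 u = K ⊓ Uu u`.  For `u = 0` this is the kernel of a configuration, for `u = u₀` the special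
part of the kernel of a special configuration.
-/

namespace Vale.Agent.P182.H588

open Module Matrix Vale.Agent.P182.H533 Vale.Agent.P182.H922 Vale.Agent.P182.B1
  Vale.Agent.P182.H338 Vale.Agent.P182.H578

universe u v w

section defs

variable {L : Type u} {V : Type v} {J : Type w} [Field L] [AddCommGroup V] [Module L V]
  [Fintype J]

theorem Ku_uz (𝒟 : Cfg L V J) (c0 c1 : J) : Ku 𝒟 (uz 𝒟 c0 c1) = Ks 𝒟 c0 c1 := rfl

variable [DecidableEq J]

/-- `t` has a core of maximal dimension -/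
def MaxCoreU (𝒟 : Cfg L V J) (u : J → L) (t : J → V) : Prop :=
  t ∈ Ku 𝒟 u ∧ ∀ t' ∈ Ku 𝒟 u, ∀ C : Core 𝒟.q (Res 𝒟 t), ∀ C' : Core 𝒟.q (Res 𝒟 t'),
      finrank L C'.V1 ≤ finrank L C.V1

/-- the derivatives of `t` along the connections preserving everything span `Ku` -/
def MovesU (𝒟 : Cfg L V J) (u : J → L) (t : J → V) : Prop :=
  ∀ z ∈ Ku 𝒟 u, ∃ n : H533.Conn 𝒟.q, (∀ s i, ∀ f ∈ 𝒟.F s i, n.δ f ∈ 𝒟.F s i) ∧
    (∀ l k, n.d (𝒟.Ω l k) = 0) ∧ ∀ l, n.δ (t l) = z l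

variable [FiniteDimensional L V]

/-- **The context**: everything about the deformations that the null case uses. -/
structure Ctx (𝒟 : Cfg L V J) (u : J → L) : Prop where
  good : 𝒟.Good
  krel : KRel 𝒟.arm 𝒟.q 𝒟.Ω (Tt L '' (Ku 𝒟 u : Set (J → V)))
  surj : ∀ t ∈ Ku 𝒟 u, ∀ β : Fin 3 → End L V, (∀ s, IsSA 𝒟.q (β s)) →
    (∀ s, β s * Res 𝒟 t s = Res 𝒟 t s * β s) →
    (∀ t' ∈ Ku 𝒟 u, ∑ s, LinearMap.trace L V
      (β s * opr 𝒟.q (Tt L t) (Gm 𝒟.arm 𝒟.Ω s) (Tt L t')) = 0) →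
    ∃ r ∈ Uu V u, (∀ l k, 𝒟.q (t l) (r k) = 𝒟.q (r l) (t k)) ∧
      (∀ s, IsSA 𝒟.q (opr 𝒟.q (Tt L t) (Gm 𝒟.arm 𝒟.Ω s) (Tt L r))) ∧
      ∀ l, β (𝒟.arm l) (t l) - r l ∈ 𝒟.C l ∧
        β (𝒟.arm l) (𝒟.om t l) - 𝒟.om r l ∈ perp 𝒟.q (𝒟.C l)
  dicho : ∀ t, MaxCoreU 𝒟 u t → ∀ C : Core 𝒟.q (Res 𝒟 t), NullCore C good.form ∨
    ∀ t' ∈ Ku 𝒟 u, ∃ d : L, ∀ a : Fin 3 → L, IsNilpotent (lc (Res 𝒟 (t' - d • t)) a)
  real : ∃ σ : J → L, RealU 𝒟 u σ
  realS : ∀ t ∈ Ku 𝒟 u, MovesU 𝒟 u t → ∀ C : Core 𝒟.q (Res 𝒟 t),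
    H89.RealS C.q1 (C.S1 good.form)
  realL : ∃ σ : J → L, RealL 𝒟 u σ
  gsurj : ∀ t ∈ Ku 𝒟 u, ∀ β : Fin 3 → End L V, (∀ s, IsSA 𝒟.q (β s)) →
    (∀ n : H533.Conn 𝒟.q, ∑ l, (𝒟.q (n.δ (𝒟.om t l)) (β (𝒟.arm l) (t l)) +
      𝒟.q (n.δ (t l)) (β (𝒟.arm l) (𝒟.om t l))) = 0) →
    (∀ t' ∈ Ku 𝒟 u, ∑ s, LinearMap.trace L V
      (β s * opr 𝒟.q (Tt L t) (Gm 𝒟.arm 𝒟.Ω s) (Tt L t')) = 0) →
    ∃ r ∈ Uu V u, (∀ l k, 𝒟.q (t l) (r k) = 𝒟.q (r l) (t k)) ∧
      (∀ s, IsSA 𝒟.q (opr 𝒟.q (Tt L t) (Gm 𝒟.arm 𝒟.Ω s) (Tt L r) - Res 𝒟 t s * β s)) ∧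
      ∀ l, β (𝒟.arm l) (t l) - r l ∈ 𝒟.C l ∧
        β (𝒟.arm l) (𝒟.om t l) - 𝒟.om r l ∈ perp 𝒟.q (𝒟.C l)

/-- critical configurations in a context: `Ku` has dimension two, no isotropic elements, and
strongly nilpotent elements are isotropic -/
structure CritU (𝒟 : Cfg L V J) (u : J → L) : Prop where
  ctx : Ctx 𝒟 u
  rich : 𝒟.Rich
  dim : finrank L (Ku 𝒟 u) = 2
  f1 : ∀ x ∈ Ku 𝒟 u, (∀ a : Fin 3 → L, IsNilpotent (lc (Res 𝒟 x) a)) → x = 0
  noIso : ∀ w ∈ Ku 𝒟 u, (∀ l k, 𝒟.q (w l) (w k) = 0) → w = 0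

end defs

section versal

variable {L : Type u} {V : Type v} {J : Type w} [Field L] [AddCommGroup V] [Module L V]
  [Fintype J] [DecidableEq J] [FiniteDimensional L V] [IsAlgClosed L] [CharZero L]
  {𝒟 : Cfg L V J}

omit [FiniteDimensional L V] [IsAlgClosed L] [CharZero L] in
theorem maxCoreU_zero {t : J → V} (h : MaxCoreU 𝒟 0 t) : MaxCoreC 𝒟 t := by
  unfold MaxCoreU at h
  rw [Ku_zero] at h
  exact h

/-- versal configurations are a context -/
theorem ctx_versal (hG : 𝒟.Good) (hV : 𝒟.Versal) : Ctx 𝒟 0 where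
  good := hG
  krel := by rw [Ku_zero]; exact kRelC hG hV
  surj := by
    rw [Ku_zero]
    intro t ht β hβ hβS htr
    obtain ⟨r, h1, h2, h3⟩ := surj_gen two_ne_zero hG hV ht hβ hβS htr
    exact ⟨r, by rw [mem_Uu]; simp, h1, h2, h3⟩
  dicho := by
    intro t ht C
    have h1 := dichotomyC hG hV (maxCoreU_zero ht) C
    rw [Ku_zero]
    exact h1
  real := ⟨0, realU_versal hV⟩
  realS := by
    intro t ht hm C
    rw [Ku_zero] at ht
    refine H258.realS_core hG hV ht ?_ C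
    unfold MovesU at hm
    rw [Ku_zero] at hm
    exact hm
  realL := ⟨0, realL_versal hV⟩
  gsurj := by
    rw [Ku_zero]
    intro t ht β hβ hn htr
    obtain ⟨r, h1, h2, h3⟩ := SPIN.gsurj two_ne_zero hG hV ht hβ hn htr
    exact ⟨r, by rw [mem_Uu]; simp, h1, h2, h3⟩

/-- special configurations are a context -/
theorem ctx_spin {c0 c1 : J} (hs : SpinC 𝒟 c0 c1) (hG : 𝒟.Good) (hV : SVersal 𝒟 c0 c1) :
    Ctx 𝒟 (uz 𝒟 c0 c1) where
  good := hG
  krel := kRelC_s two_ne_zero hs hG hV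
  surj := by
    intro t ht β hβ hβS htr
    obtain ⟨r, h0, h1, h2, h3⟩ := SPIN.surj_genS two_ne_zero hG (SPIN.Sp.of_spinC hs) hV ht hβ
      hβS htr
    exact ⟨r, h0, h1, h2, h3⟩
  dicho := fun t ht C => dichotomyS hs hG hV ht C
  real := ⟨_, realU_spin two_ne_zero hs hG hV⟩
  realS := fun t ht hm C => realS_core_s hs hG hV ht hm C
  realL := ⟨_, realL_spin two_ne_zero hs hG hV⟩
  gsurj := by
    intro t ht β hβ hn htr
    obtain ⟨r, h0, h1, h2, h3⟩ := SPIN.gsurjS two_ne_zero hG (SPIN.Sp.of_spinC hs) hV ht hβ hn htr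
    exact ⟨r, h0, h1, h2, h3⟩

/-- the two notions of critical configurations -/
theorem critU_of_critN (h : CritN 𝒟) : CritU 𝒟 0 where
  ctx := ctx_versal h.good h.versal
  rich := h.rich
  dim := by rw [Ku_zero]; exact h.dim
  f1 := by rw [Ku_zero]; exact fun x hx hn => h.f1 hx hn
  noIso := by rw [Ku_zero]; exact h.noIso

end versal

section hyp

variable (L : Type u) (J : Type w) [Field L] [Fintype J] [DecidableEq J]

/-- **The null case does not occur**, for both classes. -/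
def HypNullU : Prop := ∀ (V : Type v) [AddCommGroup V] [Module L V] [FiniteDimensional L V]
  (𝒟 : Cfg L V J) (u : J → L) (h : CritU 𝒟 u) (t : J → V), MaxCoreU 𝒟 u t → MovesU 𝒟 u t →
  ∀ C : Core 𝒟.q (Res 𝒟 t), 0 < finrank L C.V1 → ∀ t' ∈ Ku 𝒟 u, ∀ D : End L C.V1, IsSA C.q1 D →
  (∀ s, C.res h.ctx.good.form (opr 𝒟.q (Tt L t) (Gm 𝒟.arm 𝒟.Ω s) (Tt L t')) =
    C.S1 h.ctx.good.form s * D) →
  (∀ s, C.res h.ctx.good.form (opr 𝒟.q (Tt L t) (Gm 𝒟.arm 𝒟.Ω s) (Tt L t')) =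
    D * C.S1 h.ctx.good.form s) →
  (∃ a b : L, a ≠ b ∧ D.HasEigenvalue a ∧ D.HasEigenvalue b) → ¬ NullCore C h.ctx.good.form

/-- **General elements**, for both classes. -/
def HypGenU : Prop := ∀ (V : Type v) [AddCommGroup V] [Module L V] [FiniteDimensional L V]
  (𝒟 : Cfg L V J) (u : J → L), CritU 𝒟 u → ∃ t : J → V, MaxCoreU 𝒟 u t ∧ MovesU 𝒟 u t

/-- **General elements exist.** -/
theorem hypGenU [IsAlgClosed L] [CharZero L] : HypGenU.{u, v, w} L J := by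
  intro V _ _ _ 𝒟 u h
  obtain ⟨σ, hσ⟩ := h.ctx.real
  exact exists_gen_sub h.ctx.good h.rich (Ku 𝒟 u) (fun c hc z hz => isD_Ku hσ hc hz) h.dim

theorem hypNull4_of_U [IsAlgClosed L] [CharZero L] (h : HypNullU.{u, v, w} L J) :
    HypNull4.{u, v, w} L J := by
  intro V _ _ _ 𝒟 hN t ht hm C h0 t' ht' D hDs hD1 hD2 hD3
  refine h V 𝒟 0 (critU_of_critN hN) t ?_ ?_ C h0 t' ?_ D hDs hD1 hD2 hD3
  · unfold MaxCoreU; rw [Ku_zero]; exact ht
  · unfold MovesU; rw [Ku_zero]; exact hm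
  · rw [Ku_zero]; exact ht'

theorem hypGenT_of_U [IsAlgClosed L] [CharZero L] (h : HypGenU.{u, v, w} L J) :
    HypGenT.{u, v, w} L J := by
  intro V _ _ _ 𝒟 hN
  obtain ⟨t, ht, hm⟩ := h V 𝒟 0 (critU_of_critN hN)
  refine ⟨t, maxCoreU_zero ht, ?_⟩
  unfold MovesU at hm
  rw [Ku_zero] at hm
  exact hm

end hyp

section main

variable {L : Type u} {V : Type v} {J : Type w} [Field L] [AddCommGroup V] [Module L V]
  [Fintype J] [DecidableEq J] [IsAlgClosed L] [CharZero L] [FiniteDimensional L V]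

/-- **There are no critical configurations in a context**, given the null case. -/
theorem not_critU (h4 : HypNullU.{u, v, w} L J) (hR : HypGenU.{u, v, w} L J)
    (𝒟 : Cfg L V J) (u : J → L) : ¬ CritU 𝒟 u := by
  intro h
  obtain ⟨t, ht, hm⟩ := hR V 𝒟 u h
  obtain ⟨C⟩ := exists_core 𝒟.q (Res 𝒟 t)
  have hG := h.ctx.good
  have hSA : ∀ x : J → V, ∀ s, IsSA 𝒟.q (Res 𝒟 x s) := fun x s =>
    Sop_SA 𝒟.arm hG.form (Tt L x) hG.skew s
  by_cases h0 : finrank L C.V1 = 0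
  · -- the trivial core
    obtain ⟨x, hx⟩ : ∃ x : Ku 𝒟 u, x ≠ 0 := by
      apply (Module.finrank_pos_iff_exists_ne_zero (R := L)).mp
      rw [h.dim]; norm_num
    apply hx
    apply Subtype.ext
    refine h.f1 _ x.2 (fun a => ?_)
    obtain ⟨C'⟩ := exists_core 𝒟.q (Res 𝒟 (x : J → V))
    have h1 := ht.2 _ x.2 C C'
    rw [h0, Nat.le_zero, Submodule.finrank_eq_zero] at h1
    exact nilpotent_of_trivial hG.form (hSA _) C' h1 a
  · -- a second element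
    obtain ⟨t', ht', htt'⟩ : ∃ x ∈ Ku 𝒟 u, x ∉ Submodule.span L {t} := by
      by_contra hcon
      push Not at hcon
      have h1 : finrank L (Ku 𝒟 u) ≤ finrank L (Submodule.span L {t}) :=
        Submodule.finrank_mono (fun x hx => hcon x hx)
      have h2 : finrank L (Submodule.span L {t}) ≤ 1 := by
        have := finrank_span_le_card (R := L) ({t} : Set (J → V))
        simpa using this
      rw [h.dim] at h1
      omega
    have hq : IsForm 𝒟.q := hG.form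
    have hK := h.ctx.krel
    have hTm : ∀ x ∈ Ku 𝒟 u, Tt L x ∈ Tt L '' (Ku 𝒟 u : Set (J → V)) := fun x hx => ⟨x, hx, rfl⟩
    have hSA' := Sop_SA 𝒟.arm hq (Tt L t) hG.skew
    obtain ⟨D, hDs, hD1, hD2⟩ := C.exists_D hq hSA'
      (hK.compat hq hG.skew (hTm _ ht.1) (hTm _ ht'))
    have key : ∀ a : L, ¬ ∀ μ, D.HasEigenvalue μ → μ = a := by
      intro a hab
      have hnil := nilp_of_two (b := a) D fun μ hμ => Or.inl (hab μ hμ)
      have hmem : t' - a • t ∈ Ku 𝒟 u :=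
        Submodule.sub_mem _ ht' (Submodule.smul_mem _ _ ht.1)
      have hop : ∀ s, opr 𝒟.q (Tt L t) (Gm 𝒟.arm 𝒟.Ω s) (Tt L (t' - a • t)) =
          opr 𝒟.q (Tt L t) (Gm 𝒟.arm 𝒟.Ω s) (Tt L t') +
            (-a) • Res 𝒟 t s := by
        intro s
        have hxe : Tt L (t' - a • t) = Tt L t' + (-a) • Tt L t := by
          rw [Tt_sub, Tt_smul, neg_smul, sub_eq_add_neg]
        rw [hxe, opr_add_right, opr_smul_right]
        rfl
      have e1 : ∀ s, (-a) • C.S1 hq s = -(a • C.S1 hq s) := fun s =>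
        LinearMap.ext fun v => Subtype.ext (neg_smul a (C.S1 hq s v : V))
      have hDd1 : ∀ s,
          C.res hq (opr 𝒟.q (Tt L t) (Gm 𝒟.arm 𝒟.Ω s) (Tt L (t' - a • t))) =
          C.S1 hq s * (D - a • (1 : End L C.V1)) := by
        intro s
        rw [hop, C.res_add, C.res_smul, C.res_S, hD1, mul_sub, mul_smul_comm, mul_one, e1,
          ← sub_eq_add_neg]
      have hDd2 : ∀ s,
          C.res hq (opr 𝒟.q (Tt L t) (Gm 𝒟.arm 𝒟.Ω s) (Tt L (t' - a • t))) =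
          (D - a • (1 : End L C.V1)) * C.S1 hq s := by
        intro s
        rw [hop, C.res_add, C.res_smul, C.res_S, hD2, sub_mul, smul_mul_assoc, one_mul, e1,
          ← sub_eq_add_neg]
      have hnp : ∀ c : Fin 3 → L, IsNilpotent (lc (fun s => opr 𝒟.q (Tt L (t' - a • t))
          (Gm 𝒟.arm 𝒟.Ω s) (Tt L (t' - a • t))) c) := by
        intro c
        refine nilpotent_pair hq hG.skew hK (hTm _ ht.1) (x := Tt L (t' - a • t))
          (y := Tt L (t' - a • t)) (fun r => ?_) (fun r => ?_) (hTm _ hmem) C ?_ hDd1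
          hDd2 hDd1 hDd2 hnil c
        · rw [← Tt_smul]
          exact hTm _ (Submodule.smul_mem _ _ hmem)
        · rw [← Tt_smul, ← Tt_add]
          exact hTm _ (Submodule.add_mem _ ht.1 (Submodule.smul_mem _ _ hmem))
        · intro r
          rw [← Tt_smul, ← Tt_add]
          exact fun C' => ht.2 _ (Submodule.add_mem _ ht.1 (Submodule.smul_mem _ _ hmem)) C C'
      have h4 : t' - a • t ≠ 0 := by
        intro hd
        apply htt'
        rw [sub_eq_zero.mp hd]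
        exact Submodule.smul_mem _ _ (Submodule.mem_span_singleton_self t)
      exact h4 (h.f1 _ hmem hnp)
    -- there are at least two eigenvalues
    obtain ⟨a, ha, -⟩ : ∃ a, D.HasEigenvalue a ∧ True := by
      by_contra hcon
      push Not at hcon
      exact key 0 fun μ hμ => absurd trivial (by simpa using hcon μ hμ)
    obtain ⟨b, hb, hab⟩ : ∃ b, D.HasEigenvalue b ∧ a ≠ b := by
      by_contra hcon
      push Not at hcon
      exact key a fun μ hμ => (hcon μ hμ).symm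
    -- the dichotomy
    rcases h.ctx.dicho t ht C with hn | hd
    · exact h4 V 𝒟 u h t ht hm C (Nat.pos_of_ne_zero h0) t' ht' D hDs hD1 hD2
        ⟨a, b, hab, ha, hb⟩ hn
    obtain ⟨d, hd⟩ := hd t' ht'
    have hy : t' - d • t ∈ Ku 𝒟 u := Submodule.sub_mem _ ht' (Submodule.smul_mem _ _ ht.1)
    have h1 := h.f1 _ hy hd
    apply htt'
    rw [sub_eq_zero.mp h1]
    exact Submodule.smul_mem _ _ (Submodule.mem_span_singleton_self t)

end main

end Vale.Agent.P182.H588
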