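import Vale.Agent.P182.H588.Base

/-!
# Saturation factor one for integral weights, from `T`
-/

namespace Vale.Agent.P182.H588

open Module Matrix TensorProduct LieAlgebra.Orthogonal Vale.Agent.P182 Vale.Agent.P182.H533
open Vale.Agent.P182.H62 Vale.Agent.P182.B1

attribute [local instance 100] LieRing.ofAssociativeRing

/-- The statement `T` for semistable configurations of even degree: the kernel is zero. -/
def TSemi : Prop :=
  ∀ (J : Type) [Fintype J] [DecidableEq J] (L V : Type) [Field L] [IsAlgClosed L] [CharZero L]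
    [AddCommGroup V] [Module L V] [FiniteDimensional L V] (𝒟 : Cfg L V J),
    𝒟.Good → 𝒟.Versal → USemi 𝒟 → Even (∑ l, finrank L (𝒟.C l)) → 𝒟.K = ⊥

theorem tSemi_of_hypT (hyp : ∀ (J : Type) [Fintype J], HypT.{0, 0} J) : TSemi := by
  intro J _ _ L V _ _ _ _ _ _ 𝒟 g hV hs he
  exact K_eq_bot_of_even (hyp J) 𝒟 g hV hs he

section generic

variable {n : ℕ} {C : Type}

/-- A form which does not vanish at a complex point does not vanish at the generic point. -/
theorem generic_ne {mu : Fin 3 → Fin n → ℤ} {f : (CellT mu → Fin n ⊕ Fin n) → ℂ}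
    {g' : Fin 3 → Matrix (Fin n ⊕ Fin n) (Fin n ⊕ Fin n) ℂ} {l : List (so n)}
    {ev : GR C →ₐ[ℂ] ℂ} (hev : ∀ s, (genG C (gword l) s).map ev = g' s)
    (hne : ∑ β, f β * asymT mu g' β ≠ 0) :
    ∑ β, algebraMap ℂ (GF C) (f β) * asymT mu (gF C (gword l)) β ≠ 0 := by
  have h1 : ∑ β, algebraMap ℂ (GF C) (f β) * asymT mu (gF C (gword l)) β =
      toGF C (∑ β, algebraMap ℂ (GR C) (f β) * asymT mu (genG C (gword l)) β) := by
    rw [map_sum]
    refine Finset.sum_congr rfl fun β _ => ?_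
    rw [map_mul, AlgHom.commutes]
    congr 1
    exact (asymT_map (toGF C).toRingHom _ _ β).symm
  have h2 : ev (∑ β, algebraMap ℂ (GR C) (f β) * asymT mu (genG C (gword l)) β) =
      ∑ β, f β * asymT mu g' β := by
    rw [map_sum]
    refine Finset.sum_congr rfl fun β _ => ?_
    rw [map_mul, AlgHom.commutes]
    congr 1
    refine (asymT_map ev.toRingHom _ _ β).trans ?_
    congr 1
    funext s
    exact hev s
  rw [h1]
  intro h0
  have h3 := toGF_injective (h0.trans (map_zero _).symm)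
  rw [h3, map_zero] at h2
  exact hne h2.symm

end generic

section int

variable {n : ℕ}

theorem domZ_smul {lam : Fin 3 → Fin n → ℤ} (hl : ∀ s, DomZ (lam s)) (N : ℕ) (s : Fin 3) :
    DomZ (fun i => (N : ℤ) * lam s i) := by
  intro i j hij
  have := hl s i j hij
  rw [abs_mul, abs_of_nonneg (by positivity : (0 : ℤ) ≤ N)]
  exact mul_le_mul_of_nonneg_left this (by positivity)

/-- **Saturation from the core statement** (integral weights, semistability over every extension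
field). -/
theorem hasInvariants_of_coreU (hn : 2 ≤ n) {lam : Fin 3 → Fin n → ℤ} (hl : ∀ s, DomZ (lam s))
    (core : ∀ l : List (so n), (∀ x ∈ l, x ∈ rootSet n) → USemi (bCfg lam l) →
      (gramT lam (gK (ColT lam) (gword l)) ΩK).det ≠ 0)
    {N : ℕ} (hN : 0 < N)
    {V₀ V₁ V₂ W₀ W₁ W₂ : Type*} [AddCommGroup V₀] [Module ℂ V₀]
    [LieRingModule (so n) V₀] [LieModule ℂ (so n) V₀] [AddCommGroup V₁] [Module ℂ V₁]
    [LieRingModule (so n) V₁] [LieModule ℂ (so n) V₁] [AddCommGroup V₂] [Module ℂ V₂]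
    [LieRingModule (so n) V₂] [LieModule ℂ (so n) V₂] [AddCommGroup W₀] [Module ℂ W₀]
    [LieRingModule (so n) W₀] [LieModule ℂ (so n) W₀] [AddCommGroup W₁] [Module ℂ W₁]
    [LieRingModule (so n) W₁] [LieModule ℂ (so n) W₁] [AddCommGroup W₂] [Module ℂ W₂]
    [LieRingModule (so n) W₂] [LieModule ℂ (so n) W₂]
    [LieModule.IsIrreducible ℂ (so n) V₀] [LieModule.IsIrreducible ℂ (so n) V₁]
    [LieModule.IsIrreducible ℂ (so n) V₂] [LieModule.IsIrreducible ℂ (so n) W₀]
    [LieModule.IsIrreducible ℂ (so n) W₁] [LieModule.IsIrreducible ℂ (so n) W₂]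
    (v₀ : HasHighestWeight (fun i => (lam 0 i : ℚ)) V₀)
    (v₁ : HasHighestWeight (fun i => (lam 1 i : ℚ)) V₁)
    (v₂ : HasHighestWeight (fun i => (lam 2 i : ℚ)) V₂)
    (w₀ : HasHighestWeight (fun i => ((N : ℤ) * lam 0 i : ℤ)) W₀)
    (w₁ : HasHighestWeight (fun i => ((N : ℤ) * lam 1 i : ℤ)) W₁)
    (w₂ : HasHighestWeight (fun i => ((N : ℤ) * lam 2 i : ℤ)) W₂)
    (h : HasInvariants (n := n) W₀ W₁ W₂) : HasInvariants (n := n) V₀ V₁ V₂ := by
  rw [hasInvariants_iff_form hn (lam := fun s i => (N : ℤ) * lam s i) (domZ_smul hl N)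
    w₀ w₁ w₂] at h
  obtain ⟨f, hf, g', hg', hne⟩ := h
  obtain ⟨l, hlr, ev, hev⟩ := exists_gword (ColT lam) hg'
  have hne' := generic_ne hev hne
  have hdet := core l hlr (uSemi_bCfg hl hN hlr hf hne')
  have hdet' : (gramT lam (genG (ColT lam) (gword l)) genΩ).det ≠ 0 := by
    intro h0
    apply hdet
    have h1 : gramT lam (gF (ColT lam) (gword l)) gΩ =
        (gramT lam (genG (ColT lam) (gword l)) genΩ).map (toGF (ColT lam)).toRingHom :=
      (gramT_map _ _ _ _).symm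
    have h2 : gramT lam (gK (ColT lam) (gword l)) ΩK =
        (gramT lam (gF (ColT lam) (gword l)) gΩ).map
          (algebraMap (GF (ColT lam)) (GK (ColT lam))) :=
      (gramT_map _ _ _ _).symm
    rw [h2, ← RingHom.mapMatrix_apply, ← RingHom.map_det, h1, ← RingHom.mapMatrix_apply,
      ← RingHom.map_det, h0, map_zero, map_zero]
  obtain ⟨ev', hev'⟩ := exists_ev hdet'
  rw [hasInvariants_iff_form hn hl v₀ v₁ v₂]
  have hdet'' : (gramT lam (fun s => (genG (ColT lam) (gword l) s).map ev')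
      (fun c c' => ev' (genΩ c c'))).det ≠ 0 := by
    have h1 : gramT lam (fun s => (genG (ColT lam) (gword l) s).map ev')
      (fun c c' => ev' (genΩ c c')) =
        (gramT lam (genG (ColT lam) (gword l)) genΩ).map ev'.toRingHom :=
      (gramT_map ev'.toRingHom _ _ _).symm
    rw [h1, ← RingHom.mapMatrix_apply, ← RingHom.map_det]
    exact hev'
  obtain ⟨f', hf', hne''⟩ := exists_invF_of_gram lam _ _
    (fun c c' => by rw [genΩ_skew, map_neg]) hdet''
  exact ⟨f', hf', _, fun s => genG_ev (gword_root hlr) ev' s, hne''⟩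

/-- **Saturation factor one for integral weights**, from `T`. -/
theorem hasInvariants_of_TSemi (hT : TSemi) (hn : 2 ≤ n) {lam : Fin 3 → Fin n → ℤ}
    (hl : ∀ s, DomZ (lam s)) (he : Even (∑ i, (lam 0 i + lam 1 i + lam 2 i)))
    {N : ℕ} (hN : 0 < N)
    {V₀ V₁ V₂ W₀ W₁ W₂ : Type*} [AddCommGroup V₀] [Module ℂ V₀]
    [LieRingModule (so n) V₀] [LieModule ℂ (so n) V₀] [AddCommGroup V₁] [Module ℂ V₁]
    [LieRingModule (so n) V₁] [LieModule ℂ (so n) V₁] [AddCommGroup V₂] [Module ℂ V₂]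
    [LieRingModule (so n) V₂] [LieModule ℂ (so n) V₂] [AddCommGroup W₀] [Module ℂ W₀]
    [LieRingModule (so n) W₀] [LieModule ℂ (so n) W₀] [AddCommGroup W₁] [Module ℂ W₁]
    [LieRingModule (so n) W₁] [LieModule ℂ (so n) W₁] [AddCommGroup W₂] [Module ℂ W₂]
    [LieRingModule (so n) W₂] [LieModule ℂ (so n) W₂]
    [LieModule.IsIrreducible ℂ (so n) V₀] [LieModule.IsIrreducible ℂ (so n) V₁]
    [LieModule.IsIrreducible ℂ (so n) V₂] [LieModule.IsIrreducible ℂ (so n) W₀]
    [LieModule.IsIrreducible ℂ (so n) W₁] [LieModule.IsIrreducible ℂ (so n) W₂]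
    (v₀ : HasHighestWeight (fun i => (lam 0 i : ℚ)) V₀)
    (v₁ : HasHighestWeight (fun i => (lam 1 i : ℚ)) V₁)
    (v₂ : HasHighestWeight (fun i => (lam 2 i : ℚ)) V₂)
    (w₀ : HasHighestWeight (fun i => ((N : ℤ) * lam 0 i : ℤ)) W₀)
    (w₁ : HasHighestWeight (fun i => ((N : ℤ) * lam 1 i : ℤ)) W₁)
    (w₂ : HasHighestWeight (fun i => ((N : ℤ) * lam 2 i : ℤ)) W₂)
    (h : HasInvariants (n := n) W₀ W₁ W₂) : HasInvariants (n := n) V₀ V₁ V₂ := by
  classical
  refine hasInvariants_of_coreU hn hl (fun l hlr hs => ?_) hN v₀ v₁ v₂ w₀ w₁ w₂ h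
  exact gram_det_ne_zero hl (fun s => gK_orth (gword_root hlr) s) ΩK
    (hT _ _ _ _ (bCfg_good hlr) (bCfg_versal hn hlr) hs (even_bCfg he hlr))

end int

end Vale.Agent.P182.H588
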