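import Vale.Agent.P182.H430.NFinal
import Vale.Agent.P182.H588.SDicho

/-!
# T-SPIN: the matrix `Ω'` of special data is nonsingular
-/

namespace Vale.Agent.P182.H588

open Module Matrix Vale.Agent.P182.H430

variable {k : Type*} [Field k] {J : Type*} [Fintype J]

/-- special data -/
structure SpinN (X : NData k J) (c0 c1 : J) : Prop where
  arm0 : X.arm c0 = 0
  arm1 : X.arm c1 = 1
  len0 : X.c c0 = X.n
  len1 : X.c c1 = X.n
  sp : ∀ l, l ≠ c0 → l ≠ c1 → X.Ω c0 l = X.Ω c1 l
  ne : X.Ω c0 c1 ≠ 0

/-- versality of special data -/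
def VersS (X : NData k J) (c0 c1 : J) : Prop := ∀ η : J → J → k, (∀ l m, η l m = -η m l) →
  (∀ l, η c0 l = η c1 l) → ∃ d : NData.Ders X, ∀ l m, d.1 (X.Ω l m) = η l m

variable {X : NData k J} {c0 c1 : J}

omit [Fintype J] in
theorem SpinN.ne01 [Fintype J] {X : NData k J} (h : SpinN X c0 c1) : c0 ≠ c1 := by
  rintro rfl
  have h1 := h.arm0
  rw [h.arm1] at h1
  exact absurd h1 (by decide)

variable [DecidableEq J]

/-- the derivative of the kernel equations -/
theorem ker_deriv {w : J → k} (hw : ∀ l, ∑ m, X.Om' l m * w m = 0) (d : NData.Ders X)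
    {η : J → J → k} (hd : ∀ l m, d.1 (X.Ω l m) = η l m) :
    ∑ l, ∑ m, η l m * ((X.z (X.arm l) - X.z (X.arm m)) * w l * w m) = 0 := by
  have h1 : ∀ l, ∑ m, ((X.z (X.arm l) - X.z (X.arm m)) * η l m * w m +
      X.Om' l m * d.1 (w m)) = 0 := by
    intro l
    have h3 := congrArg d.1 (hw l)
    rw [map_zero, map_sum] at h3
    refine Eq.trans (Finset.sum_congr rfl fun m _ => ?_) h3
    rw [Derivation.leibniz, X.d_Om' d hd, smul_eq_mul, smul_eq_mul]
    ring
  have h3 : ∑ l, w l * ∑ m, ((X.z (X.arm l) - X.z (X.arm m)) * η l m * w m +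
      X.Om' l m * d.1 (w m)) = 0 := Finset.sum_eq_zero fun l _ => by rw [h1, mul_zero]
  have e1 : ∑ m, d.1 (w m) * ∑ l, X.Om' m l * w l =
      ∑ l, ∑ m, w l * (X.Om' l m * d.1 (w m)) := by
    rw [Finset.sum_comm]
    refine Finset.sum_congr rfl fun m _ => ?_
    rw [Finset.mul_sum]
    refine Finset.sum_congr rfl fun l _ => ?_
    rw [X.Om'_symm m l]
    ring
  have h4 : ∑ l, w l * ∑ m, ((X.z (X.arm l) - X.z (X.arm m)) * η l m * w m +
      X.Om' l m * d.1 (w m)) =
      (∑ l, ∑ m, η l m * ((X.z (X.arm l) - X.z (X.arm m)) * w l * w m)) +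
      ∑ m, d.1 (w m) * ∑ l, X.Om' m l * w l := by
    rw [e1, ← Finset.sum_add_distrib]
    refine Finset.sum_congr rfl fun l _ => ?_
    rw [Finset.mul_sum, ← Finset.sum_add_distrib]
    refine Finset.sum_congr rfl fun m _ => ?_
    ring
  rw [h4] at h3
  simpa only [hw, mul_zero, Finset.sum_const_zero, add_zero] using h3

/-- counting -/
theorem card_lt_of_ker (hV : VersS X c0 c1) {w : J → k} {a : J} (ha : w a ≠ 0) (ha0 : a ≠ c0)
    (ha1 : a ≠ c1) {R Cc : Finset J} (haC : a ∈ Cc) (hRC : ∀ l ∈ R, l ∉ Cc)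
    (hR : ¬ (c0 ∈ R ∧ c1 ∈ R)) (heq : ∀ l ∈ R, ∑ m ∈ Cc, X.Ω l m * w m = 0) :
    R.card < Cc.card := by
  let A : (Cc → k) →ₗ[k] (R → k) := Matrix.mulVecLin (fun l m => X.Ω l.1 m.1)
  have hA : ∀ v l, A v l = ∑ m : Cc, X.Ω l.1 m.1 * v m := fun v l => rfl
  have hw1 : ∀ l ∈ R, ∑ m : Cc, X.Ω l m * w m = 0 := by
    intro l hl
    exact (Finset.sum_coe_sort Cc (fun m => X.Ω l m * w m)).trans (heq l hl)
  have hAw : A (fun m => w m.1) = 0 := by
    funext l
    rw [hA]
    exact hw1 l.1 l.2
  have hAs : Function.Surjective A := by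
    intro u
    -- the direction
    obtain ⟨v, hv, hvR⟩ : ∃ v : J → k, v c0 = v c1 ∧ ∀ l (hl : l ∈ R), v l = u ⟨l, hl⟩ * (w a)⁻¹ := by
      let v0 : J → k := fun l => if h : l ∈ R then u ⟨l, h⟩ * (w a)⁻¹ else 0
      by_cases h0 : c0 ∈ R
      · have h1 : c1 ∉ R := fun h1 => hR ⟨h0, h1⟩
        refine ⟨fun l => if l = c1 then v0 c0 else v0 l, ?_, fun l hl => ?_⟩
        · beta_reduce
          rw [if_pos rfl]
          split_ifs <;> rfl
        · beta_reduce
          rw [if_neg (fun h : l = c1 => h1 (by rw [← h]; exact hl))]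
          exact dif_pos hl
      · refine ⟨fun l => if l = c0 then v0 c1 else v0 l, ?_, fun l hl => ?_⟩
        · beta_reduce
          rw [if_pos rfl]
          split_ifs <;> rfl
        · beta_reduce
          rw [if_neg (fun h : l = c0 => h0 (by rw [← h]; exact hl))]
          exact dif_pos hl
    obtain ⟨d, hd⟩ := hV (fun l m => (if m = a then v l else 0) - (if l = a then v m else 0))
      (fun l m => by ring) (fun l => by
        rw [if_neg (Ne.symm ha0), if_neg (Ne.symm ha1), hv])
    refine ⟨fun m => -d.1 (w m.1), ?_⟩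
    funext l
    rw [hA]
    have h1 := congrArg d.1 (hw1 l.1 l.2)
    rw [map_zero, map_sum] at h1
    have hla : l.1 ≠ a := fun h => hRC l.1 l.2 (h ▸ haC)
    have h3 : ∑ m : Cc, d.1 (X.Ω l.1 m.1 * w m.1) =
        ∑ m : Cc, ((if m.1 = a then v l.1 else 0) * w m.1 + X.Ω l.1 m.1 * d.1 (w m.1)) := by
      refine Finset.sum_congr rfl fun m _ => ?_
      rw [Derivation.leibniz, hd, smul_eq_mul, smul_eq_mul]
      rw [if_neg hla]
      ring
    rw [h3, Finset.sum_add_distrib] at h1
    have h4 : ∑ m : Cc, (if m.1 = a then v l.1 else 0) * w m.1 = u l := by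
      rw [Finset.sum_eq_single (⟨a, haC⟩ : Cc)]
      · rw [if_pos rfl, hvR l.1 l.2, mul_assoc, inv_mul_cancel₀ ha, mul_one]
      · intro m _ hm
        rw [if_neg (fun h => hm (Subtype.ext h)), zero_mul]
      · intro h; exact absurd (Finset.mem_univ _) h
    rw [h4] at h1
    simp only [mul_neg, Finset.sum_neg_distrib]
    exact (eq_neg_of_add_eq_zero_left h1).symm
  -- dimensions
  have hr := A.finrank_range_add_finrank_ker
  rw [LinearMap.range_eq_top.2 hAs, finrank_top, Module.finrank_pi, Module.finrank_pi,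
    Fintype.card_coe, Fintype.card_coe] at hr
  have hker : 0 < finrank k (LinearMap.ker A) := by
    have hne : (⟨fun m => w m.1, hAw⟩ : LinearMap.ker A) ≠ 0 := by
      intro h
      have h1 : (fun m : Cc => w m.1) = 0 := congrArg Subtype.val h
      exact ha (congrFun h1 ⟨a, haC⟩)
    exact Module.finrank_pos_iff_exists_ne_zero.2 ⟨_, hne⟩
  omega

/-- **The matrix `Ω'` of special data is nonsingular.** -/
theorem det_unit_s (h2 : (2 : k) ≠ 0) (hs : SpinN X c0 c1) (hV : VersS X c0 c1)
    (hJ0 : 2 * (Finset.univ.filter fun l => X.arm l = 0).card ≤ Fintype.card J)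
    (hJ1 : 2 * (Finset.univ.filter fun l => X.arm l = 1).card ≤ Fintype.card J)
    (hJ2 : 2 * (Finset.univ.filter fun l => X.arm l = 2).card + 1 ≤ Fintype.card J) :
    IsUnit X.Om'.det := by
  by_contra hdet
  have hdet0 : X.Om'.det = 0 := by
    by_contra h
    exact hdet (isUnit_iff_ne_zero.2 h)
  obtain ⟨w, hw0, hw⟩ := Matrix.exists_mulVec_eq_zero_iff.2 hdet0
  have hw' : ∀ l, ∑ m, X.Om' l m * w m = 0 := fun l => congrFun hw l
  have hne := hs.ne01
  have hz : ∀ s t : Fin 3, s ≠ t → X.z s - X.z t ≠ 0 := fun s t h =>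
    sub_ne_zero.2 fun h' => h (X.hz h')
  have hskew : X.Ωᵀ = - X.Ω := by
    ext l m
    rw [Matrix.transpose_apply, Matrix.neg_apply]
    exact X.skew m l
  -- first order conditions
  have s1 : ∀ a b, a ≠ c0 → a ≠ c1 → b ≠ c0 → b ≠ c1 → X.arm a ≠ X.arm b → w a * w b = 0 := by
    intro a b ha0 ha1 hb0 hb1 hab
    obtain ⟨d, hd⟩ := hV (fun l m => (ad1 a b : Matrix J J k) l m)
      (fun l m => skew_apply (ad1_skew a b) l m)
      (fun l => by rw [ad1_row ha0 hb0, ad1_row ha1 hb1])
    have h3 := ker_deriv hw' d hd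
    rw [sum_ad1] at h3
    have h5 : (2 * (X.z (X.arm a) - X.z (X.arm b))) * (w a * w b) = 0 := by
      linear_combination h3
    exact (mul_eq_zero.1 h5).resolve_left (mul_ne_zero h2 (hz _ _ hab))
  have s2 : ∀ a, a ≠ c0 → a ≠ c1 → w a ≠ 0 →
      (X.z 0 - X.z (X.arm a)) * w c0 + (X.z 1 - X.z (X.arm a)) * w c1 = 0 := by
    intro a ha0 ha1 ha
    obtain ⟨d, hd⟩ := hV (fun l m => (ad1 c0 a + ad1 c1 a : Matrix J J k) l m)
      (fun l m => skew_apply (by
        rw [Matrix.transpose_add, ad1_skew, ad1_skew, neg_add]) l m)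
      (ad2_row hne ha0 ha1)
    have h3 := ker_deriv hw' d hd
    simp only [Matrix.add_apply, add_mul, Finset.sum_add_distrib] at h3
    rw [sum_ad1, sum_ad1, hs.arm0, hs.arm1] at h3
    have h5 : (2 * w a) * ((X.z 0 - X.z (X.arm a)) * w c0 +
        (X.z 1 - X.z (X.arm a)) * w c1) = 0 := by
      linear_combination h3
    exact (mul_eq_zero.1 h5).resolve_left (mul_ne_zero h2 ha)
  -- the equations of an arm
  have s3 : ∀ s, (∀ m, X.arm m ≠ s → w m = 0) → ∀ l, X.arm l ≠ s →
      ∑ m ∈ Finset.univ.filter (fun m => X.arm m = s), X.Ω l m * w m = 0 := by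
    intro s hsupp l hl
    have h1 := hw' l
    have h3 : (X.z (X.arm l) - X.z s) *
        ∑ m ∈ Finset.univ.filter (fun m => X.arm m = s), X.Ω l m * w m = 0 := by
      rw [← h1, Finset.mul_sum, Finset.sum_filter]
      refine Finset.sum_congr rfl fun m _ => ?_
      unfold NData.Om'
      split_ifs with h
      · rw [h]; ring
      · rw [hsupp m h, mul_zero]
    exact (mul_eq_zero.1 h3).resolve_left (hz _ _ hl)
  by_cases hall : ∀ a, a ≠ c0 → a ≠ c1 → w a = 0
  · apply hw0
    have e1 : w c1 = 0 := by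
      have h1 := hw' c0
      rw [Finset.sum_eq_single c1] at h1
      · unfold NData.Om' at h1
        rw [hs.arm0, hs.arm1, mul_assoc] at h1
        exact (mul_eq_zero.1 ((mul_eq_zero.1 h1).resolve_left (hz 0 1 (by decide)))).resolve_left
          hs.ne
      · intro m _ hm
        by_cases hm0 : m = c0
        · rw [hm0]; unfold NData.Om'; rw [sub_self]; ring
        · rw [hall m hm0 hm, mul_zero]
      · intro h; exact absurd (Finset.mem_univ _) h
    have e0 : w c0 = 0 := by
      have h1 := hw' c1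
      rw [Finset.sum_eq_single c0] at h1
      · unfold NData.Om' at h1
        rw [hs.arm0, hs.arm1, mul_assoc, X.skew c1 c0] at h1
        exact (mul_eq_zero.1 ((mul_eq_zero.1 h1).resolve_left (hz 1 0 (by decide)))).resolve_left
          (neg_ne_zero.2 hs.ne)
      · intro m _ hm
        by_cases hm1 : m = c1
        · rw [hm1]; unfold NData.Om'; rw [sub_self]; ring
        · rw [hall m hm hm1, mul_zero]
      · intro h; exact absurd (Finset.mem_univ _) h
    funext m
    by_cases hm0 : m = c0
    · rw [hm0, e0]; rfl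
    by_cases hm1 : m = c1
    · rw [hm1, e1]; rfl
    · exact hall m hm0 hm1
  push Not at hall
  obtain ⟨a, ha0, ha1, ha⟩ := hall
  have hsupp : ∀ b, b ≠ c0 → b ≠ c1 → X.arm b ≠ X.arm a → w b = 0 := fun b hb0 hb1 hb =>
    (mul_eq_zero.1 (s1 a b ha0 ha1 hb0 hb1 (Ne.symm hb))).resolve_left ha
  have hrel := s2 a ha0 ha1 ha
  have hcompl : ∀ s : Fin 3, (Finset.univ.filter fun l => X.arm l ≠ s).card +
      (Finset.univ.filter fun l => X.arm l = s).card = Fintype.card J := by
    intro s
    rw [add_comm, Finset.card_filter_add_card_filter_not]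
    rfl
  rcases (show ∀ s : Fin 3, s = 0 ∨ s = 1 ∨ s = 2 by decide) (X.arm a) with h | h | h
  · -- the first arm
    rw [h] at hrel hsupp
    have e1 : w c1 = 0 := by
      have h1 : (X.z 1 - X.z 0) * w c1 = 0 := by linear_combination hrel
      exact (mul_eq_zero.1 h1).resolve_left (hz 1 0 (by decide))
    have hsupp' : ∀ m, X.arm m ≠ 0 → w m = 0 := by
      intro m hm
      by_cases hm1 : m = c1
      · rw [hm1, e1]
      · exact hsupp m (fun h => hm (by rw [h, hs.arm0])) hm1 hm
    have := card_lt_of_ker hV ha ha0 ha1 (R := Finset.univ.filter fun l => X.arm l ≠ 0)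
      (Cc := Finset.univ.filter fun l => X.arm l = 0) (by simp [h]) (fun l hl => by
        simp only [Finset.mem_filter, Finset.mem_univ, true_and] at hl ⊢
        exact hl) (fun h' => by
        have := h'.1
        simp only [Finset.mem_filter, Finset.mem_univ, true_and] at this
        exact this hs.arm0) (fun l hl => s3 0 hsupp' l (by
        simp only [Finset.mem_filter, Finset.mem_univ, true_and] at hl
        exact hl))
    have := hcompl 0
    omega
  · -- the second arm
    rw [h] at hrel hsupp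
    have e0 : w c0 = 0 := by
      have h1 : (X.z 0 - X.z 1) * w c0 = 0 := by linear_combination hrel
      exact (mul_eq_zero.1 h1).resolve_left (hz 0 1 (by decide))
    have hsupp' : ∀ m, X.arm m ≠ 1 → w m = 0 := by
      intro m hm
      by_cases hm0 : m = c0
      · rw [hm0, e0]
      · exact hsupp m hm0 (fun h => hm (by rw [h, hs.arm1])) hm
    have := card_lt_of_ker hV ha ha0 ha1 (R := Finset.univ.filter fun l => X.arm l ≠ 1)
      (Cc := Finset.univ.filter fun l => X.arm l = 1) (by simp [h]) (fun l hl => by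
        simp only [Finset.mem_filter, Finset.mem_univ, true_and] at hl ⊢
        exact hl) (fun h' => by
        have := h'.2
        simp only [Finset.mem_filter, Finset.mem_univ, true_and] at this
        exact this hs.arm1) (fun l hl => s3 1 hsupp' l (by
        simp only [Finset.mem_filter, Finset.mem_univ, true_and] at hl
        exact hl))
    have := hcompl 1
    omega
  · -- the third arm
    rw [h] at hrel hsupp
    set x := ∑ m ∈ Finset.univ.filter (fun m => X.arm m = 2), X.Ω c0 m * w m with hx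
    have hx1 : x = ∑ m ∈ Finset.univ.filter (fun m => X.arm m = 2), X.Ω c1 m * w m := by
      rw [hx]
      refine Finset.sum_congr rfl fun m hm => ?_
      simp only [Finset.mem_filter, Finset.mem_univ, true_and] at hm
      rw [hs.sp m (fun h' => by rw [h', hs.arm0] at hm; exact absurd hm (by decide))
        (fun h' => by rw [h', hs.arm1] at hm; exact absurd hm (by decide))]
    have E0 : (X.z 0 - X.z 2) * x + (X.z 0 - X.z 1) * X.Ω c0 c1 * w c1 = 0 := by
      have h1 := hw' c0
      have h3 : ∀ m, X.Om' c0 m * w m =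
          (if X.arm m = 2 then (X.z 0 - X.z 2) * (X.Ω c0 m * w m) else 0) +
            (if m = c1 then (X.z 0 - X.z 1) * X.Ω c0 c1 * w c1 else 0) := by
        intro m
        unfold NData.Om'
        rw [hs.arm0]
        by_cases hm0 : m = c0
        · rw [hm0, hs.arm0, if_neg (by decide), if_neg hne]; ring
        by_cases hm1 : m = c1
        · rw [hm1, hs.arm1, if_neg (by decide), if_pos rfl]; ring
        · rw [if_neg hm1]
          split_ifs with hm
          · rw [hm]; ring
          · rw [hsupp m hm0 hm1 hm]; ring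
      rw [Finset.sum_congr rfl fun m _ => h3 m, Finset.sum_add_distrib, ← Finset.sum_filter,
        ← Finset.mul_sum, Finset.sum_ite_eq', if_pos (Finset.mem_univ _)] at h1
      exact h1
    have E1 : (X.z 1 - X.z 2) * x + (X.z 0 - X.z 1) * X.Ω c0 c1 * w c0 = 0 := by
      have h1 := hw' c1
      have h3 : ∀ m, X.Om' c1 m * w m =
          (if X.arm m = 2 then (X.z 1 - X.z 2) * (X.Ω c1 m * w m) else 0) +
            (if m = c0 then (X.z 0 - X.z 1) * X.Ω c0 c1 * w c0 else 0) := by
        intro m
        unfold NData.Om'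
        rw [hs.arm1]
        by_cases hm1 : m = c1
        · rw [hm1, hs.arm1, if_neg (by decide), if_neg hne.symm]; ring
        by_cases hm0 : m = c0
        · rw [hm0, hs.arm0, if_neg (by decide), if_pos rfl, X.skew c1 c0]; ring
        · rw [if_neg hm0]
          split_ifs with hm
          · rw [hm]; ring
          · rw [hsupp m hm0 hm1 hm]; ring
      rw [Finset.sum_congr rfl fun m _ => h3 m, Finset.sum_add_distrib, ← Finset.sum_filter,
        ← Finset.mul_sum, ← hx1, Finset.sum_ite_eq', if_pos (Finset.mem_univ _)] at h1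
      exact h1
    have hx0 : x = 0 := by
      have h1 : (2 * ((X.z 0 - X.z 2) * (X.z 1 - X.z 2))) * x = 0 := by
        linear_combination (X.z 1 - X.z 2) * E0 + (X.z 0 - X.z 2) * E1 -
          (X.z 0 - X.z 1) * X.Ω c0 c1 * hrel
      exact (mul_eq_zero.1 h1).resolve_left (mul_ne_zero h2 (mul_ne_zero (hz 0 2 (by decide))
        (hz 1 2 (by decide))))
    have hg : (X.z 0 - X.z 1) * X.Ω c0 c1 ≠ 0 := mul_ne_zero (hz 0 1 (by decide)) hs.ne
    rw [hx0, mul_zero, zero_add] at E0 E1
    have e1 := (mul_eq_zero.1 E0).resolve_left hg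
    have e0 := (mul_eq_zero.1 E1).resolve_left hg
    have hsupp' : ∀ m, X.arm m ≠ 2 → w m = 0 := by
      intro m hm
      by_cases hm0 : m = c0
      · rw [hm0, e0]
      by_cases hm1 : m = c1
      · rw [hm1, e1]
      · exact hsupp m hm0 hm1 hm
    have h5 := card_lt_of_ker hV ha ha0 ha1
      (R := (Finset.univ.filter fun l => X.arm l ≠ 2).erase c1)
      (Cc := Finset.univ.filter fun l => X.arm l = 2) (by simp [h]) (fun l hl => by
        simp only [Finset.mem_erase, Finset.mem_filter, Finset.mem_univ, true_and] at hl ⊢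
        exact hl.2) (fun h' => by
        have := h'.2
        simp at this) (fun l hl => s3 2 hsupp' l (by
        simp only [Finset.mem_erase, Finset.mem_filter, Finset.mem_univ, true_and] at hl
        exact hl.2))
    have h6 : c1 ∈ Finset.univ.filter fun l => X.arm l ≠ 2 := by
      simp only [Finset.mem_filter, Finset.mem_univ, true_and]
      rw [hs.arm1]
      decide
    rw [Finset.card_erase_of_mem h6] at h5
    have h7 := Finset.card_pos.2 ⟨c1, h6⟩
    have := hcompl 2
    omega

end Vale.Agent.P182.H588
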