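import Vale.Agent.P182.H578.F1Cfg
import Vale.Agent.P182.H588.SDet
import Vale.Agent.P182.H887.Perp

/-!
# T-SPIN: strongly nilpotent elements of the special kernel are orthogonal to the special kernel

The theorem N1 for the special bundle, in constants form, is the hypothesis `N1S`.
-/

namespace Vale.Agent.P182.H588

open Module Matrix Vale.Agent.P182.H430 Vale.Agent.P182.H533 Vale.Agent.P182.H578
  Vale.Agent.P182.H922 Vale.Agent.P182.B1 Vale.Agent.P182.H338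

universe u v

/-- **N1 for special data, constants form** -/
def N1S (L : Type u) [Field L] : Prop := ∀ (J : Type v) [Fintype J] [DecidableEq J]
  (X : NData L J) (c0 c1 : J), SpinN X c0 c1 → VersS X c0 c1 → IsUnit X.Om'.det →
  ∀ g : Matrix J J L, gᵀ = g →
    (∀ m, ∑ l, X.Ω c0 l * g l m = X.Ω c0 c1 * g c0 m) →
    (∀ l m, X.arm l = X.arm m → g l m = 0) →
    (∀ l m, X.arm l = X.arm m → X.c l ≤ X.c m → ∑ j, g l j * X.Ω m j = 0) →
    (∀ l m, X.arm l = X.arm m → X.arm l ≠ 2 → X.c l = X.n → X.c m = X.n →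
      ∑ i, ∑ j, X.Ω l i * X.Ω m j * g i j = 0) →
    IsNilpotent (X.GG (FractionRing (Polynomial L)) *
      g.map (algebraMap L (FractionRing (Polynomial L)))) → g = 0

section restrict

variable {L : Type u} {J : Type v} [Field L] [Fintype J]

theorem restrict_main_s [DecidableEq J] [CharZero L] {arm : J → Fin 3} {c : J → ℕ} {Ω : Matrix J J L} {c0 c1 : J}
    (hΩ : Ωᵀ = -Ω) (hc0 : 1 ≤ c c0) (hc1 : 1 ≤ c c1) {g : Matrix J J L} (hg : gᵀ = g)
    (hu : ∀ m, ∑ l, Ω c0 l * g l m = Ω c0 c1 * g c0 m)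
    (h0 : ∀ l k, arm l = arm k → g l k = 0)
    (h1 : ∀ l k, arm l = arm k → c l ≤ c k → (g * Ω) l k = 0)
    (h3 : ∀ l m, arm l = arm m → arm l ≠ 2 → c l = Finset.univ.sup c → c m = Finset.univ.sup c →
      ∑ i, ∑ j, Ω l i * Ω m j * g i j = 0)
    (hz : ∀ l k, c l = 0 → g l k = 0)
    (hn : ∀ a : Fin 3 → L, IsNilpotent ((∑ s, a s • Gm arm Ω s) * g))
    (H : ∀ g' : Matrix {l // 1 ≤ c l} {l // 1 ≤ c l} L, g'ᵀ = g' →
      (∀ m, ∑ l, (restrData arm c Ω hΩ).Ω ⟨c0, hc0⟩ l * g' l m =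
        (restrData arm c Ω hΩ).Ω ⟨c0, hc0⟩ ⟨c1, hc1⟩ * g' ⟨c0, hc0⟩ m) →
      (∀ l m, (restrData arm c Ω hΩ).arm l = (restrData arm c Ω hΩ).arm m → g' l m = 0) →
      (∀ l m, (restrData arm c Ω hΩ).arm l = (restrData arm c Ω hΩ).arm m →
        (restrData arm c Ω hΩ).c l ≤ (restrData arm c Ω hΩ).c m →
        ∑ j, g' l j * (restrData arm c Ω hΩ).Ω m j = 0) →
      (∀ l m, (restrData arm c Ω hΩ).arm l = (restrData arm c Ω hΩ).arm m →
        (restrData arm c Ω hΩ).arm l ≠ 2 →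
        (restrData arm c Ω hΩ).c l = (restrData arm c Ω hΩ).n →
        (restrData arm c Ω hΩ).c m = (restrData arm c Ω hΩ).n →
        ∑ i, ∑ j, (restrData arm c Ω hΩ).Ω l i * (restrData arm c Ω hΩ).Ω m j * g' i j = 0) →
      (∀ a : Fin 3 → L, IsNilpotent ((∑ s, a s • Gm (restrData arm c Ω hΩ).arm
        (restrData arm c Ω hΩ).Ω s) * g')) → g' = 0) : g = 0 := by
  have hz' : ∀ l k, ¬ 1 ≤ c l → g l k = 0 := fun l k h => hz l k (by omega)
  have hg' : ∀ l k, g l k = g k l := fun l k => congrFun (congrFun hg k) l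
  have hz'' : ∀ l k, ¬ 1 ≤ c k → g l k = 0 := fun l k h => by rw [hg', hz' k l h]
  -- sums over the subset
  have hsub : ∀ f : J → L, (∀ j, ¬ 1 ≤ c j → f j = 0) →
      ∑ j, f j = ∑ j : {x // 1 ≤ c x}, f j := by
    intro f hf
    rw [← Fintype.sum_subtype_add_sum_subtype (fun j => 1 ≤ c j)]
    have h4 : ∑ i : {x // ¬ 1 ≤ c x}, f i = 0 := Finset.sum_eq_zero fun i _ => hf i i.2
    rw [h4, add_zero]
  have key := H (rsm _ g) ?_ ?_ ?_ ?_ ?_ ?_
  · ext l k
    by_cases hl : 1 ≤ c l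
    · by_cases hk : 1 ≤ c k
      · exact congrFun (congrFun key ⟨l, hl⟩) ⟨k, hk⟩
      · exact hz'' l k hk
    · exact hz' l k hl
  · ext l k
    exact hg' _ _
  · intro m
    have h4 := hu m
    rw [hsub _ fun j hj => by rw [hz' j m hj, mul_zero]] at h4
    exact h4
  · intro l m h
    exact h0 l m h
  · intro l m h hc
    have h2 := h1 l m h hc
    rw [Matrix.mul_apply, ← Fintype.sum_subtype_add_sum_subtype (fun j => 1 ≤ c j)] at h2
    have h3 : ∑ i : {x // ¬ 1 ≤ c x}, g l i * Ω i m = 0 :=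
      Finset.sum_eq_zero fun i _ => by rw [hz'' l i i.2, zero_mul]
    rw [h3, add_zero] at h2
    have h4 : ∀ j : {x // 1 ≤ c x}, g l j * Ω m j = - (g l j * Ω j m) := by
      intro j
      have := congrFun (congrFun hΩ j.1) m.1
      rw [Matrix.transpose_apply, Matrix.neg_apply] at this
      rw [this]
      ring
    show ∑ j : {x // 1 ≤ c x}, g l j * Ω m j = 0
    simp only [h4]
    rw [Finset.sum_neg_distrib, h2, neg_zero]
  · intro l m h h2 hl hm
    have h4 := h3 l m h h2 hl hm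
    rw [hsub _ fun i hi => Finset.sum_eq_zero fun j _ => by rw [hz' i j hi, mul_zero]] at h4
    rw [← h4]
    refine Finset.sum_congr rfl fun i _ => ?_
    exact (hsub (fun j => Ω l i * Ω m j * g i j) fun j hj => by
      rw [hz'' i j hj, mul_zero]).symm
  · intro a
    have h2 : ∑ s, a s • Gm (restrData arm c Ω hΩ).arm (restrData arm c Ω hΩ).Ω s =
        rsm _ (∑ s, a s • Gm arm Ω s) := rsm_lin _ arm Ω a
    obtain ⟨n, hn⟩ := hn a
    refine ⟨n, ?_⟩
    rw [h2, rsm_mul _ hz', (rsm_pow (fun l k hk => ?_) n).1, hn]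
    · rfl
    · rw [Matrix.mul_apply]
      exact Finset.sum_eq_zero fun j _ => by rw [hz'' j k hk, mul_zero]

/-- versality of the restricted data -/
theorem restrData_versS [CharZero L] {arm : J → Fin 3} {c : J → ℕ} {Ω : Matrix J J L} {c0 c1 : J}
    (hΩ : Ωᵀ = -Ω) (hc0 : 1 ≤ c c0) (hc1 : 1 ≤ c c1)
    (hV : ∀ η : Matrix J J L, ηᵀ = -η → (∀ l, η c0 l = η c1 l) → ∃ d : L →+ L,
      (∀ a b, d (a * b) = d a * b + a * d b) ∧ ∀ l k, d (Ω l k) = η l k) :
    VersS (restrData arm c Ω hΩ) ⟨c0, hc0⟩ ⟨c1, hc1⟩ := by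
  intro η hη hηs
  let η' : Matrix J J L := Matrix.of fun l m =>
    if h : 1 ≤ c l ∧ 1 ≤ c m then η ⟨l, h.1⟩ ⟨m, h.2⟩ else 0
  have hη0 : ∀ l m, η' l m = if h : 1 ≤ c l ∧ 1 ≤ c m then η ⟨l, h.1⟩ ⟨m, h.2⟩ else 0 :=
    fun l m => rfl
  have hη' : η'ᵀ = -η' := by
    ext l m
    rw [Matrix.transpose_apply, Matrix.neg_apply, hη0, hη0]
    by_cases h : 1 ≤ c l ∧ 1 ≤ c m
    · rw [dif_pos h, dif_pos h.symm, hη]
    · rw [dif_neg h, dif_neg (fun h' => h h'.symm), neg_zero]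
  obtain ⟨d, hd, hdΩ⟩ := hV η' hη' (by
    intro m
    rw [hη0, hη0]
    by_cases h : 1 ≤ c m
    · rw [dif_pos ⟨hc0, h⟩, dif_pos ⟨hc1, h⟩, hηs]
    · rw [dif_neg (fun h' => h h'.2), dif_neg (fun h' => h h'.2)])
  have hd1 : d 1 = 0 := by
    have := hd 1 1
    rw [mul_one, mul_one, one_mul] at this
    exact left_eq_add.1 this
  let δ : Derivation ℤ L L := Derivation.mk' d.toIntLinearMap (fun a b => by
    show d (a * b) = a • d b + b • d a
    rw [hd, smul_eq_mul, smul_eq_mul]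
    ring)
  have hδ : ∀ x, δ x = d x := fun x => rfl
  refine ⟨⟨δ, ?_⟩, ?_⟩
  · intro s
    fin_cases s
    · exact map_zero d
    · exact hd1
    · show d (-1) = 0
      rw [map_neg, hd1, neg_zero]
  · intro l m
    show d (Ω l m) = η l m
    rw [hdΩ, hη0, dif_pos ⟨l.2, m.2⟩]

end restrict

section cfg

variable {L : Type u} {V : Type*} {J : Type v} [Field L] [AddCommGroup V] [Module L V]
  [FiniteDimensional L V] [Fintype J] {𝒟 : Cfg L V J} {c0 c1 : J}

open Classical in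
/-- semistability bounds the number of nonzero columns of an arm: common computation -/
theorem theta_split (hs : SpinC 𝒟 c0 c1) (S : Submodule L V) : thetaS 𝒟 c0 c1 S =
    ∑ l ∈ Finset.univ.filter (fun l => 𝒟.C l ≠ ⊥ ∧ l ≠ c0 ∧ l ≠ c1), 𝒟.th (𝒟.arm l) (𝒟.c l) S +
      (finrank L (S ⊓ 𝒟.C c0 : Submodule L V) + finrank L (S ⊓ 𝒟.C c1 : Submodule L V) -
        finrank L S) := by
  have hne : c0 ≠ c1 := by
    rintro rfl
    have h1 := hs.arm0
    rw [hs.arm1] at h1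
    exact absurd h1 (by decide)
  have hbot : ∀ l, 𝒟.C l = ⊥ → 𝒟.th (𝒟.arm l) (𝒟.c l) S = 0 := by
    intro l hl
    unfold Cfg.th
    have h1 : 𝒟.F (𝒟.arm l) (𝒟.c l) = ⊥ := hl
    have h2 : H533.perp 𝒟.q (⊥ : Submodule L V) = ⊤ := by
      rw [eq_top_iff]
      intro v _ w hw
      rw [(Submodule.mem_bot L).1 hw, map_zero]
    rw [h1, h2, inf_bot_eq, inf_top_eq, finrank_bot]
    simp
  have hlag : ∀ l, H533.perp 𝒟.q (𝒟.C l) = 𝒟.C l → 𝒟.th (𝒟.arm l) (𝒟.c l) S =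
      2 * finrank L (S ⊓ 𝒟.C l : Submodule L V) - finrank L S := by
    intro l hl
    unfold Cfg.th
    have h1 : 𝒟.F (𝒟.arm l) (𝒟.c l) = 𝒟.C l := rfl
    rw [h1, hl]
    ring
  have h1 : 𝒟.theta S = 𝒟.th (𝒟.arm c0) (𝒟.c c0) S + (𝒟.th (𝒟.arm c1) (𝒟.c c1) S +
      ∑ l ∈ Finset.univ.filter (fun l => 𝒟.C l ≠ ⊥ ∧ l ≠ c0 ∧ l ≠ c1),
        𝒟.th (𝒟.arm l) (𝒟.c l) S) := by
    unfold Cfg.theta
    rw [← Finset.add_sum_erase _ _ (Finset.mem_univ c0),
      ← Finset.add_sum_erase _ _ (Finset.mem_erase.2 ⟨hne.symm, Finset.mem_univ c1⟩)]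
    congr 2
    symm
    refine Finset.sum_subset ?_ ?_
    · intro l hl
      simp only [Finset.mem_filter, Finset.mem_univ, true_and] at hl
      simp [hl.2.1, hl.2.2]
    · intro l hl hl'
      simp only [Finset.mem_erase, Finset.mem_univ, and_true] at hl
      simp only [Finset.mem_filter, Finset.mem_univ, true_and, not_and, not_not, ne_eq] at hl'
      apply hbot
      by_contra h
      exact hl.1 (hl' h hl.2)
  rw [thetaS, h1, hlag _ hs.lag0, hlag _ hs.lag1]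
  ring

open Classical in
/-- the first step of the flag of an arm -/
theorem exists_step (hG : 𝒟.Good) {s : Fin 3} (hne : ∃ l, 𝒟.C l ≠ ⊥ ∧ 𝒟.arm l = s) :
    ∃ S : Submodule L V, S ≠ ⊥ ∧ 𝒟.Iso S ∧ ∀ l, 𝒟.C l ≠ ⊥ → 𝒟.arm l = s → S ≤ 𝒟.C l := by
  obtain ⟨l0, hl0, hl0s⟩ := hne
  have hex : ∃ i, 𝒟.F s i ≠ ⊥ := ⟨𝒟.c l0, by rw [← hl0s]; exact hl0⟩
  refine ⟨𝒟.F s (Nat.find hex), Nat.find_spec hex, hG.iso s _, fun l hl hls => ?_⟩
  have hmin : ∀ i, i < Nat.find hex → 𝒟.F s i = ⊥ := fun i hi => not_not.1 (Nat.find_min hex hi)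
  have h1 : Nat.find hex ≤ 𝒟.c l := by
    by_contra h
    apply hl
    show 𝒟.F (𝒟.arm l) (𝒟.c l) = ⊥
    rw [hls]
    exact hmin _ (by omega)
  show _ ≤ 𝒟.F (𝒟.arm l) (𝒟.c l)
  rw [hls]
  exact hG.mono s h1

open Classical in
theorem card_of_semistableS (hs : SpinC 𝒟 c0 c1) (hG : 𝒟.Good)
    (hS : ∀ S, 𝒟.Iso S → thetaS 𝒟 c0 c1 S ≤ 0) (h0 : 𝒟.C c0 ≠ ⊥) (h1 : 𝒟.C c1 ≠ ⊥) :
    2 * (Finset.univ.filter fun l => 𝒟.C l ≠ ⊥ ∧ 𝒟.arm l = 0).card ≤
      (Finset.univ.filter fun l => 𝒟.C l ≠ ⊥).card ∧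
    2 * (Finset.univ.filter fun l => 𝒟.C l ≠ ⊥ ∧ 𝒟.arm l = 1).card ≤
      (Finset.univ.filter fun l => 𝒟.C l ≠ ⊥).card ∧
    2 * (Finset.univ.filter fun l => 𝒟.C l ≠ ⊥ ∧ 𝒟.arm l = 2).card + 1 ≤
      (Finset.univ.filter fun l => 𝒟.C l ≠ ⊥).card := by
  have hne : c0 ≠ c1 := by
    rintro rfl
    have h1 := hs.arm0
    rw [hs.arm1] at h1
    exact absurd h1 (by decide)
  -- the other columns
  set N' := Finset.univ.filter (fun l => 𝒟.C l ≠ ⊥ ∧ l ≠ c0 ∧ l ≠ c1) with hN'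
  set N := Finset.univ.filter (fun l => 𝒟.C l ≠ ⊥) with hN
  have cN : N.card = N'.card + 2 := by
    have e1 : N = insert c0 (insert c1 N') := by
      ext l
      simp only [hN, hN', Finset.mem_filter, Finset.mem_univ, true_and, Finset.mem_insert]
      constructor
      · intro h
        by_cases a0 : l = c0
        · exact Or.inl a0
        by_cases a1 : l = c1
        · exact Or.inr (Or.inl a1)
        · exact Or.inr (Or.inr ⟨h, a0, a1⟩)
      · rintro (rfl | rfl | h)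
        · exact h0
        · exact h1
        · exact h.1
    rw [e1, Finset.card_insert_of_notMem, Finset.card_insert_of_notMem]
    · simp [hN']
    · simp only [hN', Finset.mem_insert, Finset.mem_filter, Finset.mem_univ, true_and, not_or]
      exact ⟨hne, fun h => h.2.1 rfl⟩
  have cA : ∀ s : Fin 3, (Finset.univ.filter fun l => 𝒟.C l ≠ ⊥ ∧ 𝒟.arm l = s).card =
      (N'.filter fun l => 𝒟.arm l = s).card + (if s = 2 then 0 else 1) := by
    intro s
    by_cases hs2 : s = 2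
    · subst hs2
      rw [if_pos rfl, add_zero]
      congr 1
      ext l
      simp only [hN', Finset.mem_filter, Finset.mem_univ, true_and]
      constructor
      · rintro ⟨ha, hb⟩
        refine ⟨⟨ha, ?_, ?_⟩, hb⟩
        · rintro rfl; rw [hs.arm0] at hb; exact absurd hb (by decide)
        · rintro rfl; rw [hs.arm1] at hb; exact absurd hb (by decide)
      · rintro ⟨⟨ha, -, -⟩, hb⟩
        exact ⟨ha, hb⟩
    · rw [if_neg hs2]
      obtain ⟨cc, hcc, hccN, hcs⟩ : ∃ cc, 𝒟.C cc ≠ ⊥ ∧ (cc = c0 ∨ cc = c1) ∧ 𝒟.arm cc = s := by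
        rcases (show ∀ s : Fin 3, s ≠ 2 → s = 0 ∨ s = 1 by decide) s hs2 with h | h
        · exact ⟨c0, h0, Or.inl rfl, by rw [h, hs.arm0]⟩
        · exact ⟨c1, h1, Or.inr rfl, by rw [h, hs.arm1]⟩
      have e1 : (Finset.univ.filter fun l => 𝒟.C l ≠ ⊥ ∧ 𝒟.arm l = s) =
          insert cc (N'.filter fun l => 𝒟.arm l = s) := by
        ext l
        simp only [hN', Finset.mem_filter, Finset.mem_univ, true_and, Finset.mem_insert]
        constructor
        · rintro ⟨ha, hb⟩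
          by_cases a0 : l = cc
          · exact Or.inl a0
          · refine Or.inr ⟨⟨ha, ?_, ?_⟩, hb⟩
            · rintro rfl
              rcases hccN with h | h
              · exact a0 h.symm
              · rw [h, hs.arm1] at hcs; rw [hs.arm0, ← hcs] at hb; exact absurd hb (by decide)
            · rintro rfl
              rcases hccN with h | h
              · rw [h, hs.arm0] at hcs; rw [hs.arm1, ← hcs] at hb; exact absurd hb (by decide)
              · exact a0 h.symm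
        · rintro (rfl | h)
          · exact ⟨hcc, hcs⟩
          · exact ⟨h.1.1, h.2⟩
      rw [e1, Finset.card_insert_of_notMem]
      simp only [hN', Finset.mem_filter, Finset.mem_univ, true_and, not_and]
      rintro ⟨-, a0, a1⟩
      rcases hccN with h | h
      · exact absurd h a0
      · exact absurd h a1
  -- the estimate
  have main : ∀ s : Fin 3, ∀ S : Submodule L V, S ≠ ⊥ → 𝒟.Iso S →
      (∀ l, 𝒟.C l ≠ ⊥ → 𝒟.arm l = s → S ≤ 𝒟.C l) →
      (s ≠ 2 → (finrank L S : ℤ) ≤ finrank L (S ⊓ 𝒟.C c0 : Submodule L V) +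
        finrank L (S ⊓ 𝒟.C c1 : Submodule L V)) →
      (2 * (N'.filter fun l => 𝒟.arm l = s).card + (if s = 2 then 0 else 1) : ℤ) ≤
        N'.card + 1 := by
    intro s S hS0 hSi hSC hsS
    have hd : (1 : ℤ) ≤ finrank L S := by
      have : finrank L S ≠ 0 := fun h => hS0 (Submodule.finrank_eq_zero.1 h)
      omega
    have hθ := hS S hSi
    rw [theta_split hs, ← hN'] at hθ
    have e2 : ∀ l ∈ N'.filter (fun l => 𝒟.arm l = s), 𝒟.th (𝒟.arm l) (𝒟.c l) S =
        finrank L S := by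
      intro l hl
      simp only [hN', Finset.mem_filter, Finset.mem_univ, true_and] at hl
      have h2 := hSC l hl.1.1 hl.2
      have h3 : S ≤ H533.perp 𝒟.q (𝒟.F (𝒟.arm l) (𝒟.c l)) := h2.trans (hG.iso _ _)
      have h4 : S ≤ 𝒟.F (𝒟.arm l) (𝒟.c l) := h2
      unfold Cfg.th
      rw [inf_eq_left.2 h4, inf_eq_left.2 h3]
      ring
    have e3 : ∀ l ∈ N' \ N'.filter (fun l => 𝒟.arm l = s), -(finrank L S : ℤ) ≤
        𝒟.th (𝒟.arm l) (𝒟.c l) S := by
      intro l _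
      unfold Cfg.th
      have h2 : (0 : ℤ) ≤ finrank L (S ⊓ 𝒟.F (𝒟.arm l) (𝒟.c l) : Submodule L V) := by positivity
      have h3 : (0 : ℤ) ≤ finrank L (S ⊓ H533.perp 𝒟.q (𝒟.F (𝒟.arm l) (𝒟.c l)) : Submodule L V) := by
        positivity
      linarith
    have hsubs : N'.filter (fun l => 𝒟.arm l = s) ⊆ N' := Finset.filter_subset _ _
    rw [← Finset.sum_sdiff hsubs, Finset.sum_congr rfl e2, Finset.sum_const, nsmul_eq_mul] at hθ
    have h5 := Finset.sum_le_sum e3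
    rw [Finset.sum_const, nsmul_eq_mul, Finset.card_sdiff_of_subset hsubs,
      Nat.cast_sub (Finset.card_le_card hsubs)] at h5
    set A : ℤ := ((N'.filter fun l => 𝒟.arm l = s).card : ℤ)
    set B : ℤ := (N'.card : ℤ)
    set δ : ℤ := (finrank L S : ℤ)
    have h6 : (0 : ℤ) ≤ finrank L (S ⊓ 𝒟.C c0 : Submodule L V) := by positivity
    have h7 : (0 : ℤ) ≤ finrank L (S ⊓ 𝒟.C c1 : Submodule L V) := by positivity
    by_cases hs2 : s = 2
    · rw [if_pos hs2]
      have h8 : (2 * A - B - 1) * δ ≤ 0 := by linarith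
      nlinarith
    · rw [if_neg hs2]
      have h9 := hsS hs2
      have h8 : (2 * A - B) * δ ≤ 0 := by linarith
      nlinarith
  have hex : ∀ s : Fin 3, s ≠ 2 → ∃ l, 𝒟.C l ≠ ⊥ ∧ 𝒟.arm l = s := by
    intro s hs2
    rcases (show ∀ s : Fin 3, s ≠ 2 → s = 0 ∨ s = 1 by decide) s hs2 with h | h
    · exact ⟨c0, h0, by rw [h, hs.arm0]⟩
    · exact ⟨c1, h1, by rw [h, hs.arm1]⟩
  refine ⟨?_, ?_, ?_⟩
  · obtain ⟨S, hS0, hSi, hSC⟩ := exists_step hG (hex 0 (by decide))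
    have h2 := main 0 S hS0 hSi hSC (fun _ => by
      have h3 : S ⊓ 𝒟.C c0 = S := inf_eq_left.2 (hSC c0 h0 hs.arm0)
      rw [h3]
      have : (0 : ℤ) ≤ finrank L (S ⊓ 𝒟.C c1 : Submodule L V) := by positivity
      linarith)
    have h3 := cA 0
    rw [if_neg (by decide)] at h2 h3
    omega
  · obtain ⟨S, hS0, hSi, hSC⟩ := exists_step hG (hex 1 (by decide))
    have h2 := main 1 S hS0 hSi hSC (fun _ => by
      have h3 : S ⊓ 𝒟.C c1 = S := inf_eq_left.2 (hSC c1 h1 hs.arm1)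
      rw [h3]
      have : (0 : ℤ) ≤ finrank L (S ⊓ 𝒟.C c0 : Submodule L V) := by positivity
      linarith)
    have h3 := cA 1
    rw [if_neg (by decide)] at h2 h3
    omega
  · have h3 := cA 2
    rw [if_pos rfl, add_zero] at h3
    by_cases hex2 : ∃ l, 𝒟.C l ≠ ⊥ ∧ 𝒟.arm l = 2
    · obtain ⟨S, hS0, hSi, hSC⟩ := exists_step hG hex2
      have h2 := main 2 S hS0 hSi hSC (fun h => absurd rfl h)
      rw [if_pos rfl] at h2
      omega
    · have h4 : (Finset.univ.filter fun l => 𝒟.C l ≠ ⊥ ∧ 𝒟.arm l = 2) = ∅ := by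
        rw [Finset.filter_eq_empty_iff]
        intro l _ h
        exact hex2 ⟨l, h⟩
      rw [h4, Finset.card_empty]
      omega

variable [DecidableEq J]

/-- **F1 for special configurations.** A strongly nilpotent element of the special part of the
kernel is orthogonal to the special part of the kernel. -/
theorem F1_s [IsAlgClosed L] [CharZero L] (hN : N1S.{u, v} L) (hs : SpinC 𝒟 c0 c1)
    (hG : 𝒟.Good) (hV : SVersal 𝒟 c0 c1)
    (hS : ∀ S, 𝒟.Iso S → thetaS 𝒟 c0 c1 S ≤ 0) {x y : J → V} (hx : x ∈ Ks 𝒟 c0 c1)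
    (hy : y ∈ Ks 𝒟 c0 c1)
    (hn : ∀ a : Fin 3 → L, IsNilpotent (lc (Res 𝒟 x) a)) (l k : J) : 𝒟.q (x l) (y k) = 0 := by
  classical
  have h2 : (2 : L) ≠ 0 := two_ne_zero
  have hK := kRelC_s h2 hs hG hV
  have hX : Tt L x ∈ Tt L '' (Ks 𝒟 c0 c1 : Set (J → V)) := ⟨x, hx, rfl⟩
  have hY : Tt L y ∈ Tt L '' (Ks 𝒟 c0 c1 : Set (J → V)) := ⟨y, hy, rfl⟩
  have hxK := Ks_le hx
  have hyK := Ks_le hy
  have hx0 : ∀ l, 𝒟.C l = ⊥ → x l = 0 := fun l h => by
    have := hxK.1 l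
    rw [h] at this
    exact this
  -- dimensions of the columns
  let c' : J → ℕ := fun l => finrank L (𝒟.C l)
  have hc' : ∀ l, 1 ≤ c' l ↔ 𝒟.C l ≠ ⊥ := by
    intro l
    rw [Nat.one_le_iff_ne_zero, Ne, Submodule.finrank_eq_zero]
  have hd : ∀ l, 2 * c' l ≤ finrank L V := by
    intro l
    have h3 := H887.finrank_perp hG.form (𝒟.C l)
    have h4 := Submodule.finrank_mono (hG.iso (𝒟.arm l) (𝒟.c l))
    change finrank L (𝒟.C l) ≤ finrank L (H533.perp 𝒟.q (𝒟.C l)) at h4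
    show 2 * finrank L (𝒟.C l) ≤ _
    omega
  have hd0 : 2 * c' c0 = finrank L V := by
    have h3 := H887.finrank_perp hG.form (𝒟.C c0)
    rw [hs.lag0] at h3
    show 2 * finrank L (𝒟.C c0) = _
    omega
  have hd1 : 2 * c' c1 = finrank L V := by
    have h3 := H887.finrank_perp hG.form (𝒟.C c1)
    rw [hs.lag1] at h3
    show 2 * finrank L (𝒟.C c1) = _
    omega
  by_cases hV0 : finrank L V = 0
  · have h3 : x l = 0 := by
      have := finrank_zero_iff.1 hV0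
      exact Subsingleton.elim _ _
    rw [h3, map_zero, LinearMap.zero_apply]
  have h10 : 1 ≤ c' c0 := by omega
  have h11 : 1 ≤ c' c1 := by omega
  have hC0 := (hc' c0).1 h10
  have hC1 := (hc' c1).1 h11
  have hsup : Finset.univ.sup c' = c' c0 := by
    refine le_antisymm (Finset.sup_le fun l _ => ?_) (Finset.le_sup (Finset.mem_univ c0))
    have := hd l
    omega
  have hle : ∀ l m, 𝒟.arm l = 𝒟.arm m → c' l ≤ c' m → 𝒟.C l ≤ 𝒟.C m := by
    intro l m hlm hc
    rcases le_total (𝒟.c l) (𝒟.c m) with h | h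
    · show 𝒟.F (𝒟.arm l) (𝒟.c l) ≤ 𝒟.F (𝒟.arm m) (𝒟.c m)
      rw [hlm]
      exact hG.mono _ h
    · have h3 : 𝒟.C m ≤ 𝒟.C l := by
        show 𝒟.F (𝒟.arm m) (𝒟.c m) ≤ 𝒟.F (𝒟.arm l) (𝒟.c l)
        rw [hlm]
        exact hG.mono _ h
      rw [Submodule.eq_of_le_of_finrank_le h3 hc]
  have hlag : ∀ m, 𝒟.arm m ≠ 2 → c' m = c' c0 → H533.perp 𝒟.q (𝒟.C m) = 𝒟.C m := by
    intro m hm2 hm
    rcases (show ∀ s : Fin 3, s ≠ 2 → s = 0 ∨ s = 1 by decide) _ hm2 with h | h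
    · have e1 := le_antisymm (hle m c0 (by rw [h, hs.arm0]) hm.le)
        (hle c0 m (by rw [h, hs.arm0]) hm.ge)
      rw [e1, hs.lag0]
    · have hm' : c' m = c' c1 := by omega
      have e1 := le_antisymm (hle m c1 (by rw [h, hs.arm1]) hm'.le)
        (hle c1 m (by rw [h, hs.arm1]) hm'.ge)
      rw [e1, hs.lag1]
  set g : Matrix J J L := H578.gram 𝒟.q (Tt L x) (Tt L y) with hgdef
  have hg : ∀ l k, g l k = 𝒟.q (x l) (y k) := fun l k => by
    rw [hgdef, H578.gram_apply, Tt_single, Tt_single]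
  have hsym : ∀ l k, 𝒟.q (x l) (y k) = 𝒟.q (x k) (y l) := symm_Ks h2 hs hG hV hx hy
  have hVD : ∀ η : Matrix J J L, ηᵀ = -η → (∀ l, η c0 l = η c1 l) → ∃ d : L →+ L,
      (∀ a b, d (a * b) = d a * b + a * d b) ∧ ∀ l k, d (𝒟.Ω l k) = η l k := by
    intro η hη hηs
    obtain ⟨n, -, hn⟩ := hV (fun _ => 0) (fun s u v => by simp) η hη hηs
    exact ⟨n.d, n.leib, hn⟩
  let X : NData L {l // 1 ≤ c' l} := restrData 𝒟.arm c' 𝒟.Ω hG.skew
  have hXs : SpinN X ⟨c0, h10⟩ ⟨c1, h11⟩ := by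
    refine ⟨hs.arm0, hs.arm1, hsup.symm, ?_, ?_, hs.ne⟩
    · show c' c1 = Finset.univ.sup c'
      omega
    · rintro ⟨l, hl⟩ hl0 hl1
      exact hs.sp l (fun h => hl0 (Subtype.ext h)) (fun h => hl1 (Subtype.ext h))
  have hXV : VersS X ⟨c0, h10⟩ ⟨c1, h11⟩ := restrData_versS hG.skew h10 h11 hVD
  -- counting
  have hcard := card_of_semistableS hs hG hS hC0 hC1
  have e1 : Fintype.card {l // 1 ≤ c' l} = (Finset.univ.filter fun l => 𝒟.C l ≠ ⊥).card := by
    rw [Fintype.card_subtype]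
    congr 1
    ext l
    simp only [Finset.mem_filter, Finset.mem_univ, true_and]
    exact hc' l
  have e2 : ∀ s : Fin 3, (Finset.univ.filter fun l => X.arm l = s).card =
      (Finset.univ.filter fun l => 𝒟.C l ≠ ⊥ ∧ 𝒟.arm l = s).card := by
    intro s
    have h3 : (Finset.univ.filter fun l => 𝒟.C l ≠ ⊥ ∧ 𝒟.arm l = s) =
        (Finset.univ.filter fun l => 1 ≤ c' l ∧ 𝒟.arm l = s) := by
      ext l
      simp only [Finset.mem_filter, Finset.mem_univ, true_and, hc']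
    rw [h3, ← Fintype.card_subtype, ← Fintype.card_subtype]
    exact Fintype.card_congr (Equiv.subtypeSubtypeEquivSubtypeInter (fun l => 1 ≤ c' l)
      (fun l => 𝒟.arm l = s))
  have hdet : IsUnit X.Om'.det := by
    refine det_unit_s h2 hXs hXV ?_ ?_ ?_
    · rw [e1, e2]; exact hcard.1
    · rw [e1, e2]; exact hcard.2.1
    · rw [e1, e2]; exact hcard.2.2
  have hmain : g = 0 := by
    refine restrict_main_s (arm := 𝒟.arm) (c := c') (c0 := c0) (c1 := c1) hG.skew h10 h11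
      ?_ ?_ ?_ ?_ ?_ ?_ ?_ ?_
    · ext l k
      rw [Matrix.transpose_apply, hg, hg]
      exact hsym k l
    · intro m
      have h3 : ∑ l, 𝒟.Ω c0 l * g l m = 𝒟.q (𝒟.om x c0) (y m) := by
        rw [Cfg.om, map_sum, LinearMap.sum_apply]
        refine Finset.sum_congr rfl fun l _ => ?_
        rw [hg, map_smul, LinearMap.smul_apply, smul_eq_mul]
      rw [h3, ((mem_Ks h2 hs hG).mp hx).2, map_smul, LinearMap.smul_apply, smul_eq_mul, hg]
    · intro l k hlk
      rw [hg]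
      have h3 : x l ∈ 𝒟.F (𝒟.arm l) (max (𝒟.c l) (𝒟.c k)) :=
        hG.mono _ (le_max_left _ _) (hxK.1 l)
      have h4 : y k ∈ 𝒟.F (𝒟.arm l) (max (𝒟.c l) (𝒟.c k)) := by
        rw [hlk]
        exact hG.mono _ (le_max_right _ _) (hyK.1 k)
      exact hG.iso _ _ h3 _ h4
    · intro l k hlk hc
      have h3 : (g * 𝒟.Ω) l k = - 𝒟.q (x l) (𝒟.om y k) := by
        rw [Matrix.mul_apply]
        unfold Cfg.om
        rw [map_sum, ← Finset.sum_neg_distrib]
        refine Finset.sum_congr rfl fun j _ => ?_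
        rw [hg, map_smul, smul_eq_mul, skew_apply hG.skew j k]
        ring
      rw [h3, neg_eq_zero, hG.form.symm]
      exact hyK.2 k _ (hle l k hlk hc (hxK.1 l))
    · intro l m hlm hl2 hl hm
      rw [hsup] at hl hm
      have h3 : ∑ i, ∑ j, 𝒟.Ω l i * 𝒟.Ω m j * g i j = 𝒟.q (𝒟.om x l) (𝒟.om y m) := by
        have e3 : 𝒟.q (𝒟.om x l) = ∑ i, 𝒟.Ω l i • 𝒟.q (x i) := by
          rw [Cfg.om, map_sum]
          exact Finset.sum_congr rfl fun i _ => map_smul _ _ _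
        rw [e3, LinearMap.sum_apply]
        refine Finset.sum_congr rfl fun i _ => ?_
        rw [LinearMap.smul_apply, Cfg.om, map_sum, smul_eq_mul, Finset.mul_sum]
        refine Finset.sum_congr rfl fun j _ => ?_
        rw [hg, map_smul, smul_eq_mul]
        ring
      have h4 := hxK.2 l
      have h5 := hyK.2 m
      have hm2 : 𝒟.arm m ≠ 2 := hlm ▸ hl2
      rw [hlag l hl2 hl] at h4
      have h6 : 𝒟.C l ≤ 𝒟.C m := hle l m hlm (by omega)
      rw [h3]
      rw [hlag m hm2 hm] at h5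
      have h7 := h6 h4
      rw [← hlag m hm2 hm] at h7
      exact h7 _ h5
    · intro l k hl
      have : 𝒟.C l = ⊥ := by
        by_contra h
        have := (hc' l).2 h
        omega
      rw [hg, hx0 l this, map_zero, LinearMap.zero_apply]
    · intro a
      exact nilp_of_rel hG.form hG.skew hK hX hY a (hn a)
    · intro g' hg1 hg2 hg3 hg4 hg5 hg6
      have hinf : Infinite L := IsAlgClosed.instInfinite
      refine hN _ X _ _ hXs hXV hdet g' hg1 hg2 hg3 hg4 hg5 ?_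
      have h3 := nilp_ext (F := FractionRing (Polynomial L)) (fun s => Gm X.arm X.Ω s)
        g' hg6 (fun s => (X.lin (FractionRing (Polynomial L)) s)⁻¹)
      rw [← Wi_eq] at h3
      have h4 : Wi X (FractionRing (Polynomial L)) = X.GG (FractionRing (Polynomial L)) := by
        ext l m
        unfold Wi NData.GG
        ring
      rwa [h4] at h3
  have := congrFun (congrFun hmain l) k
  rw [hg] at this
  exact this

end cfg

end Vale.Agent.P182.H588
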