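import Vale.Agent.P182.H588.SFour
import Vale.Agent.P182.H96.RedV

/-!
# Versality of the reduction of a special configuration
-/

namespace Vale.Agent.P182.H588.SP

open Module Matrix Vale.Agent.P182.H533 Vale.Agent.P182.H96 Vale.Agent.P182.H96.Cf

section F5

variable {L V J : Type*} [Field L] [AddCommGroup V] [Module L V] [Fintype J]
  {a : Cf L V J (Fin 3)} {c0 c1 : J} [DecidableEq J] [FiniteDimensional L V]

/-- **F5.** -/
theorem F5_s (hs : Spc a c0 c1) (h : a.Good) (h2 : (2 : L) ≠ 0) (hV : SVers a c0 c1)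
    (hN : N1s a c0 c1) {x : J → V} (hxs : x ∈ Ks a c0 c1) {R : Submodule L V} (hRx : R = Submodule.span L (Set.range x))
    (hR : R ≤ pp a.q R) (D : Rd a.q R) {Y' : Fin 3 → End L D.P}
    (hY' : ∀ s, IsSk (a.red D).q (Y' s)) {η : J → J → L} (hη : ∀ l k, η l k = - η k l)
    (hηs : ∀ l, η c0 l = η c1 l) :
    ∃ (c : Conn a.q) (Y : Fin 3 → End L V),
      (∀ s, ∀ v ∈ pp a.q R, D.π (Y s v) = Y' s (D.π v) ∧ Y s v ∈ pp a.q R) ∧
      (∀ s i, ∀ v ∈ a.F s i, c.δ v - Y s v ∈ a.F s i) ∧ (∀ l k, c.d (a.Ω l k) = η l k) ∧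
      ∃ y ∈ Ks a c0 c1, (∀ l, c.δ (x l) - y l ∈ R) ∧
        ∃ b, a.Eps R b ∧ ∀ l, y l - b (a.arm l) (x l) ∈ R := by
  have hxR : ∀ l, x l ∈ R := fun l => by rw [hRx]; exact Submodule.subset_span ⟨l, rfl⟩
  have hx := Ks_le hxs
  have hx' := mem_K.mp hx
  let 𝒵 : Submodule L (Fin 3 → End L V) :=
    { carrier := {Z | ∀ s, IsSk a.q (Z s) ∧ ∀ v ∈ pp a.q R, Z s v ∈ R}
      add_mem' := by
        intro Z Z' hZ hZ' s
        refine ⟨fun u v => ?_, fun v hv => R.add_mem ((hZ s).2 v hv) ((hZ' s).2 v hv)⟩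
        simp only [Pi.add_apply, LinearMap.add_apply, map_add, (hZ s).1 u v, (hZ' s).1 u v]
        ring
      zero_mem' := fun s => ⟨fun u v => by simp, fun v _ => R.zero_mem⟩
      smul_mem' := by
        intro c Z hZ s
        refine ⟨fun u v => ?_, fun v hv => R.smul_mem c ((hZ s).2 v hv)⟩
        simp only [Pi.smul_apply, LinearMap.smul_apply, map_smul, (hZ s).1 u v, smul_eq_mul]
        ring }
  let Q : Submodule L (J → V) := a.perp (a.E R)
  let Λ : 𝒵 →ₗ[L] Dual L Q :=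
    { toFun := fun Z => a.TtL x Z ∘ₗ Q.subtype
      map_add' := fun Z Z' => by ext v; simp
      map_smul' := fun c Z => by ext v; simp }
  have hΛ : ∀ (Z : 𝒵) (v : Q), Λ Z v = a.Tt v x Z := fun Z v => rfl
  let φ : Dual L Q :=
    { toFun := fun v => ∑ l, ∑ k, η l k * a.q (v.1 l) (x k)
      map_add' := fun u v => by
        simp only [Submodule.coe_add, Pi.add_apply, map_add, LinearMap.add_apply, mul_add,
          Finset.sum_add_distrib]
      map_smul' := fun c v => by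
        simp only [Submodule.coe_smul, Pi.smul_apply, map_smul, LinearMap.smul_apply, smul_eq_mul,
          RingHom.id_apply, Finset.mul_sum]
        exact Finset.sum_congr rfl fun l _ => Finset.sum_congr rfl fun k _ => by ring }
  have hφ : φ ∈ LinearMap.range Λ := by
    rw [← Subspace.dualCoannihilator_dualAnnihilator_eq (W := LinearMap.range Λ),
      Submodule.mem_dualAnnihilator]
    intro v hv
    rw [Submodule.mem_dualCoannihilator] at hv
    have hv1 := mem_perp.mp v.2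
    have hZ := lemmaZ_s hs h h2 hV hN hxs hxR hR hv1.1 hv1.2
      (tau_eq_zero_of_Tt h hxR hR fun B hB hBR =>
        hv (Λ ⟨B, fun s => ⟨hB s, hBR s⟩⟩) ⟨_, rfl⟩)
    show ∑ l, ∑ k, η l k * a.q (v.1 l) (x k) = 0
    rw [← hRx] at hZ
    exact sum_special_zero hs.ne h hη hηs hZ hxR
  obtain ⟨Z, hZ⟩ := hφ
  let Y0 : Fin 3 → End L V := fun s => D.P.subtype ∘ₗ Y' s ∘ₗ D.π
  have hY0 : ∀ s v, Y0 s v = (Y' s (D.π v) : V) := fun s v => rfl
  let Y : Fin 3 → End L V := Y0 + Z.1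
  have hYa : ∀ s v, Y s v = (Y' s (D.π v) : V) + Z.1 s v := fun s v => rfl
  have hYsk : ∀ s, IsSk a.q (Y s) := by
    intro s u v
    have e1 : a.q (Y' s (D.π u) : V) v = - a.q u (Y' s (D.π v) : V) := by
      have e2 : a.q (Y' s (D.π u) : V) (D.π v : V) = - a.q (D.π u : V) (Y' s (D.π v) : V) :=
        hY' s (D.π u) (D.π v)
      have e3 : a.q (Y' s (D.π u) : V) v = a.q (Y' s (D.π u) : V) (D.π v : V) := by
        rw [h.form.symm, h.form.symm _ (D.π v : V), D.π_q]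
      rw [e3, e2, D.π_q]
    rw [hYa, hYa, map_add, LinearMap.add_apply, map_add, e1, (Z.2 s).1 u v]
    ring
  obtain ⟨c, hc1, hc2⟩ := hV Y hYsk η hη hηs
  have hYR : ∀ s, ∀ r ∈ R, Y s r ∈ R := by
    intro s r hr
    rw [hYa, D.π_R r hr, map_zero, Submodule.coe_zero, zero_add]
    exact (Z.2 s).2 r (hR hr)
  let xt : J → V := fun l => c.δ (x l) - Y (a.arm l) (x l)
  have hxt : ∀ l, xt l ∈ a.C l := fun l => hc1 _ _ _ (hx'.1 l)
  have hxt' : xt ∈ a.perp Q := by
    refine mem_perp.mpr ⟨hxt, fun v hv => ?_⟩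
    have hv1 := mem_perp.mp hv
    have e1 := h.M_der hx hv1.1 hYsk c hc1
    have e2 : a.Tt v x Y = a.Tt v x Z.1 := by
      have e3 : a.Tt v x Y0 = 0 := by
        rw [Tt]
        refine Finset.sum_eq_zero fun l _ => ?_
        rw [hY0, hY0, D.π_R _ (hxR l), D.π_R _ (om_mem hxR l), map_zero, Submodule.coe_zero,
          map_zero, map_zero, add_zero]
      show a.Tt v x (Y0 + Z.1) = _
      rw [Tt_add, e3, zero_add]
    have e4 : a.Tt v x Z.1 = ∑ l, ∑ k, η l k * a.q (v l) (x k) := by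
      have e5 := LinearMap.congr_fun hZ ⟨v, hv⟩
      exact e5
    simp only [hc2] at e1
    rw [e2, e4, sub_self] at e1
    exact e1
  have hxt2 : xt ∈ a.E R ⊔ a.K := by
    have e1 := po_po (M := a.M) (E := a.E ⊤) h.M_skew (W := a.E R) (E_le_top R)
    exact e1.le hxt'
  -- `∑ u xt ∈ R`
  have hUR : ∀ t : J → V, (∀ l, t l ∈ R) → UM a c0 c1 t ∈ R := fun t ht => by
    rw [UM_apply]
    exact R.sum_mem fun l _ => R.smul_mem _ (ht l)
  have hUxt : UM a c0 c1 xt ∈ R := by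
    have e1 : UM a c0 c1 xt = c.δ (UM a c0 c1 x) - ∑ l, c.d (uu a c0 c1 l) • x l -
        ∑ l, uu a c0 c1 l • Y (a.arm l) (x l) := by
      rw [UM_apply, UM_apply, map_sum, ← Finset.sum_sub_distrib, ← Finset.sum_sub_distrib]
      refine Finset.sum_congr rfl fun l _ => ?_
      rw [c.smul, smul_sub]
      abel
    rw [e1, (mem_Ks.mp hxs).2, map_zero, zero_sub]
    exact R.sub_mem (R.neg_mem (R.sum_mem fun l _ => R.smul_mem _ (hxR l)))
      (R.sum_mem fun l _ => R.smul_mem _ (hYR _ _ (hxR l)))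
  obtain ⟨e0, he0, y0, hy0, hey0⟩ := Submodule.mem_sup.mp hxt2
  obtain ⟨y, hy, w, hw0, hw1, hyw⟩ := K_decomp hs h h2 hy0
  have hwR : w ∈ R := by
    have e1 : UM a c0 c1 xt = UM a c0 c1 e0 - (2 : L) • w := by
      rw [← hey0, hyw, map_add, map_add, (mem_Ks.mp hy).2, UM_kap hs h]
      module
    have e2 : (2 : L) • w ∈ R := by
      have := R.sub_mem (hUR e0 fun l => (mem_E.mp he0 l).2) hUxt
      rwa [e1, sub_sub_cancel] at this
    have := R.smul_mem (2 : L)⁻¹ e2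
    rwa [smul_smul, inv_mul_cancel₀ h2, one_smul] at this
  obtain ⟨e, he, hey⟩ : ∃ e ∈ a.E R, e + y = xt := by
    refine ⟨e0 + kap (L := L) c0 c1 w, add_mem he0 (mem_E.mpr fun l => ⟨?_, ?_⟩), ?_⟩
    · exact (kap_mem_Esh hs hw0 hw1 ⊤).1 l
    · by_cases hl0 : l = c0
      · subst hl0; rw [kap_c0 hs.ne]; exact hwR
      · by_cases hl1 : l = c1
        · subst hl1; rw [kap_c1 hs.ne]; exact R.neg_mem hwR
        · rw [kap_ne hl0 hl1]; exact R.zero_mem
    · rw [← hey0, hyw]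
      abel
  have he' := mem_E.mp he
  have hey' : ∀ l, e l + y l = c.δ (x l) - Y (a.arm l) (x l) := fun l => congrFun hey l
  have hcy : ∀ l, c.δ (x l) - y l ∈ R := by
    intro l
    have e1 : c.δ (x l) - y l = e l + Y (a.arm l) (x l) := by
      have := hey' l
      rw [eq_sub_iff_add_eq] at this
      rw [← this]
      abel
    rw [e1]
    exact R.add_mem (he' l).2 (hYR _ _ (hxR l))
  refine ⟨c, Y, fun s v hv => ⟨?_, ?_⟩, hc1, hc2, y, hy, hcy, ?_⟩
  · rw [hYa, map_add, D.π_P, D.π_R _ ((Z.2 s).2 v hv), add_zero]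
  · rw [hYa]
    exact (pp a.q R).add_mem (D.le (Y' s (D.π v)).2) (hR ((Z.2 s).2 v hv))
  · obtain ⟨cs, h3, h4, h5⟩ := h.exists_cs h2 c hR
    refine ⟨fun s => -(dif c (cs s) (h3 s) + Y s), ⟨fun s u v => ?_, fun s i v hv => ?_,
      fun s s' r hr => ?_⟩, fun l => ?_⟩
    · have e1 := dif_sk c (cs s) (h3 s) u v
      have e2 := hYsk s u v
      simp only [LinearMap.neg_apply, LinearMap.add_apply, map_neg, map_add]
      rw [e1, e2]
      ring
    · have e1 := (a.F s i).neg_mem ((a.F s i).sub_mem (h4 s i v hv) (hc1 s i v hv))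
      rw [LinearMap.neg_apply, LinearMap.add_apply, dif_apply]
      convert e1 using 1
      abel
    · have e1 := R.add_mem (R.sub_mem (h5 s' r hr) (h5 s r hr))
        (R.sub_mem (hYR s' r hr) (hYR s r hr))
      rw [LinearMap.neg_apply, LinearMap.add_apply, dif_apply, LinearMap.neg_apply,
        LinearMap.add_apply, dif_apply]
      convert e1 using 1
      abel
    · have e1 := R.add_mem (R.add_mem (R.neg_mem (hcy l)) (h5 (a.arm l) _ (hxR l)))
        (hYR (a.arm l) _ (hxR l))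
      rw [LinearMap.neg_apply, LinearMap.add_apply, dif_apply]
      convert e1 using 1
      abel

/-- **Versality of the reduction.** -/
theorem versal_red_s (hs : Spc a c0 c1) (h : a.Good) (h2 : (2 : L) ≠ 0) (hV : SVers a c0 c1)
    (hN : N1s a c0 c1) {x : J → V} (hx : x ∈ Ks a c0 c1) {R : Submodule L V} (hRx : R = Submodule.span L (Set.range x))
    (hR : R ≤ pp a.q R) (D : Rd a.q R)
    (hmov : ∀ y ∈ Ks a c0 c1, ∀ b, a.Eps R b → (∀ l, y l - b (a.arm l) (x l) ∈ R) →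
      ∃ c : Conn a.q, a.IsD0 c ∧ ∀ l, c.δ (x l) - y l ∈ R) : SVers (a.red D) c0 c1 := by
  intro Y' hY' η hη hηs
  obtain ⟨c, Y, hY, hc1, hc2, y, hy, hcy, b, hb, hyb⟩ :=
    F5_s hs h h2 hV hN hx hRx hR D hY' hη hηs
  obtain ⟨c', ⟨h3, h4⟩, h5⟩ := hmov y hy b hb hyb
  have hc' : ∀ r ∈ R, (comb c c' 1).δ r ∈ R := by
    apply conn_span hRx
    intro l
    rw [comb_δ, one_smul]
    have := R.sub_mem (hcy l) (h5 l)
    rwa [sub_sub_sub_cancel_right] at this
  refine ⟨D.conn h.form (comb c c' 1), fun s i v hv => ?_, fun l k => ?_⟩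
  · obtain ⟨u, ⟨hu1, hu2⟩, rfl⟩ := hv
    rw [D.conn_π h.form _ hc' hu2, ← (hY s u hu2).1, ← map_sub]
    refine ⟨_, ⟨?_, ?_⟩, rfl⟩
    · show (comb c c' 1).δ u - Y s u ∈ a.F s i
      rw [comb_δ, one_smul]
      have := (a.F s i).sub_mem (hc1 s i u hu1) (h3 s i u hu1)
      convert this using 1
      abel
    · exact (pp a.q R).sub_mem (conn_pp hc' hu2) (hY s u hu2).2
  · show (comb c c' 1).d (a.Ω l k) = η l k
    rw [comb_d, hc2, h4, mul_zero, sub_zero]

end F5

end Vale.Agent.P182.H588.SP
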