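import Vale.Agent.P182.H163.Defs

/-!
# The property `HasInvariants` does not depend on the order of the factors
-/

namespace Vale.Agent.P182.H588

open LieAlgebra.Orthogonal Vale.Agent.P182
open scoped TensorProduct

attribute [local instance 100] LieRing.ofAssociativeRing

variable {n : ℕ}

/-- An equivariant linear equivalence identifies the invariants. -/
theorem maxTriv_ne_bot_of_equiv {A B : Type*} [AddCommGroup A] [Module ℂ A]
    [LieRingModule (so n) A] [LieModule ℂ (so n) A] [AddCommGroup B] [Module ℂ B]
    [LieRingModule (so n) B] [LieModule ℂ (so n) B] (e : A ≃ₗ[ℂ] B)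
    (he : ∀ (x : so n) (a : A), e ⁅x, a⁆ = ⁅x, e a⁆)
    (h : LieModule.maxTrivSubmodule ℂ (so n) A ≠ ⊥) :
    LieModule.maxTrivSubmodule ℂ (so n) B ≠ ⊥ := by
  rw [Ne, LieSubmodule.eq_bot_iff] at h ⊢
  push Not at h ⊢
  obtain ⟨a, ha, ha0⟩ := h
  refine ⟨e a, ?_, fun h0 => ha0 ((LinearEquiv.map_eq_zero_iff e).mp h0)⟩
  rw [LieModule.mem_maxTrivSubmodule] at ha ⊢
  intro x
  rw [← he, ha, map_zero]

section

variable {V₁ V₂ V₃ : Type*} [AddCommGroup V₁] [Module ℂ V₁]
    [LieRingModule (so n) V₁] [LieModule ℂ (so n) V₁] [AddCommGroup V₂] [Module ℂ V₂]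
    [LieRingModule (so n) V₂] [LieModule ℂ (so n) V₂] [AddCommGroup V₃] [Module ℂ V₃]
    [LieRingModule (so n) V₃] [LieModule ℂ (so n) V₃]

/-- Exchange of the second and the third factor. -/
theorem HasInvariants.swap23 (h : HasInvariants (n := n) V₁ V₂ V₃) :
    HasInvariants (n := n) V₁ V₃ V₂ := by
  refine maxTriv_ne_bot_of_equiv
    (TensorProduct.congr (LinearEquiv.refl ℂ V₁) (TensorProduct.comm ℂ V₂ V₃)) ?_ h
  intro x a
  induction a using TensorProduct.induction_on with
  | zero => simp
  | add a b ha hb => simp only [lie_add, map_add, ha, hb]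
  | tmul u w =>
    induction w using TensorProduct.induction_on with
    | zero => simp
    | add a b ha hb => simp only [TensorProduct.tmul_add, lie_add, map_add, ha, hb]
    | tmul v w =>
      simp only [TensorProduct.LieModule.lie_tmul_right, map_add, TensorProduct.congr_tmul,
        TensorProduct.comm_tmul, LinearEquiv.refl_apply, TensorProduct.tmul_add]
      congr 1
      rw [add_comm]

/-- Exchange of the first and the second factor. -/
theorem HasInvariants.swap12 (h : HasInvariants (n := n) V₁ V₂ V₃) :
    HasInvariants (n := n) V₂ V₁ V₃ := by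
  refine maxTriv_ne_bot_of_equiv (TensorProduct.leftComm ℂ V₁ V₂ V₃) ?_ h
  intro x a
  induction a using TensorProduct.induction_on with
  | zero => simp
  | add a b ha hb => simp only [lie_add, map_add, ha, hb]
  | tmul u w =>
    induction w using TensorProduct.induction_on with
    | zero => simp
    | add a b ha hb => simp only [TensorProduct.tmul_add, lie_add, map_add, ha, hb]
    | tmul v w =>
      simp only [TensorProduct.LieModule.lie_tmul_right, map_add, TensorProduct.leftComm_tmul,
        TensorProduct.tmul_add]
      abel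

/-- Cyclic permutation of the factors. -/
theorem HasInvariants.rotate (h : HasInvariants (n := n) V₁ V₂ V₃) :
    HasInvariants (n := n) V₂ V₃ V₁ :=
  HasInvariants.swap23 (HasInvariants.swap12 h)

/-- Exchange of the first and the third factor. -/
theorem HasInvariants.swap13 (h : HasInvariants (n := n) V₁ V₂ V₃) :
    HasInvariants (n := n) V₃ V₂ V₁ :=
  HasInvariants.swap12 (HasInvariants.rotate h)

end

end Vale.Agent.P182.H588
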