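import Vale.Agent.P182.H588.Int
import Vale.Agent.P182.H588.Perm
import Vale.Agent.P182.H163.Factor2b
import Vale.Agent.P182.H338.AssemblySpin

/-!
# Saturation for all dominant weights of `Spin(2n)`, from `T` and the spin core
-/

namespace Vale.Agent.P182.H588

open Module Matrix TensorProduct LieAlgebra.Orthogonal Vale.Agent.P182 Vale.Agent.P182.H533
open Vale.Agent.P182.H62 Vale.Agent.P182.B1
open Vale.Agent.P182.H338 (hw hw3 dbl dbl_eq domZ_dbl spF spin_of_adj isDominant_hw3)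

attribute [local instance 100] LieRing.ofAssociativeRing

section ext

variable {n : ℕ}

/-- semistability of frames over every extension field -/
def USemiF (mu : Fin 3 → Fin n → ℤ) {K : Type} [Field K]
    (g : Fin 3 → Matrix (Fin n ⊕ Fin n) (Fin n ⊕ Fin n) K) : Prop :=
  ∀ (L' : Type) [Field L'] [Algebra K L'] (S : Submodule L' (Fin n ⊕ Fin n → L')),
    (∀ u ∈ S, ∀ v ∈ S, qf u v = 0) → theta mu (fun s => (g s).map (algebraMap K L')) S ≤ 0

theorem uSemiF_of_inv (C : Type) {mu : Fin 3 → Fin n → ℤ} {N : ℕ} (hN : 0 < N)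
    {l : List (so n)}
    {f : (CellT (fun s i => (N : ℤ) * mu s i) → Fin n ⊕ Fin n) → ℂ} (hf : InvF f)
    (hne : ∑ β, algebraMap ℂ (GF C) (f β) *
      asymT (fun s i => (N : ℤ) * mu s i) (gF C (gword l)) β ≠ 0) :
    USemiF mu (gF C (gword l)) := by
  intro L' _ _ S hS
  let : Algebra ℂ L' := ((algebraMap (GF C) L').comp (algebraMap ℂ (GF C))).toAlgebra
  have hne' : ∑ β, algebraMap ℂ L' (f β) * asymT (fun s i => (N : ℤ) * mu s i)
      (fun s => (gF C (gword l) s).map (algebraMap (GF C) L')) β ≠ 0 := by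
    intro h0
    apply hne
    let φ : GF C →+* L' := algebraMap (GF C) L'
    refine (map_eq_zero_iff φ φ.injective).mp ?_
    rw [map_sum, ← h0]
    refine Finset.sum_congr rfl fun β _ => ?_
    rw [map_mul, asymT_map φ]
    rfl
  have h2 := theta_nonpos hf hne' hS
  rw [theta_smul hN] at h2
  have hN' : (0 : ℤ) < N := by exact_mod_cast hN
  by_contra h3
  push Not at h3
  have := mul_pos hN' h3
  omega

theorem uSemiF_of_invariants (hn : 2 ≤ n) (C : Type) {mu : Fin 3 → Fin n → ℤ}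
    (hl : ∀ s, DomZ (mu s)) {N : ℕ} (hN : 0 < N)
    {W₀ W₁ W₂ : Type*} [AddCommGroup W₀] [Module ℂ W₀]
    [LieRingModule (so n) W₀] [LieModule ℂ (so n) W₀] [AddCommGroup W₁] [Module ℂ W₁]
    [LieRingModule (so n) W₁] [LieModule ℂ (so n) W₁] [AddCommGroup W₂] [Module ℂ W₂]
    [LieRingModule (so n) W₂] [LieModule ℂ (so n) W₂]
    [LieModule.IsIrreducible ℂ (so n) W₀] [LieModule.IsIrreducible ℂ (so n) W₁]
    [LieModule.IsIrreducible ℂ (so n) W₂]
    (w₀ : HasHighestWeight (fun i => ((N : ℤ) * mu 0 i : ℤ)) W₀)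
    (w₁ : HasHighestWeight (fun i => ((N : ℤ) * mu 1 i : ℤ)) W₁)
    (w₂ : HasHighestWeight (fun i => ((N : ℤ) * mu 2 i : ℤ)) W₂)
    (h : HasInvariants (n := n) W₀ W₁ W₂) :
    ∃ l : List (so n), (∀ x ∈ l, x ∈ rootSet n) ∧ USemiF mu (gF C (gword l)) := by
  rw [hasInvariants_iff_form hn (lam := fun s i => (N : ℤ) * mu s i) (domZ_smul hl N)
    w₀ w₁ w₂] at h
  obtain ⟨f, hf, g', hg', hne⟩ := h
  obtain ⟨l, hlr, ev, hev⟩ := exists_gword C hg'
  exact ⟨l, hlr, uSemiF_of_inv C hN hf (generic_ne hev hne)⟩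

end ext

/-- The core statement for two half-integral weights (semistability over every extension
field). -/
def CoreSpinU (n : ℕ) : Prop := ∀ (lam : Fin 3 → Fin n → ℤ) (_ : ∀ s, DomZ (lam s))
  (h0 : ∀ i, lam 0 i ≠ 0) (h1 : ∀ i, lam 1 i ≠ 0) (hn : 0 < n)
  (_ : InRootLattice fun i => hw (lam 0) i + hw (lam 1) i + lam 2 i)
  (l : List (so n)) (_ : ∀ x ∈ l, x ∈ rootSet n)
  (_ : USemiF (dbl lam) (gF (ColT lam) (gword l))),
  (gramT lam (gF (ColT lam) (gword l)) (spF h0 h1 hn)).adjugate ≠ 0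

section

variable {n : ℕ}

/-- Saturation for two half-integral weights in the first two places. -/
theorem spin_case (cs : CoreSpinU n) (hn : 2 ≤ n) {lam : Fin 3 → Fin n → ℚ}
    (hl : ∀ s, IsDominant (lam s))
    (hp0 : ∀ i, ∃ k : ℤ, lam 0 i = k + 1 / 2) (hp1 : ∀ i, ∃ k : ℤ, lam 1 i = k + 1 / 2)
    (hp2 : ∀ i, ∃ k : ℤ, lam 2 i = k)
    (hQ : InRootLattice (lam 0 + lam 1 + lam 2)) {N : ℕ} (hN : 0 < N)
    {V₀ V₁ V₂ W₀ W₁ W₂ : Type*} [AddCommGroup V₀] [Module ℂ V₀]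
    [LieRingModule (so n) V₀] [LieModule ℂ (so n) V₀] [AddCommGroup V₁] [Module ℂ V₁]
    [LieRingModule (so n) V₁] [LieModule ℂ (so n) V₁] [AddCommGroup V₂] [Module ℂ V₂]
    [LieRingModule (so n) V₂] [LieModule ℂ (so n) V₂] [AddCommGroup W₀] [Module ℂ W₀]
    [LieRingModule (so n) W₀] [LieModule ℂ (so n) W₀] [AddCommGroup W₁] [Module ℂ W₁]
    [LieRingModule (so n) W₁] [LieModule ℂ (so n) W₁] [AddCommGroup W₂] [Module ℂ W₂]
    [LieRingModule (so n) W₂] [LieModule ℂ (so n) W₂]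
    [LieModule.IsIrreducible ℂ (so n) V₀] [LieModule.IsIrreducible ℂ (so n) V₁]
    [LieModule.IsIrreducible ℂ (so n) V₂] [LieModule.IsIrreducible ℂ (so n) W₀]
    [LieModule.IsIrreducible ℂ (so n) W₁] [LieModule.IsIrreducible ℂ (so n) W₂]
    (v₀ : HasHighestWeight (lam 0) V₀) (v₁ : HasHighestWeight (lam 1) V₁)
    (v₂ : HasHighestWeight (lam 2) V₂)
    (w₀ : HasHighestWeight (fun i => N * lam 0 i) W₀)
    (w₁ : HasHighestWeight (fun i => N * lam 1 i) W₁)
    (w₂ : HasHighestWeight (fun i => N * lam 2 i) W₂)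
    (h : HasInvariants (n := n) W₀ W₁ W₂) : HasInvariants (n := n) V₀ V₁ V₂ := by
  classical
  -- rounding away from zero
  have hr : ∀ (a : Fin n → ℚ), (∀ i, ∃ k : ℤ, a i = k + 1 / 2) →
      ∃ mu : Fin n → ℤ, (∀ i, mu i ≠ 0) ∧ (∀ i, hw mu i = a i) ∧
        ∀ i, (|mu i| : ℚ) = |a i| + 1 / 2 := by
    intro a ha
    choose k hk using ha
    refine ⟨fun i => if 0 ≤ k i then k i + 1 else k i, fun i => ?_, fun i => ?_, fun i => ?_⟩
    · dsimp only
      split_ifs <;> omega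
    · rw [hw]
      by_cases h1 : 0 ≤ k i
      · rw [if_pos h1, if_pos (by omega), hk]
        push_cast
        ring
      · rw [if_neg h1, if_neg (by omega), hk]
    · dsimp only
      by_cases h1 : 0 ≤ k i
      · have h2 : (0 : ℚ) ≤ k i := by exact_mod_cast h1
        rw [if_pos h1, hk, abs_of_nonneg (by linarith : (0 : ℚ) ≤ k i + 1 / 2)]
        push_cast
        rw [abs_of_nonneg (by linarith : (0 : ℚ) ≤ (k i : ℚ) + 1)]
        ring
      · have h2 : (k i : ℚ) ≤ -1 := by exact_mod_cast (by omega : k i ≤ -1)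
        rw [if_neg h1, hk, abs_of_nonpos (by linarith : (k i : ℚ) + 1 / 2 ≤ 0),
          abs_of_nonpos (by linarith : (k i : ℚ) ≤ 0)]
        ring
  obtain ⟨m0, hm0, hm0', hm0''⟩ := hr _ hp0
  obtain ⟨m1, hm1, hm1', hm1''⟩ := hr _ hp1
  choose m2 hm2 using hp2
  let mu : Fin 3 → Fin n → ℤ := ![m0, m1, m2]
  have hmu : ∀ s, hw3 mu s = lam s := by
    intro s
    funext i
    fin_cases s
    · exact hm0' i
    · exact hm1' i
    · exact (hm2 i).symm
  have hround : ∀ (a : Fin n → ℚ) (m : Fin n → ℤ), (∀ i j : Fin n, i < j → |a j| ≤ a i) →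
      (∀ i, m i ≠ 0) → (∀ i, hw m i = a i) → (∀ i, (|m i| : ℚ) = |a i| + 1 / 2) → DomZ m := by
    intro a m h1 h2 h3 h4 i j hij
    have h5 := h1 i j hij
    have h6 := abs_nonneg (a j)
    have h7 : 0 ≤ a i := h6.trans h5
    have h8 : 0 < m i := by
      by_contra hc
      have h9 := h3 i
      rw [hw, if_neg hc] at h9
      have h10 : m i ≤ -1 := by have := h2 i; omega
      have h11 : (m i : ℚ) ≤ -1 := by exact_mod_cast h10
      linarith
    have h9 := h4 i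
    have h10 := h4 j
    rw [abs_of_nonneg h7] at h9
    have h11 : (0 : ℚ) < m i := by exact_mod_cast h8
    rw [abs_of_pos h11] at h9
    have h12 : (|m j| : ℚ) ≤ (m i : ℚ) := by rw [h9, h10]; linarith
    exact_mod_cast h12
  have hD : ∀ s, DomZ (mu s) := by
    intro s
    fin_cases s
    · exact hround _ _ (hl 0).2 hm0 hm0' hm0''
    · exact hround _ _ (hl 1).2 hm1 hm1' hm1''
    · intro i j hij
      have h1 := (hl 2).2 i j hij
      rw [hm2, hm2] at h1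
      exact_mod_cast h1
  have hroot : InRootLattice fun i => hw (mu 0) i + hw (mu 1) i + mu 2 i := by
    have : (fun i => hw (mu 0) i + hw (mu 1) i + mu 2 i) = lam 0 + lam 1 + lam 2 := by
      funext i
      show hw m0 i + hw m1 i + m2 i = lam 0 i + lam 1 i + lam 2 i
      rw [hm0', hm1', hm2]
    rw [this]
    exact hQ
  have hdom := isDominant_hw3 hD hm0 hm1 N
  have hdom2 : ∀ s, IsDominant fun i => 2 * ((N : ℚ) * hw3 mu s i) := by
    intro s
    have h2 := isDominant_hw3 hD hm0 hm1 (2 * N) s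
    convert h2 using 2 with i
    push_cast
    ring
  obtain ⟨U₀, _, _, _, _, u₀i, u₀⟩ := exists_irred (hdom2 0)
  obtain ⟨U₁, _, _, _, _, u₁i, u₁⟩ := exists_irred (hdom2 1)
  obtain ⟨U₂, _, _, _, _, u₂i, u₂⟩ := exists_irred (hdom2 2)
  have hw' : ∀ s, (fun i => (N : ℚ) * lam s i) = fun i => (N : ℚ) * hw3 mu s i := fun s => by
    rw [hmu]
  rw [hw'] at w₀ w₁ w₂
  have hU : HasInvariants (n := n) U₀ U₁ U₂ :=
    hasInvariants_double hn hdom w₀ w₁ w₂ u₀ u₁ u₂ h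
  have key : ∀ s, (fun i => 2 * ((N : ℚ) * hw3 mu s i)) =
      fun i => (((N : ℤ) * dbl mu s i : ℤ) : ℚ) := by
    intro s
    funext i
    push_cast
    rw [dbl_eq]
    ring
  rw [key] at u₀ u₁ u₂
  obtain ⟨l, hlr, hθ⟩ := uSemiF_of_invariants hn (ColT mu) (domZ_dbl hD hm0 hm1) hN u₀ u₁ u₂ hU
  refine spin_of_adj hn hD hm0 hm1 hroot hlr (cs mu hD hm0 hm1 (by omega) hroot l hlr hθ) ?_ ?_ ?_
  · rw [show hw (mu 0) = lam 0 from funext hm0']; exact v₀
  · rw [show hw (mu 1) = lam 1 from funext hm1']; exact v₁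
  · rw [show (fun i => ((mu 2 i : ℤ) : ℚ)) = lam 2 from funext fun i => (hm2 i).symm]; exact v₂

/-- **The saturation property of `Spin(2n)`**, from `T` and the spin core. -/
theorem saturation_of_T (hT : TSemi) (cs : CoreSpinU n) (hn : 2 ≤ n) {lam : Fin 3 → Fin n → ℚ}
    (hl : ∀ s, IsDominant (lam s)) (hQ : InRootLattice (lam 0 + lam 1 + lam 2))
    {N : ℕ} (hN : 0 < N)
    {V₀ V₁ V₂ W₀ W₁ W₂ : Type*} [AddCommGroup V₀] [Module ℂ V₀]
    [LieRingModule (so n) V₀] [LieModule ℂ (so n) V₀] [AddCommGroup V₁] [Module ℂ V₁]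
    [LieRingModule (so n) V₁] [LieModule ℂ (so n) V₁] [AddCommGroup V₂] [Module ℂ V₂]
    [LieRingModule (so n) V₂] [LieModule ℂ (so n) V₂] [AddCommGroup W₀] [Module ℂ W₀]
    [LieRingModule (so n) W₀] [LieModule ℂ (so n) W₀] [AddCommGroup W₁] [Module ℂ W₁]
    [LieRingModule (so n) W₁] [LieModule ℂ (so n) W₁] [AddCommGroup W₂] [Module ℂ W₂]
    [LieRingModule (so n) W₂] [LieModule ℂ (so n) W₂]
    [LieModule.IsIrreducible ℂ (so n) V₀] [LieModule.IsIrreducible ℂ (so n) V₁]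
    [LieModule.IsIrreducible ℂ (so n) V₂] [LieModule.IsIrreducible ℂ (so n) W₀]
    [LieModule.IsIrreducible ℂ (so n) W₁] [LieModule.IsIrreducible ℂ (so n) W₂]
    (v₀ : HasHighestWeight (lam 0) V₀) (v₁ : HasHighestWeight (lam 1) V₁)
    (v₂ : HasHighestWeight (lam 2) V₂)
    (w₀ : HasHighestWeight (fun i => N * lam 0 i) W₀)
    (w₁ : HasHighestWeight (fun i => N * lam 1 i) W₁)
    (w₂ : HasHighestWeight (fun i => N * lam 2 i) W₂)
    (h : HasInvariants (n := n) W₀ W₁ W₂) : HasInvariants (n := n) V₀ V₁ V₂ := by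
  classical
  have hn0 : 0 < n := by omega
  -- the number of half-integral weights is even
  have hcl : ∀ s, ∃ p : ℕ, (p = 0 ∧ ∀ i, ∃ k : ℤ, lam s i = k) ∨
      (p = 1 ∧ ∀ i, ∃ k : ℤ, lam s i = k + 1 / 2) := by
    intro s
    rcases (hl s).1 with h | h
    · exact ⟨0, Or.inl ⟨rfl, h⟩⟩
    · exact ⟨1, Or.inr ⟨rfl, h⟩⟩
  choose p hp using hcl
  have hpar : (p 0 + p 1 + p 2) % 2 = 0 := by
    obtain ⟨x, hx, -⟩ := hQ
    have h1 := hx ⟨0, hn0⟩
    simp only [Pi.add_apply] at h1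
    have h2 : ∀ s, ∃ y : ℤ, 2 * lam s ⟨0, hn0⟩ = 2 * y + p s := by
      intro s
      rcases hp s with ⟨h3, h4⟩ | ⟨h3, h4⟩
      · obtain ⟨y, hy⟩ := h4 ⟨0, hn0⟩
        exact ⟨y, by rw [h3, hy]; push_cast; ring⟩
      · obtain ⟨y, hy⟩ := h4 ⟨0, hn0⟩
        exact ⟨y, by rw [h3, hy]; push_cast; ring⟩
    obtain ⟨a, ha⟩ := h2 0
    obtain ⟨b, hb⟩ := h2 1
    obtain ⟨c, hc⟩ := h2 2
    have h5 : ((2 * a + p 0 + (2 * b + p 1) + (2 * c + p 2) : ℤ) : ℚ) = ((2 * x ⟨0, hn0⟩ : ℤ) : ℚ) := by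
      push_cast
      rw [← ha, ← hb, ← hc, ← h1]
      ring
    have h6 : (2 * a + p 0 + (2 * b + p 1) + (2 * c + p 2) : ℤ) = 2 * x ⟨0, hn0⟩ := by
      exact_mod_cast h5
    omega
  have hI : ∀ s, p s = 0 → ∀ i, ∃ k : ℤ, lam s i = k := by
    intro s h3
    rcases hp s with ⟨_, h4⟩ | ⟨h4, _⟩
    · exact h4
    · omega
  have hH : ∀ s, p s = 1 → ∀ i, ∃ k : ℤ, lam s i = k + 1 / 2 := by
    intro s h3
    rcases hp s with ⟨h4, _⟩ | ⟨_, h4⟩
    · omega
    · exact h4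
  have hp01 : ∀ s, p s = 0 ∨ p s = 1 := fun s => (hp s).imp (fun h => h.1) fun h => h.1
  have hcases : (p 0 = 0 ∧ p 1 = 0 ∧ p 2 = 0) ∨ (p 0 = 1 ∧ p 1 = 1 ∧ p 2 = 0) ∨
      (p 0 = 1 ∧ p 1 = 0 ∧ p 2 = 1) ∨ (p 0 = 0 ∧ p 1 = 1 ∧ p 2 = 1) := by
    rcases hp01 0 with h0 | h0 <;> rcases hp01 1 with h1 | h1 <;> rcases hp01 2 with h2 | h2 <;>
      omega
  rcases hcases with ⟨a, b, c⟩ | ⟨a, b, c⟩ | ⟨a, b, c⟩ | ⟨a, b, c⟩
  · -- three integral weights
    have hall : ∀ s, ∀ i, ∃ k : ℤ, lam s i = k := by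
      intro s
      fin_cases s
      · exact hI 0 a
      · exact hI 1 b
      · exact hI 2 c
    choose mu hmu using hall
    have hD : ∀ s, DomZ (mu s) := by
      intro s i j hij
      have h1 := (hl s).2 i j hij
      rw [hmu, hmu] at h1
      exact_mod_cast h1
    have he : Even (∑ i, (mu 0 i + mu 1 i + mu 2 i)) := by
      obtain ⟨x, hx, hx2⟩ := hQ
      have h1 : ∀ i, mu 0 i + mu 1 i + mu 2 i = x i := by
        intro i
        have h2 := hx i
        simp only [Pi.add_apply, hmu] at h2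
        exact_mod_cast h2
      rw [Finset.sum_congr rfl fun i _ => h1 i]
      exact hx2
    have hv : ∀ s, lam s = fun i => ((mu s i : ℤ) : ℚ) := fun s => funext fun i => hmu s i
    have hw : ∀ s, (fun i => (N : ℚ) * lam s i) = fun i => (((N : ℤ) * mu s i : ℤ) : ℚ) :=
      fun s => funext fun i => by rw [hmu]; push_cast; ring
    rw [hv] at v₀ v₁ v₂
    rw [hw] at w₀ w₁ w₂
    exact hasInvariants_of_TSemi hT hn hD he hN v₀ v₁ v₂ w₀ w₁ w₂ h
  · exact spin_case cs hn hl (hH 0 a) (hH 1 b) (hI 2 c) hQ hN v₀ v₁ v₂ w₀ w₁ w₂ h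
  · refine HasInvariants.swap23 (spin_case (lam := ![lam 0, lam 2, lam 1]) cs hn ?_ (hH 0 a)
      (hH 2 c) (hI 1 b) ?_ hN v₀ v₂ v₁ w₀ w₂ w₁ (HasInvariants.swap23 h))
    · intro s
      fin_cases s
      · exact hl 0
      · exact hl 2
      · exact hl 1
    · show InRootLattice (lam 0 + lam 2 + lam 1)
      rw [add_right_comm]
      exact hQ
  · refine HasInvariants.rotate (HasInvariants.rotate (spin_case (lam := ![lam 1, lam 2, lam 0])
      cs hn ?_ (hH 1 b) (hH 2 c) (hI 0 a) ?_ hN v₁ v₂ v₀ w₁ w₂ w₀ (HasInvariants.rotate h)))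
    · intro s
      fin_cases s
      · exact hl 1
      · exact hl 2
      · exact hl 0
    · show InRootLattice (lam 1 + lam 2 + lam 0)
      rw [add_comm (lam 1 + lam 2) (lam 0), ← add_assoc]
      exact hQ

end

end Vale.Agent.P182.H588
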