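import Vale.Agent.P182.H588.UBlk2

/-!
# The blocks `U_i`: uniformity
-/

namespace Vale.Agent.P182.H588.B

open Module Matrix Vale.Agent.P182.H533 Vale.Agent.P182.H922 Vale.Agent.P182.B1
  Vale.Agent.P182.H338 Vale.Agent.P182.H578 Vale.Agent.P182.H588 Vale.Agent.P182.H983

section lin

variable {L E : Type*} [Field L] [AddCommGroup E] [Module L E] [FiniteDimensional L E]

/-- the kernel of a free nilpotent operator -/
theorem ker_eq_range {S : End L E} {p : ℕ} (hp1 : 1 ≤ p) (hp : S ^ p = 0)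
    (hfree : finrank L E = p * finrank L (LinearMap.ker S)) :
    LinearMap.range (S ^ (p - 1)) = LinearMap.ker S := by
  apply Submodule.eq_of_le_of_finrank_eq
  · rintro _ ⟨x, rfl⟩
    rw [LinearMap.mem_ker, ← Module.End.mul_apply, ← pow_succ', Nat.sub_add_cancel hp1, hp]
    rfl
  · rw [H55.finrank_range_pow S hp rfl hfree (Nat.sub_le _ _), Nat.sub_sub_self hp1, one_mul]

end lin

section blk

variable {L V J : Type*} [Field L] [AddCommGroup V] [Module L V] [Fintype J] [DecidableEq J]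
  {𝒟 : Cfg L V J} {κ : Type*} [FiniteDimensional L V]
  (hG : 𝒟.Good) {t t' : J → V} (C : Core 𝒟.q (Res 𝒟 t)) {D : End L C.V1}
  {P : κ → End L C.V1} {d : κ → L} {E : End L C.V1}

/-- **Uniformity of the blocks**, modulo `I`. -/
theorem unif_Ui [Fintype κ] [DecidableEq κ] [Nonempty κ] (hPP : ∀ i, P i * P i = P i)
    (hPo : ∀ i j, i ≠ j → P i * P j = 0)
    (hP : ∑ i, P i = 1) (hPc : ∀ i s, P i * C.S1 hG.form s = C.S1 hG.form s * P i)
    {p : Fin 3 → ℕ} (hp1 : ∀ s, 1 ≤ p s) (hp : ∀ s, C.S1 hG.form s ^ p s = 0)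
    (hfree : ∀ s, finrank L C.V1 = p s * finrank L (LinearMap.ker (C.S1 hG.form s)))
    (i : κ) (s : Fin 3) {w : V} (hw : w ∈ Ui hG C (P i)) (hS : Res 𝒟 t s w ∈ C.I) :
    ∃ v ∈ Ui hG C (P i), w - (Res 𝒟 t s ^ (p s - 1)) v ∈ C.I := by
  have hwW := Ui_le_W hG C hw
  have h1 : C.P hG.form w ∈ LinearMap.ker (C.S1 hG.form s) := by
    rw [LinearMap.mem_ker, ← P_S_W hG C hwW, C.P_eq_zero hG.form (C.I_le_perp hS)]
  rw [← ker_eq_range (hp1 s) (hp s) (hfree s)] at h1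
  obtain ⟨z, hz⟩ := h1
  obtain ⟨v, hv, hvz⟩ := exists_Ui hG C hPP hPo hP hPc i z
  obtain ⟨h3, h4⟩ := P_pow hG C (Ui_le_W hG C hv) s (p s - 1)
  refine ⟨v, hv, mem_I_of_P hG C (sub_mem hwW h3) ?_⟩
  obtain ⟨y, hy⟩ := P_Ui hG C hw
  have h5 : P i (C.P hG.form w) = C.P hG.form w := by
    rw [← hy, ← Module.End.mul_apply, hPP]
  have h6 : C.S1 hG.form s ^ (p s - 1) * P i = P i * C.S1 hG.form s ^ (p s - 1) :=
    (Commute.pow_right (hPc i s) _).symm
  rw [map_sub, h4, hvz, ← Module.End.mul_apply, h6, Module.End.mul_apply, hz, h5, sub_self]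

end blk

end Vale.Agent.P182.H588.B
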