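import Vale.Agent.P182.H578.N1b

/-!
# T-SPIN: theta characteristics and the Adams identity for even periods

At a place of even period `m` the weight `θ` is `m / 2` modulo `m`, and the canonical weight is
`2 θ - 1`.
-/

namespace Vale.Agent.P182.H588

open LinearMap Submodule Module Vale.Agent.P182.H430 Vale.Agent.P182.H578

universe u

/-- a theta characteristic, for periods of any parity -/
structure ThetaE {k F P : Type*} [Field k] [Field F] [Algebra k F] (C : Curve k F P)
    (θ : P → ℤ) : Prop where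
  fin : {p | θ p ≠ 0}.Finite
  cong : ∀ p, 2 * (θ p % (C.per p : ℤ)) = (C.per p : ℤ) - 1 ∨
    2 * (θ p % (C.per p : ℤ)) = (C.per p : ℤ)
  deg : Curve.deg C θ = -1

section Theta

variable {k F P : Type*} [Field k] [Field F] [Algebra k F] {C : Curve k F P} {θ : P → ℤ}

theorem ThetaE.div_identity (hθ : ThetaE C θ) (p : P) (w : ℤ) :
    (-(2 * w)) / (C.per p : ℤ) = (-w) / C.per p + (θ p - w) / C.per p - θ p / C.per p := by
  have hpp : (0 : ℤ) < C.per p := by exact_mod_cast C.per_pos p
  have h1 := hθ.cong p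
  obtain ⟨m, hm⟩ : ∃ m : ℤ, m = (C.per p : ℤ) := ⟨_, rfl⟩
  rw [← hm] at hpp h1 ⊢
  set t := θ p / m with ht
  set r := θ p % m with hr
  have hθe : θ p = r + m * t := (Int.emod_add_mul_ediv (θ p) m).symm
  set q := (-w) / m with hq
  set s := (-w) % m with hs
  have hwe : -w = s + m * q := (Int.emod_add_mul_ediv (-w) m).symm
  have hs0 : 0 ≤ s := Int.emod_nonneg _ hpp.ne'
  have hsm : s < m := Int.emod_lt_of_pos _ hpp
  by_cases hcase : 2 * s < m
  · have e1 : (-(2 * w)) / m = 2 * q := by
      refine ((Int.ediv_emod_unique (r := 2 * s) hpp).2 ⟨?_, ?_, ?_⟩).1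
      · linear_combination (-2) * hwe
      · linarith
      · linarith
    have e2 : (θ p - w) / m = t + q := by
      refine ((Int.ediv_emod_unique (r := r + s) hpp).2 ⟨?_, ?_, ?_⟩).1
      · linear_combination (-1) * hθe - hwe
      · omega
      · omega
    rw [e1, e2]
    ring
  · have e1 : (-(2 * w)) / m = 2 * q + 1 := by
      refine ((Int.ediv_emod_unique (r := 2 * s - m) hpp).2 ⟨?_, ?_, ?_⟩).1
      · linear_combination (-2) * hwe
      · linarith
      · linarith
    have e2 : (θ p - w) / m = t + q + 1 := by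
      refine ((Int.ediv_emod_unique (r := r + s - m) hpp).2 ⟨?_, ?_, ?_⟩).1
      · linear_combination (-1) * hθe - hwe
      · omega
      · omega
    rw [e1, e2]
    ring

theorem ThetaE.deg_identity (hθ : ThetaE C θ) {w : P → ℤ} (hw : {p | w p ≠ 0}.Finite) :
    1 + C.deg (fun p => -(2 * w p)) =
      (1 + C.deg (fun p => - w p)) + (1 + C.deg (fun p => θ p - w p)) := by
  classical
  let S : Finset P := hw.toFinset ∪ hθ.fin.toFinset
  have hS : ∀ p, p ∉ S → w p = 0 ∧ θ p = 0 := by
    intro p hp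
    simp only [S, Finset.mem_union, Set.Finite.mem_toFinset, Set.mem_ofPred_eq, not_or,
      not_not] at hp
    exact hp
  have e1 := C.deg_eq_sum (n := fun p => -(2 * w p)) S (fun p hp => by
    simp [(hS p hp).1])
  have e2 := C.deg_eq_sum (n := fun p => - w p) S (fun p hp => by
    simp [(hS p hp).1])
  have e3 := C.deg_eq_sum (n := fun p => θ p - w p) S (fun p hp => by
    simp [(hS p hp).1, (hS p hp).2])
  have e4 := C.deg_eq_sum (n := θ) S (fun p hp => (hS p hp).2)
  have e5 := hθ.deg
  rw [e4] at e5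
  rw [e1, e2, e3]
  have e6 : ∑ p ∈ S, (-(2 * w p)) / (C.per p : ℤ) = ∑ p ∈ S, (-w p) / (C.per p : ℤ) +
      ∑ p ∈ S, (θ p - w p) / (C.per p : ℤ) - ∑ p ∈ S, θ p / (C.per p : ℤ) := by
    rw [← Finset.sum_add_distrib, ← Finset.sum_sub_distrib]
    exact Finset.sum_congr rfl fun p _ => hθ.div_identity p (w p)
  rw [e6, e5]
  ring

/-- **Adams identity**, induction -/
theorem adamsE_aux (hθ : ThetaE C θ) (h2 : (2 : F) ≠ 0) (m : ℕ) :
    ∀ (E : Type u) [AddCommGroup E] [Module F E] [Module k E] [IsScalarTower k F E]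
      [FiniteDimensional F E], finrank F E = m → ∀ B : Bun C E,
      B.chiF 1 - B.chiF (-1) = chi (B.du.twist 0 (by simp)).lat +
        chi (B.du.twist θ hθ.fin).lat := by
  induction m with
  | zero =>
    intro E _ _ _ _ _ h B
    have hs : Subsingleton E := finrank_zero_iff.1 h
    have h1 : Subsingleton (Du F E) := by
      constructor
      intro φ ψ
      ext x
      rw [Subsingleton.elim x 0, Du.map_zero, Du.map_zero]
    have h3 : Subsingleton (E →ₗ[F] Du F E) := by
      constructor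
      intro φ ψ
      ext x
      rw [Subsingleton.elim (φ x) (ψ x)]
    unfold Bun.chiF
    rw [chi_subsingleton, chi_subsingleton, chi_subsingleton, chi_subsingleton]
    simp
  | succ m ih =>
    intro E _ _ _ _ _ h B
    have hnt : Nontrivial E := by
      apply nontrivial_of_finrank_pos (R := F)
      omega
    obtain ⟨x, hx⟩ := exists_ne (0 : E)
    let S : Submodule F E := Submodule.span F {x}
    have hS1 : finrank F S = 1 := finrank_span_singleton hx
    have hQ : finrank F (E ⧸ S) = m := by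
      have := S.finrank_quotient_add_finrank
      omega
    have h3 := ih (E ⧸ S) hQ (B.quo S)
    let x' : S := ⟨x, Submodule.mem_span_singleton_self x⟩
    have hx'0 : x' ≠ 0 := fun h => hx (congrArg Subtype.val h)
    have hx' : ∀ y : S, ∃ c : F, c • x' = y := by
      rintro ⟨y, hy⟩
      obtain ⟨c, hc⟩ := Submodule.mem_span_singleton.1 hy
      exact ⟨c, Subtype.ext hc⟩
    obtain ⟨w, hw0, hw, -, -⟩ := (B.sub S).rank_one x' hx'0 hx'
    have e1 := (B.sub S).rank_one_forms x' hx'0 hx' hw0 hw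
    have e2 := (B.sub S).rank_one_skew h2 x' hx'
    have h00 : {p : P | (0 : P → ℤ) p ≠ 0}.Finite := by simp
    have e3 := (B.sub S).rank_one_du x' hx'0 hx' hw0 hw h00
    have e4 := (B.sub S).rank_one_du x' hx'0 hx' hw0 hw hθ.fin
    have e5 := hθ.deg_identity hw0
    have e6 : (fun p => (0 : P → ℤ) p - w p) = fun p => - w p := by
      funext p
      simp
    rw [e6] at e3
    have s1 := B.chiF_step S 1 (by ring)
    have s2 := B.chiF_step S (-1) (by ring)
    have s3 := B.chi_du_twist S h00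
    have s4 := B.chi_du_twist S hθ.fin
    rw [s1, s2, s3, s4, e1, e2, e3, e4]
    linarith

variable {E : Type u} [AddCommGroup E] [Module F E] [Module k E] [IsScalarTower k F E]
  [FiniteDimensional F E]

/-- **Adams identity**: `χ(S²E*) - χ(Λ²E*) = χ(E*) + χ(E*θ)`. -/
theorem adamsE (hθ : ThetaE C θ) (h2 : (2 : F) ≠ 0) (B : Bun C E) :
    B.chiF 1 - B.chiF (-1) = chi B.du.lat + chi (B.du.twist θ hθ.fin).lat := by
  have h := adamsE_aux hθ h2 _ E rfl B
  have h1 : (B.du.twist 0 (by simp)).lat = B.du.lat := by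
    funext p
    ext φ
    rw [Bun.mem_twist_lat]
    simp [Bun.lat]
  rw [h1] at h
  exact h

variable {N : Bun C E} {B : LinearMap.BilinForm F E}

/-- THEOREM N1 for periods of any parity: a versal bundle with a nondegenerate symmetric form of
shift `2 θ` such that `H⁰` and `H¹` vanish as indicated has no nonzero nilpotent self-adjoint
Higgs field. -/
theorem no_nilpotentE {I : Type*} {κ : P → ℤ} (hκ : Dualizing C κ) (hθ : ThetaE C θ)
    (h2 : (2 : F) ≠ 0) (h2k : ((2 : k)⁻¹ * 2 : k) = 1)
    (hs : ∀ p a x, x ∈ (N.ch p).L a ↔ ∀ c y, y ∈ (N.ch p).L c →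
      B x y ∈ (C.pl p).M (C.per p) (a + c + 2 * θ p))
    (hB : ∀ x y, B x y = B y x) (hnd : ∀ x, (∀ y, B x y = 0) → x = 0)
    (V : Vers N B κ I)
    (hN0 : ∀ φ : E →ₗ[F] F, (∀ p a x, x ∈ (N.ch p).L a →
      φ x ∈ (C.pl p).M (C.per p) (a + (2 * θ p - κ p))) → φ = 0)
    (hN1 : ∀ φ : E →ₗ[F] F, (∀ p a x, x ∈ (N.ch p).L a →
      φ x ∈ (C.pl p).M (C.per p) (a + (θ p - κ p))) → φ = 0)
    {Θ : E →ₗ[F] E} (hΘ : ∀ x y, B (Θ x) y = B x (Θ y))
    (hΘp : ∀ p, Θ ∈ ((N.hom N).ch p).L (-κ p))
    (hn : IsNilpotent Θ) : Θ = 0 := by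
  have hsd := selfDual_twist (N := N) (B := B) hθ.fin hs
  refine no_nilpotent h2 h2k hκ hsd hB hnd (V.twist hθ.fin) ?_ hΘ ?_ hn
  · intro Q
    rw [chi_frm, chi_frm]
    have h := adamsE hθ h2 ((N.twist θ hθ.fin).sub Q)
    have h00 : {p : P | (0 : P → ℤ) p ≠ 0}.Finite := by simp
    have hz : Vale.Agent.P182.H430.h1 (N.twist θ hθ.fin).lat = 0 := by
      refine h1_twist_eq_zero hκ hθ.fin fun φ hφ => hN1 φ fun p a x hx => ?_
      have := hφ p a x hx
      rwa [show a + θ p - κ p = a + (θ p - κ p) by ring] at this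
    have hz' : Vale.Agent.P182.H430.h1 ((N.twist θ hθ.fin).twist θ hθ.fin).lat = 0 := by
      refine h1_twist_eq_zero hκ hθ.fin fun φ hφ => hN0 φ fun p a x hx => ?_
      have := hφ p (a + θ p) x (by
        show x ∈ (N.ch p).L (a + θ p + -θ p)
        rwa [add_neg_cancel_right])
      rwa [show a + θ p + θ p - κ p = a + (2 * θ p - κ p) by ring] at this
    have e1 := chi_du_sub_nonneg (M := N.twist θ hθ.fin) hnd Q hθ.fin
      (fun p a x hx => (hsd p a x).1 hx) hz'
    have hz0 : Vale.Agent.P182.H430.h1 ((N.twist θ hθ.fin).twist 0 h00).lat = 0 := by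
      have e : ((N.twist θ hθ.fin).twist 0 h00).lat = (N.twist θ hθ.fin).lat := by
        funext p
        ext x
        rw [Bun.mem_twist_lat]
        simp [Bun.lat]
      rw [e]
      exact hz
    have e2 := chi_du_sub_nonneg (M := N.twist θ hθ.fin) hnd Q h00
      (fun p a x hx => (hsd p a x).1 hx) hz0
    have e3 : (((N.twist θ hθ.fin).sub Q).du.twist 0 h00).lat =
        ((N.twist θ hθ.fin).sub Q).du.lat := by
      funext p
      ext x
      rw [Bun.mem_twist_lat]
      simp [Bun.lat]
    rw [e3] at e2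
    linarith
  · intro p
    rw [mem_hom_twist]
    exact hΘp p

end Theta

end Vale.Agent.P182.H588
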