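import Vale.Agent.P182.H62.ParityT
import Vale.Agent.P182.H163.Base3

/-!
# Semistability of the base configuration over every extension field
-/

namespace Vale.Agent.P182.H588

open Module Matrix TensorProduct LieAlgebra.Orthogonal Vale.Agent.P182 Vale.Agent.P182.H533
open Vale.Agent.P182.H62

attribute [local instance 100] LieRing.ofAssociativeRing

section bc

variable {n : ℕ} {L : Type} [Field L] {L' : Type} [Field L'] [Algebra L L']

/-- the identification of the base change of a coordinate space -/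
noncomputable def eP (n : ℕ) (L L' : Type) [Field L] [Field L'] [Algebra L L'] :
    L' ⊗[L] (Fin n ⊕ Fin n → L) ≃ₗ[L'] (Fin n ⊕ Fin n → L') :=
  TensorProduct.piScalarRight L L' L' (Fin n ⊕ Fin n)

theorem eP_tmul (a : L') (v : Fin n ⊕ Fin n → L) :
    eP n L L' (a ⊗ₜ[L] v) = fun b => a * algebraMap L L' (v b) := by
  funext b
  rw [eP, TensorProduct.piScalarRight_apply, TensorProduct.piScalarRightHom_tmul]
  show v b • a = _
  rw [Algebra.smul_def, mul_comm]

theorem qf_map (u v : Fin n ⊕ Fin n → L) :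
    qf (fun b => algebraMap L L' (u b)) (fun b => algebraMap L L' (v b)) =
      algebraMap L L' (qf u v) := by
  rw [qf_eq, qf_eq, map_sum]
  exact Finset.sum_congr rfl fun b _ => by rw [map_mul]

theorem qB_eP (x y : L' ⊗[L] (Fin n ⊕ Fin n → L)) :
    qB n L' (eP n L L' x) (eP n L L' y) = qbc L' (qB n L) x y := by
  induction x with
  | zero => simp
  | add x z hx hz => rw [map_add, map_add, LinearMap.add_apply, hx, hz, map_add,
      LinearMap.add_apply]
  | tmul a u =>
    induction y with
    | zero => simp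
    | add x z hx hz => rw [map_add, map_add, hx, hz, map_add]
    | tmul b v =>
      rw [qbc_tmul, eP_tmul, eP_tmul, qB_apply, qB_apply, ← qf_map]
      have h1 : (fun c => a * algebraMap L L' (u c)) = a • fun c => algebraMap L L' (u c) := rfl
      have h2 : (fun c => b * algebraMap L L' (v c)) = b • fun c => algebraMap L L' (v c) := rfl
      rw [h1, h2, ← qB_apply, ← qB_apply, map_smul, map_smul, LinearMap.smul_apply, smul_eq_mul,
        smul_eq_mul]
      ring

theorem eP_Fl (e : Fin n → Fin n ⊕ Fin n → L) (i : ℕ) :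
    ((Fl e i).baseChange L').map (eP n L L').toLinearMap =
      Fl (fun j b => algebraMap L L' (e j b)) i := by
  rw [Fl, Submodule.baseChange_span, Submodule.map_span, Fl]
  congr 1
  ext v
  constructor
  · rintro ⟨_, ⟨_, ⟨j, hj, rfl⟩, rfl⟩, rfl⟩
    refine ⟨j, hj, ?_⟩
    show eP n L L' (1 ⊗ₜ[L] e j) = _
    rw [eP_tmul]
    funext b
    rw [one_mul]
  · rintro ⟨j, hj, rfl⟩
    refine ⟨1 ⊗ₜ[L] e j, ⟨e j, ⟨j, hj, rfl⟩, rfl⟩, ?_⟩
    show eP n L L' (1 ⊗ₜ[L] e j) = _
    rw [eP_tmul]
    funext b
    rw [one_mul]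

/-- the base change of the configuration of a triple of weights -/
noncomputable def bcIso (lam : Fin 3 → Fin n → ℤ)
    (g : Fin 3 → Matrix (Fin n ⊕ Fin n) (Fin n ⊕ Fin n) L) (Ω : ColT lam → ColT lam → L)
    (L' : Type) [Field L'] [Algebra L L'] :
    CIso (bcC (wCfg lam g Ω) L') (wCfg lam (fun s => (g s).map (algebraMap L L'))
      fun c c' => algebraMap L L' (Ω c c')) where
  e := eP n L L'
  q := fun x y => qB_eP x y
  F := fun s i => eP_Fl _ _
  arm := rfl
  c := rfl
  Ω := by
    ext c c'
    rfl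

theorem map_orth {R R' : Type} [CommRing R] [CommRing R'] (φ : R →+* R')
    {g : Matrix (Fin n ⊕ Fin n) (Fin n ⊕ Fin n) R}
    (hg : g.transpose * JD (Fin n) R * g = JD (Fin n) R) :
    (g.map φ).transpose * JD (Fin n) R' * g.map φ = JD (Fin n) R' := by
  have h1 := congrArg (fun M : Matrix _ _ R => M.map φ) hg
  simp only [Matrix.map_mul] at h1
  have h3 : (JD (Fin n) R).map φ = JD (Fin n) R' := by
    ext b b'
    exact JD_map φ b b'
  have h4 : g.transpose.map φ = (g.map φ).transpose := rfl
  rw [h3, h4] at h1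
  exact h1

end bc

section semi

variable {n : ℕ}

/-- **Semistability of the base configuration** over every extension field, from an invariant. -/
theorem uSemi_bCfg {lam : Fin 3 → Fin n → ℤ} (hl : ∀ s, DomZ (lam s)) {N : ℕ} (hN : 0 < N)
    {l : List (so n)} (hlr : ∀ x ∈ l, x ∈ rootSet n)
    {f : (CellT (fun s i => (N : ℤ) * lam s i) → Fin n ⊕ Fin n) → ℂ} (hf : InvF f)
    (hne : ∑ β, algebraMap ℂ (GF (ColT lam)) (f β) *
      asymT (fun s i => (N : ℤ) * lam s i) (gF (ColT lam) (gword l)) β ≠ 0) :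
    USemi (bCfg lam l) := by
  intro L' _ _ S hS
  let : Algebra ℂ L' := ((algebraMap (GK (ColT lam)) L').comp
    (algebraMap ℂ (GK (ColT lam)))).toAlgebra
  let i := bcIso lam (gK (ColT lam) (gword l)) ΩK L'
  have h1 := H716.cIso_theta i S
  have hg : ∀ s, ((gK (ColT lam) (gword l) s).map (algebraMap (GK (ColT lam)) L')).transpose *
      JD (Fin n) L' * (gK (ColT lam) (gword l) s).map (algebraMap (GK (ColT lam)) L') =
        JD (Fin n) L' := fun s => map_orth _ (gK_orth (gword_root hlr) s)
  rw [wCfg_theta hl hg] at h1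
  rw [bCfg, ← h1]
  have hS' : ∀ u ∈ S.map i.e.toLinearMap, ∀ v ∈ S.map i.e.toLinearMap, qf u v = 0 :=
    (H716.cIso_iso i).mpr hS
  have hne' : ∑ β, algebraMap ℂ L' (f β) * asymT (fun s i => (N : ℤ) * lam s i)
      (fun s => (gK (ColT lam) (gword l) s).map (algebraMap (GK (ColT lam)) L')) β ≠ 0 := by
    intro h0
    apply hne
    let φ : GF (ColT lam) →+* L' :=
      (algebraMap (GK (ColT lam)) L').comp (algebraMap (GF (ColT lam)) (GK (ColT lam)))
    refine (map_eq_zero_iff φ φ.injective).mp ?_
    rw [map_sum, ← h0]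
    refine Finset.sum_congr rfl fun β _ => ?_
    rw [map_mul, asymT_map φ]
    congr 1
  have h2 := theta_nonpos hf hne' hS'
  rw [theta_smul hN] at h2
  have hN' : (0 : ℤ) < N := by exact_mod_cast hN
  by_contra h3
  push Not at h3
  have := mul_pos hN' h3
  omega

/-- the base configuration has even degree -/
theorem even_bCfg {lam : Fin 3 → Fin n → ℤ} (he : Even (∑ i, (lam 0 i + lam 1 i + lam 2 i))) {l : List (so n)}
    (hlr : ∀ x ∈ l, x ∈ rootSet n) :
    Even (∑ c, finrank (GK (ColT lam)) ((bCfg lam l).C c)) := by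
  have h1 : ∀ c, finrank (GK (ColT lam)) ((bCfg lam l).C c) = ht lam c := fun c =>
    finrank_Fl (frm_indep (lam := lam) (fun s => gK_orth (gword_root hlr) s) c.1) (ht_le lam c)
  rw [Finset.sum_congr rfl fun c _ => h1 c, Fintype.sum_sigma]
  have h2 : ∀ s : Fin 3, ∑ c : Fin (ncol (lam s)), ht lam ⟨s, c⟩ =
      ∑ i : Fin n, (lam s i).natAbs := by
    intro s
    have h3 : ∀ c : Fin (ncol (lam s)), ht lam ⟨s, c⟩ =
        ∑ i : Fin n, if (c : ℕ) < (lam s i).natAbs then 1 else 0 := fun c => by
      rw [ht, Finset.card_filter]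
    rw [Finset.sum_congr rfl fun c _ => h3 c, Finset.sum_comm]
    refine Finset.sum_congr rfl fun i _ => ?_
    have h4 : (lam s i).natAbs ≤ ncol (lam s) :=
      Finset.le_sup (f := fun i => (lam s i).natAbs) (Finset.mem_univ i)
    rw [← Finset.card_filter]
    have h5 : (Finset.univ.filter fun c : Fin (ncol (lam s)) => (c : ℕ) < (lam s i).natAbs) =
        (Finset.univ : Finset (Fin (lam s i).natAbs)).map (Fin.castLEEmb h4) := by
      ext c
      simp only [Finset.mem_filter, Finset.mem_univ, true_and, Finset.mem_map]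
      constructor
      · intro hc
        exact ⟨⟨c, hc⟩, Fin.ext rfl⟩
      · rintro ⟨d, rfl⟩
        exact d.2
    rw [h5, Finset.card_map, Finset.card_univ, Fintype.card_fin]
  rw [Finset.sum_congr rfl fun s _ => h2 s, Fin.sum_univ_three, ← Finset.sum_add_distrib,
    ← Finset.sum_add_distrib, Nat.even_iff]
  have key : ∀ t : Finset (Fin n), (∑ i ∈ t, ((lam 0 i).natAbs + (lam 1 i).natAbs +
      (lam 2 i).natAbs)) % 2 = ((∑ i ∈ t, (lam 0 i + lam 1 i + lam 2 i)) % 2).natAbs := by
    intro t
    classical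
    induction t using Finset.induction_on with
    | empty => simp
    | insert a t ha ih =>
      rw [Finset.sum_insert ha, Finset.sum_insert ha]
      omega
  rw [key]
  obtain ⟨m, hm⟩ := he
  rw [hm]
  omega

end semi

end Vale.Agent.P182.H588
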