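import Vale.Agent.P182.H532.SSurj
import Vale.Agent.P182.H588.Uu

/-!
# Surjectivity with commutators

The duality without the hypothesis that the `β_s` commute with the residues.  It only uses that the
`β_s` pair trivially with the variations of the residues along all connections.
-/

namespace Vale.Agent.P182.H588

open Module Matrix Vale.Agent.P182.H533 Vale.Agent.P182.B1 Vale.Agent.P182.H922
  Vale.Agent.P182.H578 Vale.Agent.P182.H338

section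

variable {L V J : Type*} [Field L] [AddCommGroup V] [Module L V] [Fintype J] [DecidableEq J]

/-- **Surjectivity with commutators.** -/
def GSurj (𝒟 : Cfg L V J) (u : J → L) : Prop :=
  ∀ t ∈ Ku 𝒟 u, ∀ β : Fin 3 → End L V, (∀ s, IsSA 𝒟.q (β s)) →
    (∀ (n : H533.Conn 𝒟.q) (N : Fin 3 → End L V),
      (∀ s v, n.δ (Res 𝒟 t s v) = Res 𝒟 t s (n.δ v) + N s v) →
      ∑ s, LinearMap.trace L V (β s * N s) = 0) →
    (∀ t' ∈ Ku 𝒟 u, ∑ s, LinearMap.trace L V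
      (β s * opr 𝒟.q (Tt L t) (Gm 𝒟.arm 𝒟.Ω s) (Tt L t')) = 0) →
    ∃ r ∈ Uu V u, (∀ l k, 𝒟.q (t l) (r k) = 𝒟.q (r l) (t k)) ∧
      (∀ s, opr 𝒟.q (Tt L t) (Gm 𝒟.arm 𝒟.Ω s) (Tt L r) -
        opr 𝒟.q (Tt L r) (Gm 𝒟.arm 𝒟.Ω s) (Tt L t) =
          Res 𝒟 t s * β s - β s * Res 𝒟 t s) ∧
      ∀ l, β (𝒟.arm l) (t l) - r l ∈ 𝒟.C l ∧
        β (𝒟.arm l) (𝒟.om t l) - 𝒟.om r l ∈ perp 𝒟.q (𝒟.C l)

variable [FiniteDimensional L V] {𝒟 : Cfg L V J}

/-- the variation of the residues along a connection -/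
theorem exists_var (hG : 𝒟.Good) (t : J → V) (n : H533.Conn 𝒟.q) (s : Fin 3) :
    ∃ N : End L V, (∀ v, n.δ (Res 𝒟 t s v) = Res 𝒟 t s (n.δ v) + N v) ∧
      ∀ β : End L V, IsSA 𝒟.q β → LinearMap.trace L V (β * N) =
        2 * ∑ l with 𝒟.arm l = s,
          (𝒟.q (n.δ (𝒟.om t l)) (β (t l)) + 𝒟.q (n.δ (t l)) (β (𝒟.om t l))) := by
  refine ⟨∑ l with 𝒟.arm l = s,
      ((𝒟.q (n.δ (𝒟.om t l))).smulRight (t l) + (𝒟.q (𝒟.om t l)).smulRight (n.δ (t l)) +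
        ((𝒟.q (n.δ (t l))).smulRight (𝒟.om t l) + (𝒟.q (t l)).smulRight (n.δ (𝒟.om t l)))),
    fun v => ?_, fun β hβ => ?_⟩
  · rw [Res_apply 𝒟 hG.skew, Res_apply 𝒟 hG.skew, map_sum, ← sub_eq_iff_eq_add',
      ← Finset.sum_sub_distrib, LinearMap.sum_apply]
    refine Finset.sum_congr rfl fun l _ => ?_
    rw [map_add, n.smul, n.smul, n.metric, n.metric]
    simp only [LinearMap.add_apply, LinearMap.smulRight_apply, add_smul]
    abel
  · rw [Finset.mul_sum, map_sum, Finset.mul_sum]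
    refine Finset.sum_congr rfl fun l _ => ?_
    have e : ∀ a b, 𝒟.q a (β b) = 𝒟.q b (β a) := fun a b => by rw [hG.form.symm, hβ]
    simp only [mul_add, map_add, trace_rank_one]
    rw [e (𝒟.om t l), e (t l)]
    ring

/-- the pairing of a family of self-adjoint maps with a connection vanishes -/
theorem pair_conn_zero (h2 : (2 : L) ≠ 0) (hG : 𝒟.Good) {t : J → V} {β : Fin 3 → End L V}
    (hβ : ∀ s, IsSA 𝒟.q (β s))
    (hn : ∀ (n : H533.Conn 𝒟.q) (N : Fin 3 → End L V),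
      (∀ s v, n.δ (Res 𝒟 t s v) = Res 𝒟 t s (n.δ v) + N s v) →
      ∑ s, LinearMap.trace L V (β s * N s) = 0) (n : H533.Conn 𝒟.q) :
    ∑ s, ∑ l with 𝒟.arm l = s,
      (𝒟.q (n.δ (𝒟.om t l)) (β s (t l)) + 𝒟.q (n.δ (t l)) (β s (𝒟.om t l))) = 0 := by
  choose N h1 h3 using fun s => exists_var hG t n s
  have h4 := hn n N h1
  simp only [fun s => h3 s (β s) (hβ s), ← Finset.mul_sum] at h4
  exact (mul_eq_zero.mp h4).resolve_left h2

/-- the pairing with a skew map -/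
theorem pair_skew (hG : 𝒟.Good) (t : J → V) (s : Fin 3) {β Y : End L V} (hY : IsSk 𝒟.q Y) :
    ∑ l with 𝒟.arm l = s,
      (𝒟.q (Y (𝒟.om t l)) (β (t l)) + 𝒟.q (Y (t l)) (β (𝒟.om t l))) =
    - LinearMap.trace L V (Y * (β * Res 𝒟 t s)) := by
  have h3 : LinearMap.trace L V ((Y * β) * opr 𝒟.q (Tt L t) (Gm 𝒟.arm 𝒟.Ω s) (Tt L t)) =
      LinearMap.trace L V (Y * (β * Res 𝒟 t s)) := by
    rw [mul_assoc]
    rfl
  rw [← h3, trace_opr hG.skew, ← Finset.sum_neg_distrib]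
  refine Finset.sum_congr rfl fun l _ => ?_
  have e : ∀ a b, 𝒟.q a ((Y * β) b) = - 𝒟.q (Y a) (β b) := fun a b => by
    rw [Module.End.mul_apply, hY, neg_neg]
  rw [e, e]
  ring

end

section

variable {L V J : Type*} [Field L] [AddCommGroup V] [Module L V] [Fintype J] [DecidableEq J]
  [FiniteDimensional L V] {𝒟 : Cfg L V J}

theorem fib_sum (arm : J → Fin 3) (f : Fin 3 → J → L) :
    ∑ s, ∑ l with arm l = s, f s l = ∑ l, f (arm l) l := by
  rw [← Finset.sum_fiberwise (s := Finset.univ) (g := arm)]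
  refine Finset.sum_congr rfl fun s _ => Finset.sum_congr rfl fun l hl => ?_
  rw [(Finset.mem_filter.1 hl).2]

/-- an operator which pairs trivially with the skew maps is self-adjoint -/
theorem sa_of_trace (hq : IsForm 𝒟.q) {M : End L V}
    (h : ∀ X : End L V, X ∈ adj 𝒟.q (-1) → LinearMap.trace L V (X * M) = 0) : IsSA 𝒟.q M := by
  intro v w
  let X : End L V := (𝒟.q v).smulRight w - (𝒟.q w).smulRight v
  have hX : ∀ a, X a = 𝒟.q v a • w - 𝒟.q w a • v := fun a => rfl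
  have hXs : X ∈ adj 𝒟.q (-1) := by
    intro a b
    rw [hX, hX]
    simp only [map_sub, map_smul, LinearMap.sub_apply, LinearMap.smul_apply, smul_eq_mul]
    rw [hq.symm a w, hq.symm a v]
    ring
  have h4 := h X hXs
  have h6 : X * M = (𝒟.q v ∘ₗ M).smulRight w - (𝒟.q w ∘ₗ M).smulRight v := by
    apply LinearMap.ext
    intro a
    rfl
  rw [h6, map_sub, LinearMap.trace_smulRight, LinearMap.trace_smulRight, sub_eq_zero] at h4
  rw [hq.symm]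
  exact h4.symm

/-- the last step of the duality -/
theorem gs_finish (hG : 𝒟.Good) {t r : J → V} {β : Fin 3 → End L V}
    (hβ : ∀ s, IsSA 𝒟.q (β s))
    (hr' : ∀ (Y : Fin 3 → adj 𝒟.q (-1)) (w : Cpi 𝒟) (w' : Ppi 𝒟),
      ∑ l, 𝒟.q ((Y (𝒟.arm l) : End L V) (𝒟.om t l)) (r l) +
        ∑ l, 𝒟.q ((Y (𝒟.arm l) : End L V) (t l)) (𝒟.om r l) +
        (∑ l, 𝒟.q ((w' : J → V) l) (r l) + ∑ l, 𝒟.q ((w : J → V) l) (𝒟.om r l)) =
      ∑ l, (𝒟.q ((w' : J → V) l) (β (𝒟.arm l) (t l)) +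
        𝒟.q ((w : J → V) l) (β (𝒟.arm l) (𝒟.om t l))) +
      ∑ l, (𝒟.q ((Y (𝒟.arm l) : End L V) (𝒟.om t l)) (β (𝒟.arm l) (t l)) +
        𝒟.q ((Y (𝒟.arm l) : End L V) (t l)) (β (𝒟.arm l) (𝒟.om t l)))) :
    (∀ s, opr 𝒟.q (Tt L t) (Gm 𝒟.arm 𝒟.Ω s) (Tt L r) -
        opr 𝒟.q (Tt L r) (Gm 𝒟.arm 𝒟.Ω s) (Tt L t) =
          Res 𝒟 t s * β s - β s * Res 𝒟 t s) ∧
      ∀ l, β (𝒟.arm l) (t l) - r l ∈ 𝒟.C l ∧
        β (𝒟.arm l) (𝒟.om t l) - 𝒟.om r l ∈ perp 𝒟.q (𝒟.C l) := by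
  constructor
  · intro s
    set T := opr 𝒟.q (Tt L t) (Gm 𝒟.arm 𝒟.Ω s) (Tt L r) with hT
    have hM : IsSA 𝒟.q (T + β s * Res 𝒟 t s) := by
      apply sa_of_trace hG.form
      intro X hXs
      have hXk : IsSk 𝒟.q X := fun u v => by rw [hXs u v]; ring
      have h3 := hr' (fun s' => if s' = s then ⟨X, hXs⟩ else 0) 0 0
      have h4 : LinearMap.trace L V (X * T) =
          ∑ l, 𝒟.q (((if 𝒟.arm l = s then ⟨X, hXs⟩ else 0 : adj 𝒟.q (-1)) : End L V) (𝒟.om t l))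
              (r l) +
            ∑ l, 𝒟.q (((if 𝒟.arm l = s then ⟨X, hXs⟩ else 0 : adj 𝒟.q (-1)) : End L V) (t l))
              (𝒟.om r l) := by
        rw [hT, trace_opr hG.skew, Finset.sum_filter, ← Finset.sum_add_distrib]
        refine Finset.sum_congr rfl fun l _ => ?_
        split_ifs
        · rw [hG.form.symm (𝒟.om r l), hG.form.symm (r l)]; ring
        · simp
      have h5 : ∑ l, (𝒟.q (((if 𝒟.arm l = s then ⟨X, hXs⟩ else 0 : adj 𝒟.q (-1)) : End L V)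
            (𝒟.om t l)) (β (𝒟.arm l) (t l)) +
          𝒟.q (((if 𝒟.arm l = s then ⟨X, hXs⟩ else 0 : adj 𝒟.q (-1)) : End L V)
            (t l)) (β (𝒟.arm l) (𝒟.om t l))) =
          - LinearMap.trace L V (X * (β s * Res 𝒟 t s)) := by
        rw [← pair_skew hG t s hXk, Finset.sum_filter]
        refine Finset.sum_congr rfl fun l _ => ?_
        split_ifs with h
        · rw [h]
        · simp
      rw [mul_add, map_add, h4]
      have h7 : ∑ l, (𝒟.q (((0 : Ppi 𝒟) : J → V) l) (β (𝒟.arm l) (t l)) +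
        𝒟.q (((0 : Cpi 𝒟) : J → V) l) (β (𝒟.arm l) (𝒟.om t l))) = 0 := by simp
      have h8 : (∑ l, 𝒟.q (((0 : Ppi 𝒟) : J → V) l) (r l) +
          ∑ l, 𝒟.q (((0 : Cpi 𝒟) : J → V) l) (𝒟.om r l)) = 0 := by simp
      rw [h7, h8, add_zero, zero_add] at h3
      rw [h3, h5]
      ring
    have hTa : ∀ v w, 𝒟.q (T v) w = 𝒟.q v (opr 𝒟.q (Tt L r) (Gm 𝒟.arm 𝒟.Ω s) (Tt L t) w) := by
      intro v w
      rw [hT, opr_adj hG.form, Gm_transpose 𝒟.arm hG.skew]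
    have hS := Sop_SA 𝒟.arm hG.form (Tt L t) hG.skew s
    apply LinearMap.ext
    intro v
    have key : (T v + β s (Res 𝒟 t s v)) - (opr 𝒟.q (Tt L r) (Gm 𝒟.arm 𝒟.Ω s) (Tt L t) v +
        Res 𝒟 t s (β s v)) = 0 := by
      apply hG.form.nondeg
      intro w
      have h1 := hM v w
      rw [LinearMap.add_apply, LinearMap.add_apply, Module.End.mul_apply,
        Module.End.mul_apply] at h1
      have h2 : 𝒟.q v (T w) = 𝒟.q (opr 𝒟.q (Tt L r) (Gm 𝒟.arm 𝒟.Ω s) (Tt L t) v) w := by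
        rw [hG.form.symm, hTa, hG.form.symm]
      have h3 : 𝒟.q v (β s (Res 𝒟 t s w)) = 𝒟.q (Res 𝒟 t s (β s v)) w := by
        rw [← hβ s v]
        exact (hS _ _).symm
      rw [map_sub, LinearMap.sub_apply, h1, map_add, map_add, LinearMap.add_apply, h2, h3, sub_self]
    rw [LinearMap.sub_apply, LinearMap.sub_apply, Module.End.mul_apply, Module.End.mul_apply]
    rw [sub_eq_zero] at key
    rw [sub_eq_sub_iff_add_eq_add, key]
    abel
  · intro l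
    constructor
    · apply perp_perp_le hG.form
      intro c hc
      have h3 := hr' 0 0 ⟨Pi.single l c, by
        rw [mem_Ppi]
        intro k
        by_cases hk : k = l
        · subst hk; rwa [Pi.single_eq_same]
        · rw [Pi.single_eq_of_ne hk]; exact zero_mem _⟩
      have h4 : 𝒟.q c (r l) = 𝒟.q c (β (𝒟.arm l) (t l)) := by
        have e1 : ∀ f : J → V, ∑ k, 𝒟.q ((Pi.single l c : J → V) k) (f k) = 𝒟.q c (f l) := by
          intro f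
          rw [Finset.sum_eq_single l]
          · rw [Pi.single_eq_same]
          · intro k _ hk
            rw [Pi.single_eq_of_ne hk, map_zero, LinearMap.zero_apply]
          · intro h; exact absurd (Finset.mem_univ _) h
        simp only [Finset.sum_add_distrib] at h3
        rw [e1, e1 (fun k => β (𝒟.arm k) (t k))] at h3
        simpa using h3
      rw [hG.form.symm, map_sub, h4, sub_self]
    · intro c hc
      have h3 := hr' 0 ⟨Pi.single l c, by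
        rw [mem_Cpi]
        intro k
        by_cases hk : k = l
        · subst hk; rwa [Pi.single_eq_same]
        · rw [Pi.single_eq_of_ne hk]; exact zero_mem _⟩ 0
      have h4 : 𝒟.q c (𝒟.om r l) = 𝒟.q c (β (𝒟.arm l) (𝒟.om t l)) := by
        have e1 : ∀ f : J → V, ∑ k, 𝒟.q ((Pi.single l c : J → V) k) (f k) = 𝒟.q c (f l) := by
          intro f
          rw [Finset.sum_eq_single l]
          · rw [Pi.single_eq_same]
          · intro k _ hk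
            rw [Pi.single_eq_of_ne hk, map_zero, LinearMap.zero_apply]
          · intro h; exact absurd (Finset.mem_univ _) h
        simp only [Finset.sum_add_distrib] at h3
        rw [e1 (fun k => 𝒟.om r k), e1 (fun k => β (𝒟.arm k) (𝒟.om t k))] at h3
        simpa using h3
      rw [hG.form.symm, map_sub, h4, sub_self]

/-- the term with the skew maps -/
def RhY (𝒟 : Cfg L V J) (t : J → V) (β : Fin 3 → End L V) :
    (Fin 3 → adj 𝒟.q (-1)) →ₗ[L] L where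
  toFun Y := ∑ l, (𝒟.q ((Y (𝒟.arm l) : End L V) (𝒟.om t l)) (β (𝒟.arm l) (t l)) +
        𝒟.q ((Y (𝒟.arm l) : End L V) (t l)) (β (𝒟.arm l) (𝒟.om t l)))
  map_add' x y := by
    simp only [Pi.add_apply, Submodule.coe_add, map_add,
      LinearMap.add_apply, Finset.sum_add_distrib]
    abel
  map_smul' c x := by
    simp only [Pi.smul_apply, Submodule.coe_smul, map_smul,
      LinearMap.smul_apply, smul_eq_mul, RingHom.id_apply, Finset.mul_sum, mul_add]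

/-- **Surjectivity with commutators**, versal configurations. -/
theorem gsurj_versal (h2 : (2 : L) ≠ 0) (hG : 𝒟.Good) (hV : 𝒟.Versal) : GSurj 𝒟 0 := by
  intro t ht β hβ hn htr
  rw [Ku_zero] at ht
  have hcomp : ∀ y, ((famPair 𝒟) ∘ₗ Lam 𝒟 t) y = 0 →
      (Rhs 𝒟 (fun l => β (𝒟.arm l) (t l)) (fun l => β (𝒟.arm l) (𝒟.om t l)) +
        RhY 𝒟 t β ∘ₗ LinearMap.fst L (Fin 3 → adj 𝒟.q (-1))
          (skM L J × Cpi 𝒟 × Ppi 𝒟)) y = 0 := by
    rintro ⟨Y, ⟨η, hη⟩, ⟨w, hw⟩, ⟨w', hw'⟩⟩ hy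
    have h0 := famPair_inj hG hy
    have h1 : ∀ l, (Y (𝒟.arm l) : End L V) (𝒟.om t l) -
        𝒟.om (fun k => (Y (𝒟.arm k) : End L V) (t k)) l - ∑ k, η l k • t k +
          (w' l - 𝒟.om w l) = 0 := fun l => congrFun h0 l
    show ∑ l, (𝒟.q (w' l) (β (𝒟.arm l) (t l)) + 𝒟.q (w l) (β (𝒟.arm l) (𝒟.om t l))) +
      ∑ l, (𝒟.q ((Y (𝒟.arm l) : End L V) (𝒟.om t l)) (β (𝒟.arm l) (t l)) +
        𝒟.q ((Y (𝒟.arm l) : End L V) (t l)) (β (𝒟.arm l) (𝒟.om t l))) = 0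
    rw [mem_Cpi] at hw
    rw [mem_Ppi] at hw'
    have hYs : ∀ s, IsSk 𝒟.q (Y s : End L V) := fun s u v => by
      rw [(Y s).2 u v]; ring
    obtain ⟨n, hn', hd⟩ := hV (fun s => (Y s : End L V)) hYs η hη
    -- the solution given by the connection
    let z : J → V := fun l => n.δ (t l) - (Y (𝒟.arm l) : End L V) (t l)
    have hz : ∀ l, z l ∈ 𝒟.C l := fun l => hn' _ _ _ (ht.1 l)
    have hz' : ∀ l, n.δ (𝒟.om t l) - (Y (𝒟.arm l) : End L V) (𝒟.om t l) ∈ perp 𝒟.q (𝒟.C l) :=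
      fun l => conn_perp n (hYs _) (fun v hv => hn' _ _ v hv) _ (ht.2 l)
    have hom : ∀ l, 𝒟.om (w - z) l =
        w' l - (n.δ (𝒟.om t l) - (Y (𝒟.arm l) : End L V) (𝒟.om t l)) := by
      intro l
      have h3 : 𝒟.om (w - z) l = 𝒟.om w l - (𝒟.om (fun k => n.δ (t k)) l -
          𝒟.om (fun k => (Y (𝒟.arm k) : End L V) (t k)) l) := by
        simp only [Cfg.om, z, Pi.sub_apply, smul_sub, Finset.sum_sub_distrib]
      rw [h3, conn_om n]
      simp only [hd]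
      have h4 := h1 l
      have h5 : w' l = 𝒟.om w l - ((Y (𝒟.arm l) : End L V) (𝒟.om t l) -
        𝒟.om (fun k => (Y (𝒟.arm k) : End L V) (t k)) l - ∑ k, η l k • t k) := by
        rw [← sub_eq_zero, ← h4]; abel
      rw [h5]
      abel
    have hκ : w - z ∈ 𝒟.K := by
      refine ⟨fun l => sub_mem (hw l) (hz l), fun l => ?_⟩
      rw [hom]
      exact sub_mem (hw' l) (hz' l)
    -- the contributions
    have c1 := htr _ (by rw [Ku_zero]; exact hκ)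
    simp only [trace_opr hG.skew] at c1
    have c2 := pair_conn_zero h2 hG hβ hn n
    rw [fib_sum 𝒟.arm (fun s l => 𝒟.q (𝒟.om (w - z) l) (β s (t l)) +
      𝒟.q ((w - z) l) (β s (𝒟.om t l)))] at c1
    rw [fib_sum 𝒟.arm (fun s l => 𝒟.q (n.δ (𝒟.om t l)) (β s (t l)) +
      𝒟.q (n.δ (t l)) (β s (𝒟.om t l)))] at c2
    have c4 : ∑ l, (𝒟.q (w' l) (β (𝒟.arm l) (t l)) + 𝒟.q (w l) (β (𝒟.arm l) (𝒟.om t l))) =
        ∑ l, (𝒟.q (𝒟.om (w - z) l) (β (𝒟.arm l) (t l)) +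
          𝒟.q ((w - z) l) (β (𝒟.arm l) (𝒟.om t l))) +
        (∑ l, (𝒟.q (n.δ (𝒟.om t l)) (β (𝒟.arm l) (t l)) +
          𝒟.q (n.δ (t l)) (β (𝒟.arm l) (𝒟.om t l))) -
        ∑ l, (𝒟.q ((Y (𝒟.arm l) : End L V) (𝒟.om t l)) (β (𝒟.arm l) (t l)) +
          𝒟.q ((Y (𝒟.arm l) : End L V) (t l)) (β (𝒟.arm l) (𝒟.om t l)))) := by
      rw [← Finset.sum_sub_distrib, ← Finset.sum_add_distrib]
      refine Finset.sum_congr rfl fun l _ => ?_
      rw [hom]
      simp only [z, Pi.sub_apply, map_sub, LinearMap.sub_apply]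
      ring
    rw [c4, c1, c2]
    ring
  obtain ⟨r, hr⟩ := lin_sys ((famPair 𝒟) ∘ₗ Lam 𝒟 t) _ hcomp
  have hr' : ∀ (Y : Fin 3 → adj 𝒟.q (-1)) (η : skM L J) (w : Cpi 𝒟) (w' : Ppi 𝒟),
      ∑ l, 𝒟.q ((Y (𝒟.arm l) : End L V) (𝒟.om t l)) (r l) +
        ∑ l, 𝒟.q ((Y (𝒟.arm l) : End L V) (t l)) (𝒟.om r l) -
        ∑ l, ∑ k, (η : Matrix J J L) l k * 𝒟.q (t k) (r l) +
        (∑ l, 𝒟.q ((w' : J → V) l) (r l) + ∑ l, 𝒟.q ((w : J → V) l) (𝒟.om r l)) =
      ∑ l, (𝒟.q ((w' : J → V) l) (β (𝒟.arm l) (t l)) +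
        𝒟.q ((w : J → V) l) (β (𝒟.arm l) (𝒟.om t l))) +
      ∑ l, (𝒟.q ((Y (𝒟.arm l) : End L V) (𝒟.om t l)) (β (𝒟.arm l) (t l)) +
        𝒟.q ((Y (𝒟.arm l) : End L V) (t l)) (β (𝒟.arm l) (𝒟.om t l))) := by
    intro Y η w w'
    have h1 := hr (Y, η, w, w')
    rw [LinearMap.comp_apply, famPair_apply] at h1
    refine Eq.trans ?_ h1
    simp only [Lam_apply, map_add, map_sub, LinearMap.add_apply, LinearMap.sub_apply,
      Finset.sum_add_distrib, Finset.sum_sub_distrib]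
    have p1 : ∀ a : J → V, ∑ l, 𝒟.q (𝒟.om a l) (r l) = - ∑ l, 𝒟.q (a l) (𝒟.om r l) := by
      intro a
      rw [pair_om hG, neg_neg]
      exact Finset.sum_congr rfl fun l _ => hG.form.symm _ _
    rw [p1, p1]
    simp only [map_sum, LinearMap.sum_apply, map_smul, LinearMap.smul_apply, smul_eq_mul]
    ring
  have hfin := gs_finish hG (r := r) hβ (fun Y w w' => by
    have := hr' Y 0 w w'
    simpa using this)
  refine ⟨r, by rw [mem_Uu]; simp, ?_, hfin.1, hfin.2⟩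
  -- F1
  intro i j
  by_cases hij : i = j
  · subst hij; rw [hG.form.symm]
  let η : Matrix J J L := Matrix.single i j 1 - Matrix.single j i 1
  have hη : ηᵀ = -η := by
    simp only [η, Matrix.transpose_sub, Matrix.transpose_single, neg_sub]
  have h3 := hr' 0 ⟨η, hη⟩ 0 0
  have h4 : ∀ l k, η l k * 𝒟.q (t k) (r l) =
      (if l = i then (if k = j then 𝒟.q (t j) (r i) else 0) else 0) -
        (if l = j then (if k = i then 𝒟.q (t i) (r j) else 0) else 0) := by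
    intro l k
    simp only [η, Matrix.sub_apply, sub_mul, Matrix.single_apply]
    congr 1
    · by_cases hl : l = i
      · by_cases hk : k = j
        · subst hl; subst hk; simp
        · simp [hl, hk, Ne.symm hk]
      · simp [hl, Ne.symm hl]
    · by_cases hl : l = j
      · by_cases hk : k = i
        · subst hl; subst hk; simp
        · simp [hl, hk, Ne.symm hk]
      · simp [hl, Ne.symm hl]
  simp only [h4, Finset.sum_sub_distrib] at h3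
  simp only [Finset.sum_ite_irrel, Finset.sum_const_zero, Finset.sum_ite_eq', Finset.mem_univ,
    if_true] at h3
  simp at h3
  rw [sub_eq_zero] at h3
  rw [h3, hG.form.symm]

end

section spin

open Vale.Agent.P182.SPIN

variable {L V J : Type*} [Field L] [AddCommGroup V] [Module L V] [FiniteDimensional L V]
  [Fintype J] [DecidableEq J] {𝒟 : Cfg L V J} {a b : J}

/-- **Surjectivity with commutators**, special configurations. -/
theorem gsurj_spin' (h2 : (2 : L) ≠ 0) (hG : 𝒟.Good) (h : Sp 𝒟 a b) (hV : H338.SVersal 𝒟 a b)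
    {t : J → V} (ht : t ∈ H338.Ks 𝒟 a b)
    {β : Fin 3 → End L V} (hβ : ∀ s, IsSA 𝒟.q (β s))
    (hn : ∀ (n : H533.Conn 𝒟.q) (N : Fin 3 → End L V),
      (∀ s v, n.δ (Res 𝒟 t s v) = Res 𝒟 t s (n.δ v) + N s v) →
      ∑ s, LinearMap.trace L V (β s * N s) = 0)
    (htr : ∀ t' ∈ H338.Ks 𝒟 a b, ∑ s, LinearMap.trace L V
      (β s * opr 𝒟.q (Tt L t) (Gm 𝒟.arm 𝒟.Ω s) (Tt L t')) = 0) :
    ∃ r : J → V, ∑ l, u0 𝒟 a b l • r l = 0 ∧ (∀ l k, 𝒟.q (t l) (r k) = 𝒟.q (r l) (t k)) ∧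
      (∀ s, opr 𝒟.q (Tt L t) (Gm 𝒟.arm 𝒟.Ω s) (Tt L r) -
        opr 𝒟.q (Tt L r) (Gm 𝒟.arm 𝒟.Ω s) (Tt L t) =
          Res 𝒟 t s * β s - β s * Res 𝒟 t s) ∧
      ∀ l, β (𝒟.arm l) (t l) - r l ∈ 𝒟.C l ∧
        β (𝒟.arm l) (𝒟.om t l) - 𝒟.om r l ∈ perp 𝒟.q (𝒟.C l) := by
  have fib := fun f : Fin 3 → J → L => fib_sum 𝒟.arm f
  -- the compatibility
  have hcomp : ∀ y, ((famPair 𝒟) ∘ₗ LamS 𝒟 a b t) y = 0 →
      (RhsS 𝒟 a b (fun l => β (𝒟.arm l) (t l)) (fun l => β (𝒟.arm l) (𝒟.om t l)) +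
        RhY 𝒟 t β ∘ₗ LinearMap.fst L (Fin 3 → adj 𝒟.q (-1))
          (spM L a b × Cpi 𝒟 × Ppi 𝒟 × V)) y = 0 := by
    rintro ⟨Y, ⟨η, hη⟩, ⟨w, hw⟩, ⟨w', hw'⟩, v⟩ hy
    have h0 := famPair_inj hG hy
    have h1 : ∀ l, (Y (𝒟.arm l) : End L V) (𝒟.om t l) -
        𝒟.om (fun k => (Y (𝒟.arm k) : End L V) (t k)) l - ∑ k, η l k • t k +
          (w' l - 𝒟.om w l) + u0 𝒟 a b l • v = 0 := fun l => congrFun h0 l
    show ∑ l, (𝒟.q (w' l) (β (𝒟.arm l) (t l)) + 𝒟.q (w l) (β (𝒟.arm l) (𝒟.om t l))) +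
      ∑ l, (𝒟.q ((Y (𝒟.arm l) : End L V) (𝒟.om t l)) (β (𝒟.arm l) (t l)) +
        𝒟.q ((Y (𝒟.arm l) : End L V) (t l)) (β (𝒟.arm l) (𝒟.om t l))) = 0
    rw [mem_Cpi] at hw
    rw [mem_Ppi] at hw'
    have hYs : ∀ s, IsSk 𝒟.q (Y s : End L V) := fun s u v => by
      rw [(Y s).2 u v]; ring
    obtain ⟨n, hn', hd⟩ := hV (fun s => (Y s : End L V)) hYs η hη.1 hη.2
    -- the solution given by the connection
    let z : J → V := fun l => n.δ (t l) - (Y (𝒟.arm l) : End L V) (t l)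
    have hz : ∀ l, z l ∈ 𝒟.C l := fun l => hn' _ _ _ (ht.1.1 l)
    have hz' : ∀ l, n.δ (𝒟.om t l) - (Y (𝒟.arm l) : End L V) (𝒟.om t l) ∈ perp 𝒟.q (𝒟.C l) :=
      fun l => conn_perp n (hYs _) (fun v hv => hn' _ _ v hv) _ (ht.1.2 l)
    have hom : ∀ l, 𝒟.om (w - z) l =
        w' l - (n.δ (𝒟.om t l) - (Y (𝒟.arm l) : End L V) (𝒟.om t l)) + u0 𝒟 a b l • v := by
      intro l
      have h3 : 𝒟.om (w - z) l = 𝒟.om w l - 𝒟.om z l := by
        simp only [Cfg.om, Pi.sub_apply, smul_sub, Finset.sum_sub_distrib]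
      rw [h3, conn_om' n hd (fun s => (Y s : End L V)) t l]
      have h4 := h1 l
      have h5 : w' l = 𝒟.om w l - ((Y (𝒟.arm l) : End L V) (𝒟.om t l) -
        𝒟.om (fun k => (Y (𝒟.arm k) : End L V) (t k)) l - ∑ k, η l k • t k) -
          u0 𝒟 a b l • v := by
        rw [← sub_eq_zero, ← h4]; abel
      rw [h5]
      abel
    obtain ⟨R, hR, va, hva, vb, hvb, e1, e2⟩ := adjust h2 h hG (κ := w - z) (v := v)
      (fun l => sub_mem (hw l) (hz l)) (fun l => by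
        rw [hom, add_sub_cancel_right]
        exact sub_mem (hw' l) (hz' l))
    -- the contributions
    have c1 := htr _ hR
    simp only [trace_opr hG.skew] at c1
    have c2 := pair_conn_zero h2 hG hβ hn n
    have c5 := Finset.sum_eq_zero (s := Finset.univ) fun s (_ : s ∈ Finset.univ) =>
      sum_arm_zero h ht.2 (𝒟.q.compl₂ (β s)) va vb s
    rw [fib (fun s l => 𝒟.q (𝒟.om R l) (β s (t l)) + 𝒟.q (R l) (β s (𝒟.om t l)))] at c1
    rw [fib (fun s l => 𝒟.q (n.δ (𝒟.om t l)) (β s (t l)) + 𝒟.q (n.δ (t l)) (β s (𝒟.om t l)))] at c2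
    rw [fib (fun s l => (𝒟.q.compl₂ (β s)) (Zf a b va vb l) (𝒟.om t l) -
      (𝒟.q.compl₂ (β s)) (yy 𝒟 a b va vb l) (t l))] at c5
    have ew : ∀ l, w l = R l + Zf a b va vb l + (n.δ (t l) - (Y (𝒟.arm l) : End L V) (t l)) := by
      intro l
      have := congrFun e1 l
      rw [Pi.sub_apply, Pi.add_apply, sub_eq_iff_eq_add] at this
      exact this
    have ew' : ∀ l, w' l = 𝒟.om R l - yy 𝒟 a b va vb l +
        (n.δ (𝒟.om t l) - (Y (𝒟.arm l) : End L V) (𝒟.om t l)) := by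
      intro l
      have h5 := hom l
      rw [e2] at h5
      have h6 : w' l = (𝒟.om R l + (u0 𝒟 a b l • v - yy 𝒟 a b va vb l)) - u0 𝒟 a b l • v +
          (n.δ (𝒟.om t l) - (Y (𝒟.arm l) : End L V) (𝒟.om t l)) := by
        rw [h5]; abel
      rw [h6]
      abel
    have c4 : ∑ l, (𝒟.q (w' l) (β (𝒟.arm l) (t l)) + 𝒟.q (w l) (β (𝒟.arm l) (𝒟.om t l))) =
        ∑ l, (𝒟.q (𝒟.om R l) (β (𝒟.arm l) (t l)) +
          𝒟.q (R l) (β (𝒟.arm l) (𝒟.om t l))) +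
        (∑ l, (𝒟.q (n.δ (𝒟.om t l)) (β (𝒟.arm l) (t l)) +
          𝒟.q (n.δ (t l)) (β (𝒟.arm l) (𝒟.om t l))) -
        ∑ l, (𝒟.q ((Y (𝒟.arm l) : End L V) (𝒟.om t l)) (β (𝒟.arm l) (t l)) +
          𝒟.q ((Y (𝒟.arm l) : End L V) (t l)) (β (𝒟.arm l) (𝒟.om t l)))) +
        ∑ l, ((𝒟.q.compl₂ (β (𝒟.arm l))) (Zf a b va vb l) (𝒟.om t l) -
          (𝒟.q.compl₂ (β (𝒟.arm l))) (yy 𝒟 a b va vb l) (t l)) := by
      rw [← Finset.sum_sub_distrib, ← Finset.sum_add_distrib, ← Finset.sum_add_distrib]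
      refine Finset.sum_congr rfl fun l _ => ?_
      rw [ew, ew']
      simp only [map_add, map_sub, LinearMap.sub_apply, LinearMap.add_apply,
        LinearMap.compl₂_apply]
      ring
    rw [c4, c1, c2, c5]
    ring
  obtain ⟨r, hr⟩ := lin_sys ((famPair 𝒟) ∘ₗ LamS 𝒟 a b t) _ hcomp
  have hr' : ∀ (Y : Fin 3 → adj 𝒟.q (-1)) (η : spM L a b) (w : Cpi 𝒟) (w' : Ppi 𝒟) (v : V),
      ∑ l, 𝒟.q ((Y (𝒟.arm l) : End L V) (𝒟.om t l)) (r l) +
        ∑ l, 𝒟.q ((Y (𝒟.arm l) : End L V) (t l)) (𝒟.om r l) -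
        ∑ l, ∑ k, (η : Matrix J J L) l k * 𝒟.q (t k) (r l) +
        (∑ l, 𝒟.q ((w' : J → V) l) (r l) + ∑ l, 𝒟.q ((w : J → V) l) (𝒟.om r l)) +
        𝒟.q v (∑ l, u0 𝒟 a b l • r l) =
      ∑ l, (𝒟.q ((w' : J → V) l) (β (𝒟.arm l) (t l)) +
        𝒟.q ((w : J → V) l) (β (𝒟.arm l) (𝒟.om t l))) +
      ∑ l, (𝒟.q ((Y (𝒟.arm l) : End L V) (𝒟.om t l)) (β (𝒟.arm l) (t l)) +
        𝒟.q ((Y (𝒟.arm l) : End L V) (t l)) (β (𝒟.arm l) (𝒟.om t l))) := by
    intro Y η w w' v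
    have h1 := hr (Y, η, w, w', v)
    rw [LinearMap.comp_apply, famPair_apply] at h1
    refine Eq.trans ?_ h1
    have hLam : ∀ l, LamS 𝒟 a b t (Y, η, w, w', v) l = (Y (𝒟.arm l) : End L V) (𝒟.om t l) -
      𝒟.om (fun k => (Y (𝒟.arm k) : End L V) (t k)) l - ∑ k, (η : Matrix J J L) l k • t k +
      ((w' : J → V) l - 𝒟.om (w : J → V) l) + u0 𝒟 a b l • v := fun l => rfl
    simp only [hLam, map_add, map_sub, LinearMap.add_apply, LinearMap.sub_apply,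
      Finset.sum_add_distrib, Finset.sum_sub_distrib]
    have p1 : ∀ a : J → V, ∑ l, 𝒟.q (𝒟.om a l) (r l) = - ∑ l, 𝒟.q (a l) (𝒟.om r l) := by
      intro a
      rw [pair_om hG, neg_neg]
      exact Finset.sum_congr rfl fun l _ => hG.form.symm _ _
    rw [p1, p1]
    simp only [map_sum, LinearMap.sum_apply, map_smul, LinearMap.smul_apply, smul_eq_mul]
    ring
  have hru : ∑ l, u0 𝒟 a b l • r l = 0 := by
    apply hG.form.nondeg
    intro v
    have h3 := hr' 0 0 0 0 v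
    rw [hG.form.symm]
    simpa using h3
  have hfin := gs_finish hG (r := r) hβ (fun Y w w' => by
    have := hr' Y 0 w w' 0
    simpa using this)
  refine ⟨r, hru, ?_, hfin.1, hfin.2⟩
  -- F1
  intro l k
  have h3 : ∀ η : Matrix J J L, SpM a b η →
      ∑ l, ∑ k, η l k * 𝒟.q (r l) (t k) = 0 := by
    intro η hη
    have h4 := hr' 0 ⟨η, hη⟩ 0 0 0
    have h5 : ∑ l, ∑ k, η l k * 𝒟.q (t k) (r l) = 0 := by simpa using h4
    rw [← h5]
    exact Finset.sum_congr rfl fun l _ => Finset.sum_congr rfl fun k _ => by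
      rw [hG.form.symm (r l)]
  rw [gram_sym h2 hG h hru ht.2 h3 l k, hG.form.symm]

theorem gsurj_spin {c0 c1 : J} (h2 : (2 : L) ≠ 0) (hs : SpinC 𝒟 c0 c1) (hG : 𝒟.Good)
    (hV : SVersal 𝒟 c0 c1) : GSurj 𝒟 (uz 𝒟 c0 c1) := by
  intro t ht β hβ hn htr
  obtain ⟨r, h0, h1, h3, h4⟩ := gsurj_spin' h2 hG (SPIN.Sp.of_spinC hs) hV ht hβ hn htr
  exact ⟨r, h0, h1, h3, h4⟩

end spin

end Vale.Agent.P182.H588
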