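import Vale.Agent.P182.H388.NullI
import Vale.Agent.P182.H89.EndI
import Vale.Agent.P182.H55.DHat

/-!
# The glued null case: assembly from the rows
-/

namespace Vale.Agent.P182.H588

open Vale.Agent.P182.H922 hiding ext0
open Module Matrix Vale.Agent.P182.H533 Vale.Agent.P182.B1 Vale.Agent.P182.H578
  Vale.Agent.P182.H588 Vale.Agent.P182.H181 Vale.Agent.P182.H983 Vale.Agent.P182.H89
  Vale.Agent.P182.H55

universe u v w

variable {L : Type u} {V : Type v} {J : Type w} [Field L] [AddCommGroup V] [Module L V]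
  [FiniteDimensional L V] [Fintype J] [DecidableEq J] {𝒟 : Cfg L V J} {u : J → L}

theorem exists_DHat' (hC : Ctx 𝒟 u) {t t' : J → V}
    (ht : t ∈ Ku 𝒟 u) (ht' : t' ∈ Ku 𝒟 u) (C : Core 𝒟.q (Res 𝒟 t)) {D : End L C.V1}
    (hD2 : ∀ s, C.res hC.good.form (opr 𝒟.q (Tt L t) (Gm 𝒟.arm 𝒟.Ω s) (Tt L t')) =
      D * C.S1 hC.good.form s) : ∃ Dh, DHat hC.good t' C D Dh := by
  obtain ⟨Dh, h1, -, h2, h3⟩ := exists_Dhat hC.good hC.krel ht ht' C hD2
  exact ⟨Dh, h1, h3, h2⟩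

/-- the set of good parameters -/
def XI (hG : 𝒟.Good) (u : J → L) {t : J → V} (t' : J → V) (C : Core 𝒟.q (Res 𝒟 t))
    (D : End L C.V1) (Dh : End L V) : Set L :=
  {x : L | GoodI hG t' C D Dh x ∧ MaxCoreU 𝒟 u (t + x • t') ∧ MovesU 𝒟 u (t + x • t')}

/-- **The end of the glued null case from the rows.** -/
theorem glued_end [IsAlgClosed L] [CharZero L] (h : CritU 𝒟 u) {t : J → V}
    (ht : MaxCoreU 𝒟 u t) (hm : MovesU 𝒟 u t) (C : Core 𝒟.q (Res 𝒟 t)) {t' : J → V}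
    (ht' : t' ∈ Ku 𝒟 u) {D : End L C.V1} (hDs : IsSA C.q1 D)
    (hD1 : ∀ s, C.res h.ctx.good.form (opr 𝒟.q (Tt L t) (Gm 𝒟.arm 𝒟.Ω s) (Tt L t')) =
      C.S1 h.ctx.good.form s * D)
    (hD2 : ∀ s, C.res h.ctx.good.form (opr 𝒟.q (Tt L t) (Gm 𝒟.arm 𝒟.Ω s) (Tt L t')) =
      D * C.S1 h.ctx.good.form s)
    (he : ∃ a b : L, a ≠ b ∧ D.HasEigenvalue a ∧ D.HasEigenvalue b)
    (hN : NullCore C h.ctx.good.form)
    -- the rows
    (hS : ∀ Dh, DHat h.ctx.good t' C D Dh → ∀ x ∈ XI h.ctx.good u t' C D Dh,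
      RowS 𝒟 u t t' C.W C.I 1 x)
    (hC0 : RowC0 𝒟 u t C.W C.I)
    (hB : ∀ Dh, DHat h.ctx.good t' C D Dh → ∀ {n : ℕ} (P : Fin n → End L C.V1) (d : Fin n → L),
      H388.BlkD h.ctx.good C D P d →
      ∀ s, (∀ h' : End L C.V1, (∀ i, P i * h' * P i = 0) →
        (∀ c : ℕ, ∀ v ∈ LinearMap.range (C.S1 h.ctx.good.form s ^ c),
          h' v ∈ LinearMap.range (C.S1 h.ctx.good.form s ^ c)) → h' ∈ HHI h.ctx.good u C s) →
      ∀ x ∈ XI h.ctx.good u t' C D Dh,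
      ∀ Y Y' : End L C.V1, IsSk C.q1 Y → (∀ i, P i * Y * P i = 0) →
      Y * ((1 + x • D) ^ 2 * C.S1 h.ctx.good.form s) =
        (1 + x • D) ^ 2 * C.S1 h.ctx.good.form s * Y →
      (1 + x • D) * Y' = Y * (1 + x • D) →
      ∀ h' : End L C.V1, (∀ i, P i * h' * P i = 0) →
        (∀ c : ℕ, ∀ v ∈ LinearMap.range (C.S1 h.ctx.good.form s ^ c),
          h' v ∈ LinearMap.range (C.S1 h.ctx.good.form s ^ c)) →
        h' * Y' - Y * h' ∈ HHI h.ctx.good u C s) : False := by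
  have hC := h.ctx
  have hG := hC.good
  have hrel : Rel 𝒟 t t' := U.rel_of_krel hC.krel ht.1 ht'
  have hDc : ∀ s, D * C.S1 hG.form s = C.S1 hG.form s * D := fun s => by rw [← hD2, ← hD1]
  have hK := span_of_DU hG (Ku 𝒟 u) h.dim ht.1 ht' C hD1 he
  obtain ⟨Dh, hDh⟩ := exists_DHat' hC ht.1 ht' C hD2
  obtain ⟨p, hp⟩ := H258.nul_core hG t C hN
  have hstr := H58.structThm _ _ _ p hp (hC.realS t ht.1 hm C)
  have hX := exists_goodI h ht hm ht' hDh hDs hDc hK hN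
  refine H388.null_endI two_ne_zero hG C hDs hDc he hN hstr (X := XI hG u t' C D Dh) hX
    (fun x hx => hx.1.unit) (fun s => HHI hG u C s) ?_ (hB Dh hDh) ?_
  · intro s x hx β hβ hc
    exact mem_HHI_comm two_ne_zero hDh hrel hDs hDc hC0 hx.1 (hS Dh hDh x hx) s hβ hc
  · intro k hk
    exact HHI_end hDh hDs ht.1.2 hK hk

end Vale.Agent.P182.H588
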