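import Vale.Agent.P182.H588.SRed
import Vale.Agent.P182.H588.SF1
import Vale.Agent.P182.H532.SNConst
import Vale.Agent.P182.H258.RdIso
import Vale.Agent.P182.H338.SStr

/-!
# Translation of special configurations, and N1 in the language of `H96`
-/

namespace Vale.Agent.P182.H588.SP

open Module Matrix TensorProduct Vale.Agent.P182.H533 Vale.Agent.P182.B1 Vale.Agent.P182.H62
open Vale.Agent.P182.H430 Vale.Agent.P182.H922 Vale.Agent.P182.H578
open Vale.Agent.P182.H96 (ofCfg toCfg pp pp_eq om Rd)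
open Vale.Agent.P182.H338 (SpinC SpinC1 SVersal uz thetaS USemiS)

universe u v w

section bridge

variable {L : Type u} {V : Type v} {J : Type w} [Field L] [AddCommGroup V] [Module L V]
  {𝒟 : Cfg L V J} {c0 c1 : J}

theorem spc_ofCfg (g : 𝒟.Good) (hs : SpinC1 𝒟 c0 c1) : Spc (ofCfg 𝒟) c0 c1 where
  arm0 := hs.arm0
  arm1 := hs.arm1
  lag0 := by
    show pp 𝒟.q (𝒟.C c0) = 𝒟.C c0
    rw [pp_eq g.form]
    exact hs.lag0
  lag1 := by
    show pp 𝒟.q (𝒟.C c1) = 𝒟.C c1
    rw [pp_eq g.form]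
    exact hs.lag1
  sp := hs.sp
  one := hs.one

theorem svers_ofCfg (hV : SVersal 𝒟 c0 c1) : SVers (ofCfg 𝒟) c0 c1 := by
  intro Y hY η hη hηs
  exact hV Y hY (Matrix.of η) (by
    ext l k
    rw [transpose_apply, Matrix.neg_apply]
    exact hη k l) hηs

theorem sversal_toCfg {a : H96.Cf L V J (Fin 3)} (hV : SVers a c0 c1) :
    SVersal (toCfg a) c0 c1 := by
  intro Y hY η hη hηs
  refine hV Y hY η (fun l k => ?_) hηs
  have h1 := congrFun (congrFun hη k) l
  rwa [transpose_apply, Matrix.neg_apply] at h1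

theorem uu_ofCfg (l : J) : uu (ofCfg 𝒟) c0 c1 l = uz 𝒟 c0 c1 l := rfl

variable [Fintype J]

theorem mem_Ks_ofCfg [DecidableEq J] (g : 𝒟.Good) {t : J → V} :
    t ∈ Ks (ofCfg 𝒟) c0 c1 ↔ t ∈ H338.Ks 𝒟 c0 c1 := by
  rw [mem_Ks, H338.mem_Ks, H96.K_ofCfg g]
  rfl

theorem Ks_ofCfg [DecidableEq J] (g : 𝒟.Good) : Ks (ofCfg 𝒟) c0 c1 = H338.Ks 𝒟 c0 c1 := by
  ext t
  exact mem_Ks_ofCfg g

end bridge

section n1

variable {L : Type u} {V : Type u} {J : Type w} [Field L] [AddCommGroup V] [Module L V]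
  [FiniteDimensional L V] {𝒟 : Cfg L V J} {c0 c1 : J} [Fintype J] [DecidableEq J]

/-- **N1 over algebraically closed fields.** -/
theorem n1s_closed [IsAlgClosed L] [CharZero L] (hN : N1S.{u, w} L) (hs1 : SpinC1 𝒟 c0 c1)
    (hG : 𝒟.Good) (hV : SVersal 𝒟 c0 c1)
    (hS : ∀ S, 𝒟.Iso S → thetaS 𝒟 c0 c1 S ≤ 0) : N1s (ofCfg 𝒟) c0 c1 := by
  classical
  intro g hsy hz hu h0 h1 h3 hnil
  have hs := hs1.toSpinC
  have h2 : (2 : L) ≠ 0 := two_ne_zero
  have hzg : ∀ l k, 𝒟.C l = ⊥ → g l k = 0 := hz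
  -- dimensions of the columns
  let c' : J → ℕ := fun l => finrank L (𝒟.C l)
  have hc' : ∀ l, 1 ≤ c' l ↔ 𝒟.C l ≠ ⊥ := by
    intro l
    rw [Nat.one_le_iff_ne_zero, Ne, Submodule.finrank_eq_zero]
  have hd : ∀ l, 2 * c' l ≤ finrank L V := by
    intro l
    have h3 := H887.finrank_perp hG.form (𝒟.C l)
    have h4 := Submodule.finrank_mono (hG.iso (𝒟.arm l) (𝒟.c l))
    change finrank L (𝒟.C l) ≤ finrank L (H533.perp 𝒟.q (𝒟.C l)) at h4
    show 2 * finrank L (𝒟.C l) ≤ _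
    omega
  have hd0 : 2 * c' c0 = finrank L V := by
    have h3 := H887.finrank_perp hG.form (𝒟.C c0)
    rw [hs.lag0] at h3
    show 2 * finrank L (𝒟.C c0) = _
    omega
  have hd1 : 2 * c' c1 = finrank L V := by
    have h3 := H887.finrank_perp hG.form (𝒟.C c1)
    rw [hs.lag1] at h3
    show 2 * finrank L (𝒟.C c1) = _
    omega
  by_cases hV0 : finrank L V = 0
  · ext l k
    refine hzg l k ?_
    have := hd l
    have h5 : c' l = 0 := by omega
    exact Submodule.finrank_eq_zero.mp h5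
  have h10 : 1 ≤ c' c0 := by omega
  have h11 : 1 ≤ c' c1 := by omega
  have hC0 := (hc' c0).1 h10
  have hC1 := (hc' c1).1 h11
  have hsup : Finset.univ.sup c' = c' c0 := by
    refine le_antisymm (Finset.sup_le fun l _ => ?_) (Finset.le_sup (Finset.mem_univ c0))
    have := hd l
    omega
  have hle : ∀ l m, 𝒟.arm l = 𝒟.arm m → c' l ≤ c' m → 𝒟.C l ≤ 𝒟.C m := by
    intro l m hlm hc
    rcases le_total (𝒟.c l) (𝒟.c m) with h | h
    · show 𝒟.F (𝒟.arm l) (𝒟.c l) ≤ 𝒟.F (𝒟.arm m) (𝒟.c m)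
      rw [hlm]
      exact hG.mono _ h
    · have h3 : 𝒟.C m ≤ 𝒟.C l := by
        show 𝒟.F (𝒟.arm m) (𝒟.c m) ≤ 𝒟.F (𝒟.arm l) (𝒟.c l)
        rw [hlm]
        exact hG.mono _ h
      rw [Submodule.eq_of_le_of_finrank_le h3 hc]
  have hlag : ∀ m, 𝒟.arm m ≠ 2 → c' m = c' c0 → H533.perp 𝒟.q (𝒟.C m) = 𝒟.C m := by
    intro m hm2 hm
    rcases (show ∀ s : Fin 3, s ≠ 2 → s = 0 ∨ s = 1 by decide) _ hm2 with h | h
    · have e1 := le_antisymm (hle m c0 (by rw [h, hs.arm0]) hm.le)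
        (hle c0 m (by rw [h, hs.arm0]) hm.ge)
      rw [e1, hs.lag0]
    · have hm' : c' m = c' c1 := by omega
      have e1 := le_antisymm (hle m c1 (by rw [h, hs.arm1]) hm'.le)
        (hle c1 m (by rw [h, hs.arm1]) hm'.ge)
      rw [e1, hs.lag1]
  have hVD : ∀ η : Matrix J J L, ηᵀ = -η → (∀ l, η c0 l = η c1 l) → ∃ d : L →+ L,
      (∀ a b, d (a * b) = d a * b + a * d b) ∧ ∀ l k, d (𝒟.Ω l k) = η l k := by
    intro η hη hηs
    obtain ⟨n, -, hn⟩ := hV (fun _ => 0) (fun s u v => by simp) η hη hηs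
    exact ⟨n.d, n.leib, hn⟩
  let X : NData L {l // 1 ≤ c' l} := restrData 𝒟.arm c' 𝒟.Ω hG.skew
  have hXs : SpinN X ⟨c0, h10⟩ ⟨c1, h11⟩ := by
    refine ⟨hs.arm0, hs.arm1, hsup.symm, ?_, ?_, hs.ne⟩
    · show c' c1 = Finset.univ.sup c'
      omega
    · rintro ⟨l, hl⟩ hl0 hl1
      exact hs.sp l (fun h => hl0 (Subtype.ext h)) (fun h => hl1 (Subtype.ext h))
  have hXV : VersS X ⟨c0, h10⟩ ⟨c1, h11⟩ := restrData_versS hG.skew h10 h11 hVD
  -- counting
  have hcard := card_of_semistableS hs hG hS hC0 hC1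
  have e1 : Fintype.card {l // 1 ≤ c' l} = (Finset.univ.filter fun l => 𝒟.C l ≠ ⊥).card := by
    rw [Fintype.card_subtype]
    congr 1
    ext l
    simp only [Finset.mem_filter, Finset.mem_univ, true_and]
    exact hc' l
  have e2 : ∀ s : Fin 3, (Finset.univ.filter fun l => X.arm l = s).card =
      (Finset.univ.filter fun l => 𝒟.C l ≠ ⊥ ∧ 𝒟.arm l = s).card := by
    intro s
    have h3 : (Finset.univ.filter fun l => 𝒟.C l ≠ ⊥ ∧ 𝒟.arm l = s) =
        (Finset.univ.filter fun l => 1 ≤ c' l ∧ 𝒟.arm l = s) := by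
      ext l
      simp only [Finset.mem_filter, Finset.mem_univ, true_and, hc']
    rw [h3, ← Fintype.card_subtype, ← Fintype.card_subtype]
    exact Fintype.card_congr (Equiv.subtypeSubtypeEquivSubtypeInter (fun l => 1 ≤ c' l)
      (fun l => 𝒟.arm l = s))
  have hdet : IsUnit X.Om'.det := by
    refine det_unit_s h2 hXs hXV ?_ ?_ ?_
    · rw [e1, e2]; exact hcard.1
    · rw [e1, e2]; exact hcard.2.1
    · rw [e1, e2]; exact hcard.2.2
  have hΩ : ∀ l k, 𝒟.Ω l k = - 𝒟.Ω k l := fun l k => by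
    have := congrFun (congrFun hG.skew k) l
    rwa [Matrix.transpose_apply, Matrix.neg_apply] at this
  -- nilpotency
  have hGG : ∀ s, g * Gm 𝒟.arm 𝒟.Ω s * g = 0 := by
    intro s
    ext i j
    rw [Matrix.mul_assoc, Matrix.mul_apply, Matrix.zero_apply, ← hnil s i j]
    refine Finset.sum_congr rfl fun l _ => ?_
    rw [Matrix.mul_apply, Finset.mul_sum]
    exact Finset.sum_congr rfl fun k _ => by rw [mul_assoc]; rfl
  refine restrict_main_s (arm := 𝒟.arm) (c := c') (c0 := c0) (c1 := c1) hG.skew h10 h11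
    ?_ ?_ ?_ ?_ ?_ ?_ ?_ ?_
  · ext l k
    exact hsy k l
  · intro m
    rw [hs1.one, one_mul]
    exact hu m
  · intro l k hlk
    exact h0 l k hlk
  · intro l k hlk hc
    have h4 := h1 l k hlk (hle l k hlk hc)
    rw [Matrix.mul_apply, ← neg_eq_zero, ← h4, ← Finset.sum_neg_distrib]
    refine Finset.sum_congr rfl fun j _ => ?_
    show -(g l j * 𝒟.Ω j k) = g l j * 𝒟.Ω k j
    rw [hΩ j k]
    ring
  · intro l m hlm hl2 hl hm
    rw [hsup] at hl hm
    refine h3 l m hlm ?_ ?_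
    · show pp 𝒟.q (𝒟.C l) = 𝒟.C l
      rw [pp_eq hG.form]
      exact hlag l hl2 hl
    · exact le_antisymm (hle l m hlm (by omega)) (hle m l hlm.symm (by omega))
  · intro l k hl
    have : 𝒟.C l = ⊥ := by
      by_contra h
      have := (hc' l).2 h
      omega
    exact hzg l k this
  · intro b
    refine ⟨2, ?_⟩
    have h5 : g * (∑ s, b s • Gm 𝒟.arm 𝒟.Ω s) * g = 0 := by
      rw [Matrix.mul_sum, Matrix.sum_mul]
      refine Finset.sum_eq_zero fun s _ => ?_
      rw [Matrix.mul_smul, Matrix.smul_mul, hGG, smul_zero]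
    rw [pow_two, Matrix.mul_assoc, ← Matrix.mul_assoc g, h5, Matrix.mul_zero]
  · intro g' hg1 hg2 hg3 hg4 hg5 hg6
    have hinf : Infinite L := IsAlgClosed.instInfinite
    refine hN _ X _ _ hXs hXV hdet g' hg1 hg2 hg3 hg4 hg5 ?_
    have h3 := nilp_ext (F := FractionRing (Polynomial L)) (fun s => Gm X.arm X.Ω s)
      g' hg6 (fun s => (X.lin (FractionRing (Polynomial L)) s)⁻¹)
    rw [← Wi_eq] at h3
    have h4 : Wi X (FractionRing (Polynomial L)) = X.GG (FractionRing (Polynomial L)) := by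
      ext l m
      unfold Wi NData.GG
      ring
    rwa [h4] at h3

end n1

section desc

variable {L : Type u} {V : Type u} {J : Type w} [Field L] [AddCommGroup V] [Module L V]
  {𝒟 : Cfg L V J} {c0 c1 : J}

theorem le_of_bc {L' : Type u} [Field L'] [Algebra L L'] {A B : Submodule L V}
    (h : A.baseChange L' ≤ B.baseChange L') : A ≤ B := by
  intro v hv
  have h1 := h (Submodule.tmul_mem_baseChange_of_mem 1 hv)
  obtain ⟨f, hf⟩ : ∃ f : L' →ₗ[L] L, f 1 ≠ 0 := by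
    by_contra hcon
    push Not at hcon
    exact one_ne_zero (fun_sep (L := L) (L' := L') hcon)
  have h2 := mem_bc_iff.mp h1 f
  rw [ev_tmul] at h2
  exact (B.smul_mem_iff hf).mp h2

variable [Fintype J] [DecidableEq J]

/-- descent of N1 -/
theorem n1s_desc (g : 𝒟.Good) (L' : Type u) [Field L'] [Algebra L L']
    (hN : N1s (ofCfg (bcC 𝒟 L')) c0 c1) : N1s (ofCfg 𝒟) c0 c1 := by
  intro G hsy hz hu h0 h1 h3 hnil
  have hC : ∀ l, (ofCfg (bcC 𝒟 L')).C l = (𝒟.C l).baseChange L' := fun l => rfl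
  have hpp : ∀ l, pp (ofCfg (bcC 𝒟 L')).q ((ofCfg (bcC 𝒟 L')).C l) =
      (pp 𝒟.q (𝒟.C l)).baseChange L' := fun l => by
    show pp (bcC 𝒟 L').q ((bcC 𝒟 L').C l) = _
    rw [pp_eq (good_bcC g).form, pp_eq g.form]
    exact perp_bcC_C (𝒟 := 𝒟) l
  have key := hN (G.map (algebraMap L L')) (fun l k => ?_) (fun l k hl => ?_) (fun m => ?_)
    (fun l k hlk => ?_) (fun l k hlk hle => ?_) (fun l k hlk hlag hle => ?_) (fun s i j => ?_)
  · ext l k
    have := congrFun (congrFun key l) k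
    rw [Matrix.map_apply, Matrix.zero_apply] at this
    exact (map_eq_zero (algebraMap L L')).mp this
  · exact congrArg (algebraMap L L') (hsy l k)
  · have h4 : 𝒟.C l = ⊥ := by
      rw [eq_bot_iff]
      refine le_of_bc (L' := L') ?_
      rw [← hC, hl]
      exact bot_le
    rw [Matrix.map_apply, hz l k h4, map_zero]
  · have h4 := congrArg (algebraMap L L') (hu m)
    rw [map_sum] at h4
    rw [Matrix.map_apply, ← h4]
    refine Finset.sum_congr rfl fun l _ => ?_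
    rw [map_mul]
    rfl
  · rw [Matrix.map_apply, h0 l k hlk, map_zero]
  · have h4 := congrArg (algebraMap L L') (h1 l k hlk (le_of_bc (L' := L') hle))
    rw [map_sum, map_zero] at h4
    rw [← h4]
    refine Finset.sum_congr rfl fun j _ => ?_
    rw [map_mul]
    rfl
  · rw [hpp, hC] at hlag
    have h4 := congrArg (algebraMap L L') (h3 l k hlk
      (le_antisymm (le_of_bc (L' := L') hlag.le) (le_of_bc (L' := L') hlag.ge))
      (le_antisymm (le_of_bc (L' := L') hle.le) (le_of_bc (L' := L') hle.ge)))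
    rw [map_sum, map_zero] at h4
    rw [← h4]
    refine Finset.sum_congr rfl fun i _ => ?_
    rw [map_sum]
    refine Finset.sum_congr rfl fun j _ => ?_
    rw [map_mul, map_mul]
    rfl
  · have h4 := congrArg (algebraMap L L') (hnil s i j)
    rw [map_sum, map_zero] at h4
    rw [← h4]
    refine Finset.sum_congr rfl fun l _ => ?_
    rw [map_sum]
    refine Finset.sum_congr rfl fun k _ => ?_
    rw [map_mul, map_mul, Matrix.map_apply, Matrix.map_apply]
    congr 2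
    show Gm (ofCfg (bcC 𝒟 L')).arm (ofCfg (bcC 𝒟 L')).Ω s l k =
      algebraMap L L' (Gm (ofCfg 𝒟).arm (ofCfg 𝒟).Ω s l k)
    have hO : (ofCfg (bcC 𝒟 L')).Ω l k = algebraMap L L' ((ofCfg 𝒟).Ω l k) := rfl
    have ha : (ofCfg (bcC 𝒟 L')).arm = (ofCfg 𝒟).arm := rfl
    rw [Gm_apply, Gm_apply, hO, ha]
    split_ifs <;> simp

end desc

section n1all

variable {L : Type u} {V : Type u} {J : Type w} [Field L] [AddCommGroup V] [Module L V]
  [FiniteDimensional L V] {𝒟 : Cfg L V J} {c0 c1 : J} [Fintype J] [DecidableEq J]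

/-- **N1 for semistable special configurations.** -/
theorem n1s_ofCfg [CharZero L] (hs : SpinC1 𝒟 c0 c1) (hG : 𝒟.Good) (hV : SVersal 𝒟 c0 c1)
    (hU : USemiS 𝒟 c0 c1) : N1s (ofCfg 𝒟) c0 c1 := by
  have hc : CharZero (AlgebraicClosure L) :=
    charZero_of_injective_algebraMap (algebraMap L (AlgebraicClosure L)).injective
  refine n1s_desc hG (AlgebraicClosure L) (n1s_closed H588.n1s (H338.spin1_bcC hs) (good_bcC hG)
    (H338.sversal_bcC hG hs hV) fun S hS => hU (AlgebraicClosure L) S hS)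

end n1all

end Vale.Agent.P182.H588.SP
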