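import Vale.Agent.P182.H588.SKey

/-!
# F4, F4' and elements of type (i) for special configurations
-/

namespace Vale.Agent.P182.H588.SP

open Module Matrix Vale.Agent.P182.H533 Vale.Agent.P182.H96 Vale.Agent.P182.H96.Cf

section four

variable {L V J : Type*} [Field L] [AddCommGroup V] [Module L V] [Fintype J]
  {a : Cf L V J (Fin 3)} {c0 c1 : J}

/-- the data at an isotropic element with span `R`: an isotropic `S ⊇ R` with
`Ext(N_s, S/R) = 0` -/
structure DatS (a : Cf L V J (Fin 3)) (c0 c1 : J) (R S : Submodule L V) : Prop where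
  le : R ≤ S
  iso : S ≤ pp a.q S
  ext : Esh a c0 c1 (pp a.q R) ⊓ a.perp (a.E S) ≤ Esh a c0 c1 (pp a.q S)

theorem DatS.isoR {R S : Submodule L V} (D : DatS a c0 c1 R S) : R ≤ pp a.q R :=
  D.le.trans (D.iso.trans (pp_anti D.le))

omit [Fintype J] in
/-- orthogonality to a span -/
theorem mem_pp_span (h : a.Good) {φ : J → V} {v : V} :
    v ∈ pp a.q (Submodule.span L (Set.range φ)) ↔ ∀ k, a.q v (φ k) = 0 := by
  constructor
  · intro hv k
    rw [h.form.symm]
    exact hv _ (Submodule.subset_span ⟨k, rfl⟩)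
  · intro hv u hu
    rw [h.form.symm]
    induction hu using Submodule.span_induction with
    | mem r hr =>
      obtain ⟨k, rfl⟩ := hr
      exact hv k
    | zero => rw [map_zero]
    | add u w _ _ hu hw => rw [map_add, hu, hw, add_zero]
    | smul c u _ hu => rw [map_smul, hu, smul_zero]

variable [DecidableEq J]

/-- **F4 for `S`.** -/
theorem F4S_s [FiniteDimensional L V] (hs : Spc a c0 c1) (h : a.Good) (h2 : (2 : L) ≠ 0)
    (hV : SVers a c0 c1) (hN : N1s a c0 c1) {x : J → V}
    (hx : x ∈ Ks a c0 c1) {S : Submodule L V}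
    (D : DatS a c0 c1 (Submodule.span L (Set.range x)) S) :
    a.perp (Esh a c0 c1 (pp a.q S)) ≤ a.K ⊔ a.E S ⊔ a.TT S x := by
  have hxR : ∀ l, x l ∈ Submodule.span L (Set.range x) := fun l =>
    Submodule.subset_span ⟨l, rfl⟩
  have hxS : ∀ l, x l ∈ S := fun l => D.le (hxR l)
  have hxK := Ks_le hx
  have hx' := mem_K.mp hxK
  set W := a.K ⊔ a.E S ⊔ a.TT S x with hW
  have hWE : W ≤ a.E ⊤ := by
    refine sup_le (sup_le (po_le _) (E_le_top S)) ?_
    rintro t ⟨b, h1, h3⟩
    refine mem_E_top.mpr fun l => ?_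
    rw [h3]
    exact h1.pres l _ (hx'.1 l)
  have hKW : a.K ≤ W := le_sup_left.trans le_sup_left
  have hWW : a.perp (a.perp W) = W := by
    have e1 : a.perp (a.perp W) = W ⊔ a.K := po_po h.M_skew hWE
    rw [e1]
    exact sup_eq_left.mpr hKW
  have hle : a.perp W ≤ Esh a c0 c1 (pp a.q S) := by
    intro z hz
    obtain ⟨hz1, hz2⟩ := mem_perp.mp hz
    have hzS : ∀ t ∈ a.E S, a.M t z = 0 := fun t ht =>
      hz2 t ((le_sup_right.trans le_sup_left : a.E S ≤ W) ht)
    have hT : ∀ B : Fin 3 → End L V, (∀ s, IsSk a.q (B s)) → (∀ s, ∀ r ∈ S, B s r ∈ S) →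
        a.Tt z x B = 0 := by
      intro B hB hBR
      obtain ⟨c, hc1, hc2⟩ := hV (fun s => - B s) (fun s u v => by
        rw [LinearMap.neg_apply, LinearMap.neg_apply, map_neg, map_neg, LinearMap.neg_apply,
          hB s u v]) (fun _ _ => 0) (fun _ _ => by simp) (fun _ => rfl)
      obtain ⟨cs, h3, h4, h5⟩ := h.exists_cs h2 c D.iso
      have hkey := h.key c hxK hz1 hxS hzS cs h3 (fun l => h4 _ _) h5
      simp only [hc2, zero_mul, Finset.sum_const_zero, zero_add] at hkey
      have hb : a.Eps S ((fun s => dif c (cs s) (h3 s)) - B) := by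
        refine ⟨fun s u v => ?_, fun s i v hv => ?_, fun s s' r hr => ?_⟩
        · have e1 := dif_sk c (cs s) (h3 s) u v
          simp only [Pi.sub_apply, LinearMap.sub_apply, map_sub, hB s u v, e1]
          ring
        · have e1 := (a.F s i).sub_mem (h4 s i v hv) (hc1 s i v hv)
          simp only [LinearMap.neg_apply, sub_neg_eq_add] at e1
          simp only [Pi.sub_apply, LinearMap.sub_apply, dif_apply]
          convert e1 using 1
          abel
        · have e1 := S.sub_mem (S.sub_mem (h5 s r hr) (h5 s' r hr))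
            (S.sub_mem (hBR s r hr) (hBR s' r hr))
          simp only [Pi.sub_apply, LinearMap.sub_apply, dif_apply]
          convert e1 using 1
          abel
      have hb0 : a.Tt z x ((fun s => dif c (cs s) (h3 s)) - B) = 0 := by
        have e1 : ∑ l, a.q (z l) (((fun s => dif c (cs s) (h3 s)) - B) (a.arm l)
            (om a.Ω x l)) = 0 := by
          refine Finset.sum_eq_zero fun l _ => ?_
          have e2 := hb.sk (a.arm l) (z l) (om a.Ω x l)
          rw [hx'.2 l _ (hb.pres l _ (hz1 l))] at e2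
          exact neg_eq_zero.mp e2.symm
        rw [Tt, Finset.sum_add_distrib, e1, add_zero]
        have e3 := hz2 (fun l => ((fun s => dif c (cs s) (h3 s)) - B) (a.arm l) (x l))
          ((le_sup_right : a.TT S x ≤ W) ⟨_, hb, fun l => rfl⟩)
        rw [h.M_skew, h.M_apply', neg_neg] at e3
        exact e3
      rw [Tt_sub, hkey, zero_sub, neg_eq_zero] at hb0
      exact hb0
    have hZ := lemmaZ_s hs h h2 hV hN hx hxS D.iso hz1 hzS (tau_eq_zero_of_Tt h hxS D.iso
      fun B hB hBR => hT B hB fun s r hr => hBR s r (D.iso hr))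
    exact D.ext ⟨hZ, mem_perp.mpr ⟨hz1, hzS⟩⟩
  exact (po_anti hle).trans hWW.le

/-- **F4.** -/
theorem F4_s [FiniteDimensional L V] (hs : Spc a c0 c1) (h : a.Good) (h2 : (2 : L) ≠ 0)
    (hV : SVers a c0 c1) (hN : N1s a c0 c1) {x : J → V}
    (hx : x ∈ Ks a c0 c1) {R : Submodule L V} (hRx : R = Submodule.span L (Set.range x))
    (hR : R ≤ pp a.q R) : a.perp (Esh a c0 c1 (pp a.q R)) ≤ a.K ⊔ a.E R ⊔ a.TT R x := by
  subst hRx
  exact F4S_s hs h h2 hV hN hx ⟨le_rfl, hR, inf_le_left⟩

omit [DecidableEq J] in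
/-- a family whose Gram matrix with `x` is skew and orthogonal to the special skew matrices -/
theorem skew_special_zero [DecidableEq J] (hs : Spc a c0 c1) (h : a.Good) (h2 : (2 : L) ≠ 0) {x z : J → V}
    (hx : UM a c0 c1 x = 0) (hz : ∀ l, z l ∈ a.C l)
    (hsk : ∀ l k, a.q (z l) (x k) = - a.q (z k) (x l))
    (hsp : ∀ η : J → J → L, (∀ l k, η l k = - η k l) → (∀ l, η c0 l = η c1 l) →
      ∑ l, ∑ k, η l k * a.q (z l) (x k) = 0) :
    z ∈ Esh a c0 c1 (pp a.q (Submodule.span L (Set.range x))) := by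
  have half : ∀ b : L, b = -b → b = 0 := fun b hb => by
    have h3 : (2 : L) * b = 0 := by linear_combination hb
    exact (mul_eq_zero.mp h3).resolve_left h2
  -- sums against elementary matrices
  have hel : ∀ i j, ∑ l, ∑ k, ((Matrix.single i j 1 - Matrix.single j i 1 : Matrix J J L) l k) *
      a.q (z l) (x k) = a.q (z i) (x j) - a.q (z j) (x i) := fun i j =>
    SPIN.sum_single (Matrix.of fun l k => a.q (z l) (x k)) i j
  have hskel : ∀ i j l k, (Matrix.single i j 1 - Matrix.single j i 1 : Matrix J J L) l k =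
      -(Matrix.single i j 1 - Matrix.single j i 1 : Matrix J J L) k l := fun i j l k => by
    have := congrFun (congrFun (SPIN.skew_single (L := L) i j) k) l
    rwa [Matrix.transpose_apply, Matrix.neg_apply] at this
  have hrow : ∀ i j l, l ≠ i → l ≠ j → ∀ k,
      (Matrix.single i j 1 - Matrix.single j i 1 : Matrix J J L) l k = 0 := by
    intro i j l hi hj k
    rw [Matrix.sub_apply, Matrix.single_apply_of_row_ne (Ne.symm hi),
      Matrix.single_apply_of_row_ne (Ne.symm hj), sub_zero]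
  have g1 : ∀ l, l ≠ c0 → l ≠ c1 → ∀ k, k ≠ c0 → k ≠ c1 → a.q (z l) (x k) = 0 := by
    intro l l0 l1 k k0 k1
    have h3 := hsp (Matrix.single l k 1 - Matrix.single k l 1 : Matrix J J L) (hskel l k)
      (fun j => by rw [hrow l k c0 l0.symm k0.symm, hrow l k c1 l1.symm k1.symm])
    rw [hel, sub_eq_zero, hsk k l] at h3
    exact half _ h3
  have g2 : ∀ l, l ≠ c0 → l ≠ c1 → a.q (z l) (x c0) + a.q (z l) (x c1) = 0 := by
    intro l l0 l1
    have h3 := hsp (fun i j => (Matrix.single l c0 1 - Matrix.single c0 l 1 : Matrix J J L) i j +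
      (Matrix.single l c1 1 - Matrix.single c1 l 1 : Matrix J J L) i j) (fun i j => by
        show _ + _ = -(_ + _)
        rw [hskel l c0 i j, hskel l c1 i j]
        ring) (fun j => by
      show _ + _ = _ + _
      rw [hrow l c0 c1 l1.symm hs.ne.symm, hrow l c1 c0 l0.symm hs.ne, add_zero, zero_add]
      rw [Matrix.sub_apply, Matrix.sub_apply, Matrix.single_apply_of_row_ne l0,
        Matrix.single_apply_of_row_ne l1, zero_sub, zero_sub]
      congr 1
      by_cases hj : l = j
      · subst hj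
        rw [Matrix.single_apply_same, Matrix.single_apply_same]
      · rw [Matrix.single_apply_of_ne _ _ _ _ _ (fun hh => hj hh.2),
          Matrix.single_apply_of_ne _ _ _ _ _ (fun hh => hj hh.2)])
    simp only [add_mul, Finset.sum_add_distrib] at h3
    rw [hel, hel, hsk c0 l, hsk c1 l] at h3
    apply half
    linear_combination h3
  -- `x c0 - x c1` is in the span of the others
  have hx01 : x c0 - x c1 = ∑ l ∈ (Finset.univ.erase c0).erase c1, uu a c0 c1 l • x l := by
    have h3 := hx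
    rw [UM_apply, ← Finset.add_sum_erase _ _ (Finset.mem_univ c0),
      ← Finset.add_sum_erase _ _ (Finset.mem_erase.mpr ⟨hs.ne.symm, Finset.mem_univ c1⟩),
      uu_c0 hs h, uu_c1 hs, neg_one_smul, one_smul] at h3
    rw [← sub_eq_zero, ← neg_eq_zero, ← h3]
    abel
  have g3 : ∀ w : V, (∀ k, k ≠ c0 → k ≠ c1 → a.q w (x k) = 0) →
      a.q w (x c0) + a.q w (x c1) = 0 → ∀ k, a.q w (x k) = 0 := by
    intro w hw hw' k
    have h3 : a.q w (x c0) - a.q w (x c1) = 0 := by
      rw [← map_sub, hx01, map_sum]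
      refine Finset.sum_eq_zero fun l hl => ?_
      rw [map_smul, hw l (Finset.ne_of_mem_erase (Finset.mem_of_mem_erase hl))
        (Finset.ne_of_mem_erase hl), smul_zero]
    by_cases k0 : k = c0
    · subst k0
      apply half
      linear_combination h3 + hw'
    · by_cases k1 : k = c1
      · subst k1
        apply half
        linear_combination hw' - h3
      · exact hw k k0 k1
  refine ⟨hz, fun l l0 l1 => (mem_pp_span h).mpr (g3 _ (g1 l l0 l1) (g2 l l0 l1)),
    (mem_pp_span h).mpr (g3 _ (fun k k0 k1 => ?_) ?_)⟩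
  · rw [map_add, LinearMap.add_apply, hsk c0 k, hsk c1 k]
    linear_combination -(g2 k k0 k1)
  · rw [map_add, LinearMap.add_apply, LinearMap.add_apply]
    have e0 := half _ (hsk c0 c0)
    have e1 := half _ (hsk c1 c1)
    rw [e0, e1, hsk c1 c0]
    ring

/-- **F4'.** Elements of `perp (Esh (R^⊥))`: up to `κ` the Gram matrix with `x` is skew. -/
theorem F4'_s [FiniteDimensional L V] (hs : Spc a c0 c1) (h : a.Good) (h2 : (2 : L) ≠ 0)
    (hV : SVers a c0 c1) (hN : N1s a c0 c1) {x : J → V}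
    (hx : x ∈ Ks a c0 c1) {R : Submodule L V} (hRx : R = Submodule.span L (Set.range x))
    (hR : R ≤ pp a.q R) {z : J → V} (hz : z ∈ a.perp (Esh a c0 c1 (pp a.q R))) :
    ∃ v, v ∈ a.C c0 ∧ v ∈ a.C c1 ∧ ∀ l k, a.q ((z - kap (L := L) c0 c1 v) l) (x k) =
      - a.q ((z - kap (L := L) c0 c1 v) k) (x l) := by
  have hxR : ∀ l, x l ∈ R := fun l => by rw [hRx]; exact Submodule.subset_span ⟨l, rfl⟩
  have hxx : ∀ l k, a.q (x l) (x k) = 0 := fun l k => hR (hxR k) (x l) (hxR l)
  obtain ⟨g, hg, t, ⟨b, hb, ht⟩, rfl⟩ := Submodule.mem_sup.mp (F4_s hs h h2 hV hN hx hRx hR hz)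
  obtain ⟨k, hk, e, he, rfl⟩ := Submodule.mem_sup.mp hg
  obtain ⟨s, hss, v, hv0, hv1, rfl⟩ := K_decomp hs h h2 hk
  refine ⟨v, hv0, hv1, fun l k => ?_⟩
  have e0 : ∀ l k, a.q (s l) (x k) = 0 := by
    intro l k
    have h3 := (mem_E.mp (N1K_s hs h h2 hV hN hx hss hxx) l).2
    rw [mem_pp_span h] at h3
    exact h3 k
  have e1 : ∀ l k, a.q (e l) (x k) = 0 := fun l k => by
    rw [h.form.symm]
    exact hR (mem_E.mp he l).2 _ (hxR k)
  have e2 : s + kap (L := L) c0 c1 v + e + t - kap (L := L) c0 c1 v = s + e + t := by abel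
  rw [e2]
  simp only [Pi.add_apply, map_add, LinearMap.add_apply, e0, e1, zero_add]
  rw [ht, ht, hb.sk, neg_inj, h.form.symm (b (a.arm k) (x k))]
  have h3 := hR (hb.comp (a.arm l) (a.arm k) (x k) (hxR k)) (x l) (hxR l)
  rw [map_sub, sub_eq_zero] at h3
  exact h3

/-- elements of `perp (Esh (R^⊥))` orthogonal to the special variations -/
theorem F4Z_s [FiniteDimensional L V] (hs : Spc a c0 c1) (h : a.Good) (h2 : (2 : L) ≠ 0)
    (hV : SVers a c0 c1) (hN : N1s a c0 c1) {x : J → V}
    (hx : x ∈ Ks a c0 c1) {R : Submodule L V} (hRx : R = Submodule.span L (Set.range x))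
    (hR : R ≤ pp a.q R) {z : J → V} (hz : z ∈ a.perp (Esh a c0 c1 (pp a.q R)))
    (hsp : ∀ η : J → J → L, (∀ l k, η l k = - η k l) → (∀ l, η c0 l = η c1 l) →
      ∑ l, ∑ k, η l k * a.q (z l) (x k) = 0) : z ∈ Esh a c0 c1 (pp a.q R) := by
  obtain ⟨v, hv0, hv1, hsk⟩ := F4'_s hs h h2 hV hN hx hRx hR hz
  have hκ := kap_mem_Esh hs hv0 hv1 (pp a.q R)
  have h3 : z - kap (L := L) c0 c1 v ∈ Esh a c0 c1 (pp a.q R) := by
    rw [hRx]
    refine skew_special_zero hs h h2 (mem_Ks.mp hx).2
      (fun l => sub_mem ((mem_perp.mp hz).1 l) (hκ.1 l)) hsk fun η hη hηs => ?_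
    have h4 := sum_special_zero hs.ne h hη hηs (S := ⊤) (x := x) (kap_mem_Esh hs hv0 hv1 _)
      (fun l => trivial)
    have h5 : ∑ l, ∑ k, η l k * a.q ((z - kap (L := L) c0 c1 v) l) (x k) =
        ∑ l, ∑ k, η l k * a.q (z l) (x k) -
          ∑ l, ∑ k, η l k * a.q (kap (L := L) c0 c1 v l) (x k) := by
      rw [← Finset.sum_sub_distrib]
      refine Finset.sum_congr rfl fun l _ => ?_
      rw [← Finset.sum_sub_distrib]
      refine Finset.sum_congr rfl fun k _ => ?_
      rw [Pi.sub_apply, map_sub, LinearMap.sub_apply]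
      ring
    rw [h5, h4, sub_zero]
    exact hsp η hη hηs
  have := add_mem h3 hκ
  rwa [sub_add_cancel] at this

/-- **Type (i).** -/
theorem typeI_s [FiniteDimensional L V] (hs : Spc a c0 c1) (h : a.Good) (h2 : (2 : L) ≠ 0)
    (hV : SVers a c0 c1) (hN : N1s a c0 c1) {x y : J → V}
    (hx : x ∈ Ks a c0 c1) (hy : y ∈ Ks a c0 c1) {R : Submodule L V}
    (hRx : R = Submodule.span L (Set.range x)) (hR : R ≤ pp a.q R) {b : Fin 3 → End L V}
    (hb : a.Eps R b) (hyb : ∀ l, y l - b (a.arm l) (x l) ∈ R) (l k : J) :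
    a.q (y l) (y k) = 0 := by
  have hxR : ∀ l, x l ∈ R := fun l => by rw [hRx]; exact Submodule.subset_span ⟨l, rfl⟩
  have hxx : ∀ l k, a.q (x l) (x k) = 0 := fun l k => hR (hxR k) (x l) (hxR l)
  have hyR : ∀ l, ∀ r ∈ R, a.q (y l) r = 0 := by
    intro l r hr
    have h3 := (mem_E.mp (N1K_s hs h h2 hV hN hx hy hxx) l).2
    rw [← hRx] at h3
    rw [h.form.symm]
    exact h3 r hr
  -- independence of the arm
  have hind : ∀ l s s', ∀ r ∈ R, a.q (y l) (b s r) = a.q (y l) (b s' r) := by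
    intro l s s' r hr
    have := hyR l _ (hb.comp s s' r hr)
    rwa [map_sub, sub_eq_zero] at this
  have hy' := mem_K.mp (Ks_le hy)
  let z : J → V := fun l => - b (a.arm l) (y l)
  have hz : ∀ l, z l ∈ a.C l := fun l => (a.C l).neg_mem (hb.pres l _ (hy'.1 l))
  have hzr : ∀ l s, ∀ r ∈ R, a.q (z l) r = a.q (y l) (b s r) := by
    intro l s r hr
    show a.q (- b (a.arm l) (y l)) r = _
    rw [map_neg, LinearMap.neg_apply, hb.sk, neg_neg]
    exact hind l _ _ r hr
  have hzR : ∀ t ∈ a.E R, a.M t z = 0 := by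
    intro t ht
    have ht' := mem_E.mp ht
    rw [h.M_skew, M_apply, neg_eq_zero]
    have e1 : ∀ l, a.q (z l) (om a.Ω t l) =
        ∑ k, a.Ω l k * a.q (y l) (b (a.arm k) (t k)) := by
      intro l
      rw [om, map_sum]
      exact Finset.sum_congr rfl fun k _ => by
        rw [map_smul, smul_eq_mul, hzr l (a.arm k) _ (ht' k).2]
    simp only [e1]
    have e2 : a.M (fun k => b (a.arm k) (t k)) y = 0 :=
      (mem_K'.mp (Ks_le hy)).2 _ fun k => hb.pres k _ (ht' k).1
    rw [h.M_skew, M_eq, neg_eq_zero] at e2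
    exact e2
  have hox : ∀ l s, ∀ r ∈ R, a.q (x l) (b s r) = 0 := by
    intro l s r hr
    have e1 := hb.sk s (x l) r
    have e2 := hR hr _ (hb.comp s (a.arm l) (x l) (hxR l))
    have e3 := hR hr _ (hyb l)
    rw [map_sub, LinearMap.sub_apply] at e2 e3
    rw [hyR l r hr] at e3
    linear_combination e1 - e2 + e3
  have hτ : ∀ s, ∀ r ∈ R, a.tau s z x r = 0 := by
    intro s r hr
    have e1 : ∀ l, a.q (om a.Ω z l) r = a.q (om a.Ω y l) (b s r) := by
      intro l
      rw [om, om, map_sum, map_sum, LinearMap.sum_apply, LinearMap.sum_apply]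
      exact Finset.sum_congr rfl fun k _ => by
        rw [map_smul, map_smul, LinearMap.smul_apply, LinearMap.smul_apply, hzr k s r hr]
    have e2 : a.tau s z x r = a.tau s y x (b s r) := by
      rw [tau, tau]
      exact Finset.sum_congr rfl fun l _ => by rw [e1, hzr l s r hr]
    rw [e2, F2_s h hV (Ks_le hy) (Ks_le hx), tau]
    refine Finset.sum_eq_zero fun l _ => ?_
    have e3 : a.q (om a.Ω x l) (b s r) = 0 := by
      rw [om, map_sum, LinearMap.sum_apply]
      exact Finset.sum_eq_zero fun k _ => by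
        rw [map_smul, LinearMap.smul_apply, hox k s r hr, smul_zero]
    rw [hox l s r hr, e3, zero_smul, zero_smul, add_zero]
  have hZ := lemmaZ_s hs h h2 hV hN hx hxR hR hz hzR hτ
  -- `y` is orthogonal to itself, in the reduced sense
  have hp : ∀ w w' : V, (∀ r ∈ R, a.q w r = a.q w' (b 0 r)) →
      (∀ s r, r ∈ R → a.q w' (b s r) = a.q w' (b 0 r)) → (∀ r ∈ R, a.q w' r = 0) →
      w ∈ pp a.q (Submodule.span L (Set.range x)) →
      w' ∈ pp a.q (Submodule.span L (Set.range y)) := by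
    intro w w' h3 h4 h5 h6
    rw [mem_pp_span h] at h6 ⊢
    intro k
    have h7 := h6 k
    rw [h3 _ (hxR k), ← h4 (a.arm k) _ (hxR k)] at h7
    have h8 := h5 _ (hyb k)
    rwa [map_sub, h7, sub_zero] at h8
  have hY : y ∈ Esh a c0 c1 (pp a.q (Submodule.span L (Set.range y))) := by
    refine ⟨hy'.1, fun l l0 l1 => hp (z l) (y l) (fun r hr => hzr l 0 r hr)
      (fun s r hr => hind l s 0 r hr) (hyR l) (hZ.2.1 l l0 l1), ?_⟩
    refine hp (z c0 + z c1) (y c0 + y c1) (fun r hr => ?_) (fun s r hr => ?_) (fun r hr => ?_)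
      hZ.2.2
    · rw [map_add, LinearMap.add_apply, hzr c0 0 r hr, hzr c1 0 r hr, map_add,
        LinearMap.add_apply]
    · rw [map_add, LinearMap.add_apply, LinearMap.add_apply, hind c0 s 0 r hr, hind c1 s 0 r hr]
    · rw [map_add, LinearMap.add_apply, hyR c0 r hr, hyR c1 r hr, add_zero]
  have hY' := Esh_to_E hs h h2 hY (by rw [(mem_Ks.mp hy).2]; exact zero_mem _)
  have h3 := (mem_E.mp hY' l).2
  rw [mem_pp_span h] at h3
  exact h3 k

end four

end Vale.Agent.P182.H588.SP
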