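import Vale.Agent.P182.H96.Rel

/-!
# Special configurations in the language of `H96`

The ordinary form `M` on `E = ∏ C_l` (all columns) is kept. Its radical is `K = Ks ⊕ κ`, where
`κ` are the families `(v, -v)` at `c0, c1` with `v ∈ C c0 ⊓ C c1`. The subspace `E (R^⊥)` is
replaced by `Esh (R^⊥)`, the families with `z l ∈ R^⊥` for `l ≠ c0, c1` and `z c0 + z c1 ∈ R^⊥`.
-/

namespace Vale.Agent.P182.H588.SP

open Module Matrix Vale.Agent.P182.H533 Vale.Agent.P182.H96 Vale.Agent.P182.H96.Cf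

variable {L V J : Type*} [Field L] [AddCommGroup V] [Module L V]

/-- special configurations (normal form, `Ω c0 c1 = 1`) -/
structure Spc (a : Cf L V J (Fin 3)) (c0 c1 : J) : Prop where
  arm0 : a.arm c0 = 0
  arm1 : a.arm c1 = 1
  lag0 : pp a.q (a.C c0) = a.C c0
  lag1 : pp a.q (a.C c1) = a.C c1
  sp : ∀ l, l ≠ c0 → l ≠ c1 → a.Ω c0 l = a.Ω c1 l
  one : a.Ω c0 c1 = 1

/-- the coefficients `u` -/
def uu (a : Cf L V J (Fin 3)) (c0 c1 l : J) : L := if a.arm l = 0 then a.Ω c1 l else a.Ω c0 l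

/-- special versality -/
def SVers (a : Cf L V J (Fin 3)) (c0 c1 : J) : Prop :=
  ∀ Y : Fin 3 → End L V, (∀ s, IsSk a.q (Y s)) → ∀ η : J → J → L, (∀ l k, η l k = - η k l) →
    (∀ l, η c0 l = η c1 l) →
    ∃ c : Conn a.q, (∀ s i, ∀ v ∈ a.F s i, c.δ v - Y s v ∈ a.F s i) ∧
      ∀ l k, c.d (a.Ω l k) = η l k

section fin

variable [Fintype J]

/-- `∑ u_l t_l` -/
def UM (a : Cf L V J (Fin 3)) (c0 c1 : J) : (J → V) →ₗ[L] V where
  toFun t := ∑ l, uu a c0 c1 l • t l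
  map_add' t t' := by
    rw [← Finset.sum_add_distrib]
    exact Finset.sum_congr rfl fun l _ => by rw [Pi.add_apply, smul_add]
  map_smul' b t := by
    rw [RingHom.id_apply, Finset.smul_sum]
    exact Finset.sum_congr rfl fun l _ => by rw [Pi.smul_apply, smul_comm]

theorem UM_apply (a : Cf L V J (Fin 3)) (c0 c1 : J) (t : J → V) :
    UM a c0 c1 t = ∑ l, uu a c0 c1 l • t l := rfl

/-- the special kernel -/
def Ks (a : Cf L V J (Fin 3)) (c0 c1 : J) : Submodule L (J → V) :=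
  a.K ⊓ LinearMap.ker (UM a c0 c1)

/-- square-zero symmetric very stability for special configurations -/
def N1s [DecidableEq J] (a : Cf L V J (Fin 3)) (c0 c1 : J) : Prop :=
  ∀ g : Matrix J J L, (∀ l k, g l k = g k l) →
    (∀ l k, a.C l = ⊥ → g l k = 0) →
    (∀ m, ∑ l, a.Ω c0 l * g l m = g c0 m) →
    (∀ l k, a.arm l = a.arm k → g l k = 0) →
    (∀ l k, a.arm l = a.arm k → a.C l ≤ a.C k → ∑ j, g l j * a.Ω k j = 0) →
    (∀ l k, a.arm l = a.arm k → pp a.q (a.C l) = a.C l → a.C l = a.C k →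
      ∑ i, ∑ j, a.Ω l i * a.Ω k j * g i j = 0) →
    (∀ s i j, ∑ l, ∑ k, g i l * Gm a.arm a.Ω s l k * g k j = 0) → g = 0

end fin

/-- the families with reduced values in `D` -/
def Esh (a : Cf L V J (Fin 3)) (c0 c1 : J) (D : Submodule L V) : Submodule L (J → V) where
  carrier := {z | (∀ l, z l ∈ a.C l) ∧ (∀ l, l ≠ c0 → l ≠ c1 → z l ∈ D) ∧ z c0 + z c1 ∈ D}
  add_mem' := by
    rintro z w ⟨h1, h2, h3⟩ ⟨h4, h5, h6⟩
    refine ⟨fun l => add_mem (h1 l) (h4 l), fun l h h' => add_mem (h2 l h h') (h5 l h h'), ?_⟩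
    have := D.add_mem h3 h6
    rwa [add_add_add_comm] at this
  zero_mem' := ⟨fun l => zero_mem _, fun l _ _ => zero_mem _, by
    rw [Pi.zero_apply, Pi.zero_apply, add_zero]; exact zero_mem _⟩
  smul_mem' := by
    rintro b z ⟨h1, h2, h3⟩
    refine ⟨fun l => Submodule.smul_mem _ b (h1 l), fun l h h' => Submodule.smul_mem _ b (h2 l h h'),
      ?_⟩
    rw [Pi.smul_apply, Pi.smul_apply, ← smul_add]
    exact Submodule.smul_mem _ b h3

open Classical in
/-- the family `(v, -v)` at `c0`, `c1` -/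
noncomputable def kap (c0 c1 : J) : V →ₗ[L] (J → V) where
  toFun v := Pi.single c0 v - Pi.single c1 v
  map_add' v w := by rw [Pi.single_add, Pi.single_add]; abel
  map_smul' b v := by rw [Pi.single_smul, Pi.single_smul, RingHom.id_apply, smul_sub]

section basic

variable {a : Cf L V J (Fin 3)} {c0 c1 : J}

theorem Spc.ne (hs : Spc a c0 c1) : c0 ≠ c1 := by
  rintro rfl
  have h1 := hs.arm0
  rw [hs.arm1] at h1
  exact absurd h1 (by decide)

theorem mem_Esh {D : Submodule L V} {z : J → V} : z ∈ Esh a c0 c1 D ↔ (∀ l, z l ∈ a.C l) ∧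
    (∀ l, l ≠ c0 → l ≠ c1 → z l ∈ D) ∧ z c0 + z c1 ∈ D := Iff.rfl

theorem Esh_mono {D D' : Submodule L V} (h : D ≤ D') : Esh a c0 c1 D ≤ Esh a c0 c1 D' :=
  fun _ hz => ⟨hz.1, fun l h1 h2 => h (hz.2.1 l h1 h2), h hz.2.2⟩

theorem Esh_le (D : Submodule L V) : Esh a c0 c1 D ≤ a.E ⊤ := fun _ hz => mem_E_top.mpr hz.1

theorem E_le_Esh (D : Submodule L V) : a.E D ≤ Esh a c0 c1 D := fun _ hz =>
  ⟨fun l => (mem_E.mp hz l).1, fun l _ _ => (mem_E.mp hz l).2,
    add_mem (mem_E.mp hz c0).2 (mem_E.mp hz c1).2⟩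

theorem kap_c0 (h : c0 ≠ c1) (v : V) : kap (L := L) c0 c1 v c0 = v := by
  classical
  show (Pi.single c0 v - Pi.single c1 v : J → V) c0 = v
  rw [Pi.sub_apply, Pi.single_eq_same, Pi.single_eq_of_ne h, sub_zero]

theorem kap_c1 (h : c0 ≠ c1) (v : V) : kap (L := L) c0 c1 v c1 = -v := by
  classical
  show (Pi.single c0 v - Pi.single c1 v : J → V) c1 = -v
  rw [Pi.sub_apply, Pi.single_eq_same, Pi.single_eq_of_ne h.symm, zero_sub]

theorem kap_ne {l : J} (h0 : l ≠ c0) (h1 : l ≠ c1) (v : V) : kap (L := L) c0 c1 v l = 0 := by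
  classical
  show (Pi.single c0 v - Pi.single c1 v : J → V) l = 0
  rw [Pi.sub_apply, Pi.single_eq_of_ne h0, Pi.single_eq_of_ne h1, sub_zero]

theorem kap_mem_Esh (hs : Spc a c0 c1) {v : V} (h0 : v ∈ a.C c0) (h1 : v ∈ a.C c1)
    (D : Submodule L V) : kap (L := L) c0 c1 v ∈ Esh a c0 c1 D := by
  refine ⟨fun l => ?_, fun l h h' => ?_, ?_⟩
  · by_cases hl0 : l = c0
    · subst hl0; rw [kap_c0 hs.ne]; exact h0
    · by_cases hl1 : l = c1
      · subst hl1; rw [kap_c1 hs.ne]; exact neg_mem h1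
      · rw [kap_ne hl0 hl1]; exact zero_mem _
  · rw [kap_ne h h']; exact zero_mem _
  · rw [kap_c0 hs.ne, kap_c1 hs.ne, add_neg_cancel]; exact zero_mem _

variable [Fintype J]

theorem uu_c0 (hs : Spc a c0 c1) (h : a.Good) : uu a c0 c1 c0 = -1 := by
  rw [uu, if_pos hs.arm0, h.skew, hs.one]

theorem uu_c1 (hs : Spc a c0 c1) : uu a c0 c1 c1 = 1 := by
  rw [uu, if_neg (by rw [hs.arm1]; decide), hs.one]

theorem uu_ne0 (hs : Spc a c0 c1) {l : J} (h0 : l ≠ c0) : a.Ω c0 l = uu a c0 c1 l := by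
  rw [uu]
  split_ifs with h
  · refine hs.sp l h0 ?_
    rintro rfl
    rw [hs.arm1] at h
    exact absurd h (by decide)
  · rfl

theorem uu_ne1 (hs : Spc a c0 c1) {l : J} (h1 : l ≠ c1) : a.Ω c1 l = uu a c0 c1 l := by
  rw [uu]
  split_ifs with h
  · rfl
  · refine (hs.sp l ?_ h1).symm
    rintro rfl
    exact h hs.arm0

theorem diag (h : a.Good) (h2 : (2 : L) ≠ 0) (l : J) : a.Ω l l = 0 := by
  have h1 := h.skew l l
  have h3 : 2 * a.Ω l l = 0 := by linear_combination h1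
  exact (mul_eq_zero.mp h3).resolve_left h2

theorem om_c0 (hs : Spc a c0 c1) (h : a.Good) (h2 : (2 : L) ≠ 0) (t : J → V) :
    om a.Ω t c0 = UM a c0 c1 t + t c0 := by
  classical
  rw [UM_apply, om, ← Finset.add_sum_erase _ _ (Finset.mem_univ c0),
    ← Finset.add_sum_erase (a := c0) Finset.univ (fun l => uu a c0 c1 l • t l)
      (Finset.mem_univ c0), diag h h2, uu_c0 hs h, zero_smul, zero_add, neg_one_smul]
  have h3 : ∑ x ∈ Finset.univ.erase c0, a.Ω c0 x • t x =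
      ∑ x ∈ Finset.univ.erase c0, uu a c0 c1 x • t x :=
    Finset.sum_congr rfl fun l hl => by rw [uu_ne0 hs (Finset.ne_of_mem_erase hl)]
  rw [h3]
  abel

theorem om_c1 (hs : Spc a c0 c1) (h : a.Good) (h2 : (2 : L) ≠ 0) (t : J → V) :
    om a.Ω t c1 = UM a c0 c1 t - t c1 := by
  classical
  rw [UM_apply, om, ← Finset.add_sum_erase _ _ (Finset.mem_univ c1),
    ← Finset.add_sum_erase (a := c1) Finset.univ (fun l => uu a c0 c1 l • t l)
      (Finset.mem_univ c1), diag h h2, uu_c1 hs, zero_smul, zero_add, one_smul]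
  have h3 : ∑ x ∈ Finset.univ.erase c1, a.Ω c1 x • t x =
      ∑ x ∈ Finset.univ.erase c1, uu a c0 c1 x • t x :=
    Finset.sum_congr rfl fun l hl => by rw [uu_ne1 hs (Finset.ne_of_mem_erase hl)]
  rw [h3]
  abel

theorem mem_Ks {t : J → V} : t ∈ Ks a c0 c1 ↔ t ∈ a.K ∧ UM a c0 c1 t = 0 := Iff.rfl

theorem Ks_le : Ks a c0 c1 ≤ a.K := inf_le_left

theorem Ks_om0 (hs : Spc a c0 c1) (h : a.Good) (h2 : (2 : L) ≠ 0) {t : J → V}
    (ht : t ∈ Ks a c0 c1) : om a.Ω t c0 = t c0 := by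
  rw [om_c0 hs h h2, (mem_Ks.mp ht).2, zero_add]

theorem Ks_om1 (hs : Spc a c0 c1) (h : a.Good) (h2 : (2 : L) ≠ 0) {t : J → V}
    (ht : t ∈ Ks a c0 c1) : om a.Ω t c1 = - t c1 := by
  rw [om_c1 hs h h2, (mem_Ks.mp ht).2, zero_sub]

theorem om_kap (hs : Spc a c0 c1) (h : a.Good) {l : J} (h0 : l ≠ c0) (h1 : l ≠ c1) (v : V) :
    om a.Ω (kap (L := L) c0 c1 v) l = 0 := by
  classical
  rw [om, Finset.sum_eq_add c0 c1 hs.ne (fun k _ hk => by rw [kap_ne hk.1 hk.2, smul_zero])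
    (fun h => absurd (Finset.mem_univ _) h) (fun h => absurd (Finset.mem_univ _) h),
    kap_c0 hs.ne, kap_c1 hs.ne, h.skew l c0, h.skew l c1, hs.sp l h0 h1, smul_neg,
    add_neg_cancel]

theorem UM_kap (hs : Spc a c0 c1) (h : a.Good) (v : V) :
    UM a c0 c1 (kap (L := L) c0 c1 v) = -(2 : L) • v := by
  classical
  rw [UM_apply, Finset.sum_eq_add c0 c1 hs.ne
    (fun k _ hk => by rw [kap_ne hk.1 hk.2, smul_zero])
    (fun h => absurd (Finset.mem_univ _) h) (fun h => absurd (Finset.mem_univ _) h),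
    kap_c0 hs.ne, kap_c1 hs.ne, uu_c0 hs h, uu_c1 hs]
  module

theorem kap_mem_K [DecidableEq J] (hs : Spc a c0 c1) (h : a.Good) (h2 : (2 : L) ≠ 0) {v : V}
    (h0 : v ∈ a.C c0) (h1 : v ∈ a.C c1) : kap (L := L) c0 c1 v ∈ a.K := by
  rw [Cf.mem_K]
  refine ⟨(kap_mem_Esh hs h0 h1 ⊤).1, fun l w hw => ?_⟩
  by_cases hl0 : l = c0
  · subst hl0
    rw [om_c0 hs h h2, UM_kap hs h, kap_c0 hs.ne, map_add, map_smul]
    have := h.iso l h0 w hw
    rw [this, smul_zero, add_zero]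
  · by_cases hl1 : l = c1
    · subst hl1
      rw [om_c1 hs h h2, UM_kap hs h, kap_c1 hs.ne, map_sub, map_smul, map_neg]
      have := h.iso l h1 w hw
      rw [this, smul_zero, neg_zero, sub_zero]
    · rw [om_kap hs h hl0 hl1, map_zero]

/-- `K = Ks + κ` -/
theorem K_decomp [DecidableEq J] (hs : Spc a c0 c1) (h : a.Good) (h2 : (2 : L) ≠ 0) {t : J → V}
    (ht : t ∈ a.K) : ∃ s ∈ Ks a c0 c1, ∃ v, v ∈ a.C c0 ∧ v ∈ a.C c1 ∧ t = s + kap (L := L) c0 c1 v := by
  have ht' := Cf.mem_K.mp ht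
  have e0 : UM a c0 c1 t ∈ a.C c0 := by
    have h3 : om a.Ω t c0 ∈ a.C c0 := by
      rw [← hs.lag0]
      exact ht'.2 c0
    rw [om_c0 hs h h2] at h3
    have := sub_mem h3 (ht'.1 c0)
    rwa [add_sub_cancel_right] at this
  have e1 : UM a c0 c1 t ∈ a.C c1 := by
    have h3 : om a.Ω t c1 ∈ a.C c1 := by
      rw [← hs.lag1]
      exact ht'.2 c1
    rw [om_c1 hs h h2] at h3
    have := add_mem h3 (ht'.1 c1)
    rwa [sub_add_cancel] at this
  set v : V := -(2 : L)⁻¹ • UM a c0 c1 t with hv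
  have hv0 : v ∈ a.C c0 := Submodule.smul_mem _ _ e0
  have hv1 : v ∈ a.C c1 := Submodule.smul_mem _ _ e1
  refine ⟨t - kap (L := L) c0 c1 v, ⟨sub_mem ht (kap_mem_K hs h h2 hv0 hv1), ?_⟩, v, hv0, hv1,
    by rw [sub_add_cancel]⟩
  show UM a c0 c1 (t - kap (L := L) c0 c1 v) = 0
  rw [map_sub, UM_kap hs h, hv, smul_smul, neg_mul_neg, mul_inv_cancel₀ h2, one_smul, sub_self]

theorem K_le_Esh [DecidableEq J] (hs : Spc a c0 c1) (h : a.Good) (h2 : (2 : L) ≠ 0)
    {D : Submodule L V} (hK : Ks a c0 c1 ≤ Esh a c0 c1 D) : a.K ≤ Esh a c0 c1 D := by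
  intro t ht
  obtain ⟨s, hs', v, h0, h1, rfl⟩ := K_decomp hs h h2 ht
  exact add_mem (hK hs') (kap_mem_Esh hs h0 h1 D)

/-- the form between `Esh (S^⊥)` and `E S` -/
theorem M_zero_s (hs : Spc a c0 c1) (h : a.Good) (h2 : (2 : L) ≠ 0) {S : Submodule L V}
    {t w : J → V} (ht : t ∈ a.E S) (hw : w ∈ Esh a c0 c1 (pp a.q S)) : a.M w t = 0 := by
  classical
  have ht' := mem_E.mp ht
  have hU : UM a c0 c1 t ∈ S := by
    rw [UM_apply]
    exact S.sum_mem fun l _ => S.smul_mem _ (ht' l).2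
  rw [Cf.M_apply, ← Finset.add_sum_erase _ _ (Finset.mem_univ c0),
    ← Finset.add_sum_erase _ _ (Finset.mem_erase.mpr ⟨hs.ne.symm, Finset.mem_univ c1⟩),
    Finset.sum_eq_zero, add_zero, om_c0 hs h h2, om_c1 hs h h2, map_add, map_sub]
  · have e1 : a.q (w c0) (t c0) = 0 := by
      rw [h.form.symm]
      exact h.iso c0 (hw.1 c0) _ (ht' c0).1
    have e2 : a.q (w c1) (t c1) = 0 := by
      rw [h.form.symm]
      exact h.iso c1 (hw.1 c1) _ (ht' c1).1
    have e3 := hw.2.2 _ hU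
    rw [h.form.symm, map_add, LinearMap.add_apply] at e3
    rw [e1, e2, add_zero, sub_zero]
    exact e3
  · intro l hl
    have h3 := Finset.ne_of_mem_erase hl
    have h4 := Finset.ne_of_mem_erase (Finset.mem_of_mem_erase hl)
    rw [h.form.symm]
    exact hw.2.1 l h4 h3 _ (om_mem (fun k => (ht' k).2) l)

theorem E_le_perp_s (hs : Spc a c0 c1) (h : a.Good) (h2 : (2 : L) ≠ 0) {S : Submodule L V} :
    a.E S ≤ a.perp (Esh a c0 c1 (pp a.q S)) := fun _ ht =>
  mem_perp.mpr ⟨fun l => (mem_E.mp ht l).1, fun _ hw => M_zero_s hs h h2 ht hw⟩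

theorem Esh_le_perp_s (hs : Spc a c0 c1) (h : a.Good) (h2 : (2 : L) ≠ 0) {S : Submodule L V} :
    Esh a c0 c1 (pp a.q S) ≤ a.perp (a.E S) := fun _ hw =>
  mem_perp.mpr ⟨hw.1, fun _ ht => by rw [h.M_skew, M_zero_s hs h h2 ht hw, neg_zero]⟩

/-- a special skew matrix only sees `z c0 + z c1` -/
theorem sum_special [DecidableEq J] (hne : c0 ≠ c1) {η : J → J → L} (hη : ∀ l k, η l k = - η k l)
    (hs : ∀ l, η c0 l = η c1 l) (f : J → J → L) :
    ∑ l, ∑ k, η l k * f l k = (∑ l ∈ (Finset.univ.filter fun l => l ≠ c0 ∧ l ≠ c1),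
      ∑ k ∈ (Finset.univ.filter fun l => l ≠ c0 ∧ l ≠ c1), η l k * f l k) +
      (∑ k ∈ (Finset.univ.filter fun l => l ≠ c0 ∧ l ≠ c1), η c0 k * (f c0 k + f c1 k)) +
      (∑ l ∈ (Finset.univ.filter fun l => l ≠ c0 ∧ l ≠ c1), η l c0 * (f l c0 + f l c1)) +
      η c0 c0 * (f c0 c0 + f c0 c1 + f c1 c0 + f c1 c1) := by
  set P := Finset.univ.filter fun l => l ≠ c0 ∧ l ≠ c1 with hP
  have hsplit : ∀ g : J → L, ∑ l, g l = g c0 + g c1 + ∑ l ∈ P, g l := by
    intro g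
    rw [← Finset.add_sum_erase _ _ (Finset.mem_univ c0),
      ← Finset.add_sum_erase _ _ (Finset.mem_erase.mpr ⟨hne.symm, Finset.mem_univ c1⟩),
      add_assoc]
    congr 2
    refine Finset.sum_congr ?_ fun _ _ => rfl
    ext l
    simp only [hP, Finset.mem_erase, Finset.mem_univ, and_true, Finset.mem_filter, true_and]
    tauto
  have e1 : ∀ l, ∑ k, η l k * f l k = η l c0 * f l c0 + η l c1 * f l c1 +
      ∑ k ∈ P, η l k * f l k := fun l => hsplit _
  have e2 : ∀ l, η l c1 = η l c0 := fun l => by rw [hη l c1, hη l c0, hs]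
  rw [hsplit, e1, e1]
  simp only [e1, e2, ← hs]
  rw [Finset.sum_add_distrib]
  have e3 : ∑ k ∈ P, η c0 k * (f c0 k + f c1 k) =
      ∑ k ∈ P, η c0 k * f c0 k + ∑ k ∈ P, η c0 k * f c1 k := by
    rw [← Finset.sum_add_distrib]
    exact Finset.sum_congr rfl fun k _ => by ring
  have e4 : ∑ l ∈ P, η l c0 * (f l c0 + f l c1) =
      ∑ l ∈ P, (η l c0 * f l c0 + η l c0 * f l c1) :=
    Finset.sum_congr rfl fun k _ => by ring
  rw [e3, e4]
  ring

/-- the special sum between `Esh (S^⊥)` and families with values in `S` -/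
theorem sum_special_zero (hne : c0 ≠ c1) (h : a.Good) {η : J → J → L}
    (hη : ∀ l k, η l k = - η k l) (hs : ∀ l, η c0 l = η c1 l) {S : Submodule L V}
    {z x : J → V} (hz : z ∈ Esh a c0 c1 (pp a.q S)) (hx : ∀ l, x l ∈ S) :
    ∑ l, ∑ k, η l k * a.q (z l) (x k) = 0 := by
  classical
  have e0 : ∀ l, l ≠ c0 → l ≠ c1 → ∀ k, a.q (z l) (x k) = 0 := fun l h0 h1 k => by
    rw [h.form.symm]
    exact hz.2.1 l h0 h1 _ (hx k)
  have e1 : ∀ k, a.q (z c0) (x k) + a.q (z c1) (x k) = 0 := fun k => by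
    have := hz.2.2 _ (hx k)
    rwa [h.form.symm, map_add, LinearMap.add_apply] at this
  rw [sum_special hne hη hs, Finset.sum_eq_zero, Finset.sum_eq_zero, Finset.sum_eq_zero]
  · have e2 : a.q (z c0) (x c0) + a.q (z c0) (x c1) + a.q (z c1) (x c0) + a.q (z c1) (x c1) =
        0 := by linear_combination e1 c0 + e1 c1
    rw [e2, mul_zero]
    simp
  · intro l hl
    simp only [Finset.mem_filter, Finset.mem_univ, true_and] at hl
    rw [e0 l hl.1 hl.2, e0 l hl.1 hl.2, add_zero, mul_zero]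
  · intro l hl
    rw [e1, mul_zero]
  · intro l hl
    simp only [Finset.mem_filter, Finset.mem_univ, true_and] at hl
    exact Finset.sum_eq_zero fun k _ => by rw [e0 l hl.1 hl.2, mul_zero]

/-- derivations of special configurations are special -/
theorem d_special (hs : Spc a c0 c1) (h : a.Good) (h2 : (2 : L) ≠ 0) (c : Conn a.q) (l : J) :
    c.d (a.Ω c0 l) = c.d (a.Ω c1 l) := by
  have hd1 : c.d 1 = 0 := by
    have := c.leib 1 1
    rw [mul_one, mul_one, one_mul] at this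
    exact left_eq_add.mp this
  by_cases h0 : l = c0
  · subst h0
    rw [diag h h2, map_zero, h.skew, hs.one, map_neg, hd1, neg_zero]
  · by_cases h1 : l = c1
    · subst h1
      rw [diag h h2, map_zero, hs.one, hd1]
    · rw [hs.sp l h0 h1]

theorem Esh_to_E (hs : Spc a c0 c1) (h : a.Good) (h2 : (2 : L) ≠ 0) {D : Submodule L V}
    {z : J → V} (hz : z ∈ Esh a c0 c1 D) (hU : UM a c0 c1 z ∈ D) : z ∈ a.E D := by
  classical
  have e1 : z c1 - z c0 ∈ D := by
    have h3 : UM a c0 c1 z = z c1 - z c0 +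
        ∑ l ∈ (Finset.univ.filter fun l => l ≠ c0 ∧ l ≠ c1), uu a c0 c1 l • z l := by
      rw [UM_apply, ← Finset.add_sum_erase _ _ (Finset.mem_univ c0),
        ← Finset.add_sum_erase _ _ (Finset.mem_erase.mpr ⟨hs.ne.symm, Finset.mem_univ c1⟩),
        uu_c0 hs h, uu_c1 hs, neg_one_smul, one_smul]
      have h4 : (Finset.univ.erase c0).erase c1 =
          Finset.univ.filter fun l => l ≠ c0 ∧ l ≠ c1 := by
        ext l
        simp only [Finset.mem_erase, Finset.mem_univ, and_true, Finset.mem_filter, true_and]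
        tauto
      rw [h4]
      abel
    rw [h3] at hU
    have h5 : ∑ l ∈ (Finset.univ.filter fun l => l ≠ c0 ∧ l ≠ c1), uu a c0 c1 l • z l ∈ D := by
      refine D.sum_mem fun l hl => ?_
      simp only [Finset.mem_filter, Finset.mem_univ, true_and] at hl
      exact D.smul_mem _ (hz.2.1 l hl.1 hl.2)
    have := D.sub_mem hU h5
    rwa [add_sub_cancel_right] at this
  have e2 := hz.2.2
  have e3 : z c1 ∈ D := by
    have h3 : (2 : L) • z c1 ∈ D := by
      have := D.add_mem e1 e2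
      convert this using 1
      rw [two_smul]
      abel
    have := D.smul_mem (2 : L)⁻¹ h3
    rwa [smul_smul, inv_mul_cancel₀ h2, one_smul] at this
  have e4 : z c0 ∈ D := by
    have := D.sub_mem e3 e1
    rwa [sub_sub_cancel] at this
  refine mem_E.mpr fun l => ⟨hz.1 l, ?_⟩
  by_cases h0 : l = c0
  · subst h0; exact e4
  · by_cases h1 : l = c1
    · subst h1; exact e3
    · exact hz.2.1 l h0 h1

end basic

end Vale.Agent.P182.H588.SP
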