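import Vale.Agent.P182.H588.SFrame
import Vale.Agent.P182.H532.SCfg

/-!
# Lemma Z, N1K and F4 for special configurations
-/

namespace Vale.Agent.P182.H588.SP

open Module Matrix Vale.Agent.P182.H533 Vale.Agent.P182.H96 Vale.Agent.P182.H96.Cf

section key

variable {L V J : Type*} [Field L] [AddCommGroup V] [Module L V] [Fintype J] [DecidableEq J]
  {a : Cf L V J (Fin 3)} {c0 c1 : J}

omit [Fintype J] [DecidableEq J] in
/-- columns of the same arm are contained in the Lagrangian column -/
theorem C_le_lag (h : a.Good) {c l : J} (ha : a.arm l = a.arm c) (hc : pp a.q (a.C c) = a.C c) :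
    a.C l ≤ a.C c := by
  rcases h.chain l c ha with h1 | h1
  · exact h1
  · exact ((h.iso l).trans (pp_anti h1)).trans hc.le

omit [DecidableEq J] in
theorem om_kap_c0 (hs : Spc a c0 c1) (h : a.Good) (h2 : (2 : L) ≠ 0) (v : V) :
    om a.Ω (kap (L := L) c0 c1 v) c0 = -v := by
  rw [om_c0 hs h h2, UM_kap hs h, kap_c0 hs.ne]
  module

omit [DecidableEq J] in
theorem om_kap_c1 (hs : Spc a c0 c1) (h : a.Good) (h2 : (2 : L) ≠ 0) (v : V) :
    om a.Ω (kap (L := L) c0 c1 v) c1 = -v := by
  rw [om_c1 hs h h2, UM_kap hs h, kap_c1 hs.ne]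
  module

omit [DecidableEq J] in
theorem tau_kap (hs : Spc a c0 c1) (h : a.Good) (h2 : (2 : L) ≠ 0) {x : J → V}
    (hx : x ∈ Ks a c0 c1) (s : Fin 3) (v r : V) : a.tau s (kap (L := L) c0 c1 v) x r = 0 := by
  classical
  rw [tau]
  refine Finset.sum_eq_zero fun l hl => ?_
  by_cases h0 : l = c0
  · subst h0
    rw [om_kap_c0 hs h h2, kap_c0 hs.ne, Ks_om0 hs h h2 hx, map_neg, LinearMap.neg_apply,
      neg_smul, add_neg_cancel]
  · by_cases h1 : l = c1
    · subst h1
      rw [om_kap_c1 hs h h2, kap_c1 hs.ne, Ks_om1 hs h h2 hx, map_neg, LinearMap.neg_apply,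
        neg_smul, neg_smul, smul_neg, neg_neg, add_neg_cancel]
    · rw [om_kap hs h h0 h1, kap_ne h0 h1, map_zero, LinearMap.zero_apply, zero_smul, zero_smul,
        add_zero]

omit [DecidableEq J] in
theorem tau_add_left (s : Fin 3) (z w x : J → V) (r : V) :
    a.tau s (z + w) x r = a.tau s z x r + a.tau s w x r := by
  rw [tau, tau, tau, ← Finset.sum_add_distrib]
  refine Finset.sum_congr rfl fun l _ => ?_
  rw [om_add, Pi.add_apply, map_add, map_add, LinearMap.add_apply, LinearMap.add_apply, add_smul,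
    add_smul]
  abel

/-- **The Gram argument** for special configurations. -/
theorem gram_s (hs : Spc a c0 c1) (h : a.Good) (h2 : (2 : L) ≠ 0) (hN : N1s a c0 c1)
    {x z : J → V} (hx : x ∈ Ks a c0 c1) {R : Submodule L V} (hxR : ∀ l, x l ∈ R)
    (hz : ∀ l, z l ∈ a.C l) (hzR : ∀ l, ∀ v ∈ a.C l, v ∈ R → a.q v (om a.Ω z l) = 0)
    (hsp : ∀ η : J → J → L, (∀ l k, η l k = - η k l) → (∀ l, η c0 l = η c1 l) →
      ∑ l, ∑ k, η l k * a.q (z l) (x k) = 0)
    (hτ : ∀ s i, a.tau s z x (x i) = 0) : z ∈ Esh a c0 c1 (pp a.q (Submodule.span L (Set.range x))) := by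
  have hx' := Cf.mem_K.mp (Ks_le hx)
  have hoxR : ∀ l, om a.Ω x l ∈ R := fun l => om_mem hxR l
  set U := UM a c0 c1 z with hU
  set v := (2 : L)⁻¹ • U with hv
  set y : J → V := z + kap (L := L) c0 c1 v with hy
  have y0 : y c0 = z c0 + v := by rw [hy, Pi.add_apply, kap_c0 hs.ne]
  have y1 : y c1 = z c1 - v := by rw [hy, Pi.add_apply, kap_c1 hs.ne, sub_eq_add_neg]
  have yn : ∀ l, l ≠ c0 → l ≠ c1 → y l = z l := fun l h0 h1 => by
    rw [hy, Pi.add_apply, kap_ne h0 h1, add_zero]
  have hUy : UM a c0 c1 y = 0 := by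
    rw [hy, map_add, UM_kap hs h, ← hU, hv, smul_smul, neg_mul, mul_inv_cancel₀ h2, neg_smul,
      one_smul, add_neg_cancel]
  have hU0 : ∀ w ∈ a.C c0, w ∈ R → a.q U w = 0 := by
    intro w hw hwR
    have h3 := hzR c0 w hw hwR
    rw [om_c0 hs h h2, map_add, ← hU, (show a.q w (z c0) = 0 by
      rw [h.form.symm]; exact h.iso c0 hw _ (hz c0)), add_zero] at h3
    rw [h.form.symm]
    exact h3
  have hU1 : ∀ w ∈ a.C c1, w ∈ R → a.q U w = 0 := by
    intro w hw hwR
    have h3 := hzR c1 w hw hwR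
    rw [om_c1 hs h h2, map_sub, ← hU, (show a.q w (z c1) = 0 by
      rw [h.form.symm]; exact h.iso c1 hw _ (hz c1)), sub_zero] at h3
    rw [h.form.symm]
    exact h3
  have hv0 : ∀ w ∈ a.C c0, w ∈ R → a.q v w = 0 := fun w hw hwR => by
    rw [hv, map_smul, LinearMap.smul_apply, hU0 w hw hwR, smul_zero]
  have hv1 : ∀ w ∈ a.C c1, w ∈ R → a.q v w = 0 := fun w hw hwR => by
    rw [hv, map_smul, LinearMap.smul_apply, hU1 w hw hwR, smul_zero]
  -- symmetry
  have hsym : ∀ l k, a.q (y l) (x k) = a.q (y k) (x l) := by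
    intro l k
    have h3 := SPIN.sym_of_special (L := L) (J := J) h2 (a := c0) (b := c1)
      (M := Matrix.of fun l k => a.q (y l) (x k)) (u := uu a c0 c1) (g := 1) one_ne_zero
      (uu_c0 hs h) (uu_c1 hs) ?_ ?_ ?_ l k
    · exact h3
    · rintro η ⟨hη, hηs⟩
      have hη' : ∀ l k, η l k = - η k l := fun l k => by
        have := congrFun (congrFun hη k) l
        rwa [Matrix.transpose_apply, Matrix.neg_apply] at this
      have h4 := hsp η hη' hηs
      have h5 : ∑ l, ∑ k, η l k * a.q (kap (L := L) c0 c1 v l) (x k) = 0 := by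
        rw [Finset.sum_eq_add c0 c1 hs.ne (fun l _ hl => Finset.sum_eq_zero fun k _ => by
          rw [kap_ne hl.1 hl.2, map_zero, LinearMap.zero_apply, mul_zero])
          (fun h => absurd (Finset.mem_univ _) h) (fun h => absurd (Finset.mem_univ _) h),
          kap_c0 hs.ne, kap_c1 hs.ne, ← Finset.sum_add_distrib]
        refine Finset.sum_eq_zero fun k _ => ?_
        rw [hηs, map_neg, LinearMap.neg_apply]
        ring
      have h6 : ∑ l, ∑ k, η l k * (Matrix.of fun l k => a.q (y l) (x k)) l k =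
          ∑ l, ∑ k, η l k * a.q (z l) (x k) +
            ∑ l, ∑ k, η l k * a.q (kap (L := L) c0 c1 v l) (x k) := by
        rw [← Finset.sum_add_distrib]
        refine Finset.sum_congr rfl fun l _ => ?_
        rw [← Finset.sum_add_distrib]
        refine Finset.sum_congr rfl fun k _ => ?_
        rw [Matrix.of_apply, hy, Pi.add_apply, map_add, LinearMap.add_apply]
        ring
      rw [h6, h4, h5, add_zero]
    · intro l
      have h4 : ∑ k, (Matrix.of fun l k => a.q (y l) (x k)) l k * uu a c0 c1 k =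
          a.q (y l) (UM a c0 c1 x) := by
        rw [UM_apply, map_sum]
        exact Finset.sum_congr rfl fun k _ => by
          rw [Matrix.of_apply, map_smul, smul_eq_mul, mul_comm]
      rw [h4, (mem_Ks.mp hx).2, map_zero]
    · intro k
      have h4 : ∑ l, (Matrix.of fun l k => a.q (y l) (x k)) l k * uu a c0 c1 l =
          a.q (UM a c0 c1 y) (x k) := by
        rw [UM_apply, map_sum, LinearMap.sum_apply]
        exact Finset.sum_congr rfl fun l _ => by
          rw [Matrix.of_apply, map_smul, LinearMap.smul_apply, smul_eq_mul, mul_comm]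
      rw [h4, hUy, map_zero, LinearMap.zero_apply]
  -- pairing of `y l` with elements of the same arm
  have hyC : ∀ l, ∀ w ∈ R, (∀ c, a.arm c = a.arm l → pp a.q (a.C c) = a.C c → w ∈ a.C c) →
      a.q (z l) w = 0 → a.q (y l) w = 0 := by
    intro l w hwR hw h3
    by_cases h0 : l = c0
    · subst h0
      rw [y0, map_add, LinearMap.add_apply, h3, hv0 w (hw l rfl hs.lag0) hwR, add_zero]
    · by_cases h1 : l = c1
      · subst h1
        rw [y1, map_sub, LinearMap.sub_apply, h3, hv1 w (hw l rfl hs.lag1) hwR, sub_zero]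
      · rw [yn l h0 h1, h3]
  have h1 := hN (Matrix.of fun l k => a.q (y l) (x k)) (fun l k => hsym l k)
    (fun l k hl => ?_) (fun m => ?_)
    (fun l k hlk => ?_) (fun l k hlk hle => ?_) (fun l k hlk hlag hle => ?_) (fun s i j => ?_)
  · have hG : ∀ l k, a.q (y l) (x k) = 0 := fun l k => congrFun (congrFun h1 l) k
    have key : ∀ w : V, (∀ k, a.q w (x k) = 0) → w ∈ pp a.q (Submodule.span L (Set.range x)) := by
      intro w hw r hr
      rw [h.form.symm]
      induction hr using Submodule.span_induction with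
      | mem r hr =>
        obtain ⟨k, rfl⟩ := hr
        exact hw k
      | zero => rw [map_zero]
      | add u v _ _ hu hv => rw [map_add, hu, hv, add_zero]
      | smul c u _ hu => rw [map_smul, hu, smul_zero]
    refine ⟨hz, fun l h0 h1 => key _ fun k => ?_, key _ fun k => ?_⟩
    · rw [← yn l h0 h1]
      exact hG l k
    · have e1 : z c0 + z c1 = y c0 + y c1 := by rw [y0, y1]; abel
      rw [e1, map_add, LinearMap.add_apply, hG, hG, add_zero]
  · -- trivial columns
    show a.q (y l) (x k) = 0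
    have htriv : ∀ c, pp a.q (a.C c) = a.C c → a.C c = ⊥ → a.q (y l) (x k) = 0 := by
      intro c hc hc0
      have h4 : x k ∈ pp a.q (a.C c) := by
        rw [hc0]
        intro w hw
        rw [(Submodule.mem_bot L).mp hw, map_zero, LinearMap.zero_apply]
      rw [hc, hc0, Submodule.mem_bot] at h4
      rw [h4, map_zero]
    by_cases h0 : l = c0
    · subst h0; exact htriv l hs.lag0 hl
    · by_cases h1 : l = c1
      · subst h1; exact htriv l hs.lag1 hl
      · have h4 := hz l
        rw [hl, Submodule.mem_bot] at h4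
        rw [yn l h0 h1, h4, map_zero, LinearMap.zero_apply]
  · have h4 : ∑ l, a.Ω c0 l * (Matrix.of fun l k => a.q (y l) (x k)) l m =
        a.q (om a.Ω y c0) (x m) := by
      rw [om, map_sum, LinearMap.sum_apply]
      exact Finset.sum_congr rfl fun l _ => by
        rw [Matrix.of_apply, map_smul, LinearMap.smul_apply, smul_eq_mul]
    rw [h4, om_c0 hs h h2, hUy, zero_add, Matrix.of_apply]
  · show a.q (y l) (x k) = 0
    refine hyC l _ (hxR k) (fun c hc hlag => ?_) ?_
    · exact C_le_lag h (by rw [hc, hlk]) hlag (hx'.1 k)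
    · rcases h.chain l k hlk with h3 | h3
      · exact h.iso k (hx'.1 k) _ (h3 (hz l))
      · exact h.iso l (h3 (hx'.1 k)) _ (hz l)
  · show ∑ j, a.q (y l) (x j) * a.Ω k j = 0
    have h4 : ∑ j, a.q (y l) (x j) * a.Ω k j = a.q (y l) (om a.Ω x k) := by
      rw [om, map_sum]
      exact Finset.sum_congr rfl fun j _ => by rw [map_smul, smul_eq_mul, mul_comm]
    rw [h4]
    have h5 : a.q (z l) (om a.Ω x k) = 0 := hx'.2 k _ (hle (hz l))
    by_cases h0 : l = c0
    · subst h0
      refine hyC l _ (hoxR k) (fun c hc hlag => ?_) h5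
      have h6 : a.C c = a.C k := by
        apply le_antisymm
        · have h7 := C_le_lag h (c := l) (l := c) hc hs.lag0
          exact h7.trans hle
        · exact C_le_lag h (by rw [hc, hlk]) hlag
      have h7 : om a.Ω x k ∈ pp a.q (a.C k) := fun w hw => hx'.2 k w hw
      rw [← hlag, h6]
      exact h7
    · by_cases h1 : l = c1
      · subst h1
        refine hyC l _ (hoxR k) (fun c hc hlag => ?_) h5
        have h6 : a.C c = a.C k := by
          apply le_antisymm
          · have h7 := C_le_lag h (c := l) (l := c) hc hs.lag1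
            exact h7.trans hle
          · exact C_le_lag h (by rw [hc, hlk]) hlag
        have h7 : om a.Ω x k ∈ pp a.q (a.C k) := fun w hw => hx'.2 k w hw
        rw [← hlag, h6]
        exact h7
      · rw [yn l h0 h1, h5]
  · have h4 : ∑ i, ∑ j, a.Ω l i * a.Ω k j * (Matrix.of fun l k => a.q (y l) (x k)) i j =
        a.q (om a.Ω y l) (om a.Ω x k) := by
      have e3 : a.q (om a.Ω y l) = ∑ i, a.Ω l i • a.q (y i) := by
        rw [om, map_sum]
        exact Finset.sum_congr rfl fun i _ => map_smul _ _ _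
      rw [e3, LinearMap.sum_apply]
      refine Finset.sum_congr rfl fun i _ => ?_
      rw [LinearMap.smul_apply, om, map_sum, smul_eq_mul, Finset.mul_sum]
      refine Finset.sum_congr rfl fun j _ => ?_
      rw [Matrix.of_apply, map_smul, smul_eq_mul]
      ring
    rw [h4]
    have h5 : om a.Ω x k ∈ a.C l := by
      have h7 : om a.Ω x k ∈ pp a.q (a.C k) := fun w hw => hx'.2 k w hw
      rwa [← hle, hlag] at h7
    have h6 : a.q (om a.Ω z l) (om a.Ω x k) = 0 := by
      rw [h.form.symm]
      exact hzR l _ h5 (hoxR k)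
    have h7 : om a.Ω y l = om a.Ω z l + om a.Ω (kap (L := L) c0 c1 v) l := by rw [hy, om_add]
    rw [h7, map_add, LinearMap.add_apply, h6, zero_add]
    by_cases h0 : l = c0
    · subst h0
      rw [om_kap_c0 hs h h2, map_neg, LinearMap.neg_apply, hv0 _ h5 (hoxR k), neg_zero]
    · by_cases h1 : l = c1
      · subst h1
        rw [om_kap_c1 hs h h2, map_neg, LinearMap.neg_apply, hv1 _ h5 (hoxR k), neg_zero]
      · rw [om_kap hs h h0 h1, map_zero, LinearMap.zero_apply]
  · show ∑ l, ∑ k, a.q (y i) (x l) * Gm a.arm a.Ω s l k * a.q (y k) (x j) = 0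
    have h3 : ∀ l k, a.q (y i) (x l) * Gm a.arm a.Ω s l k * a.q (y k) (x j) =
        a.q (x i) (y l) * Gm a.arm a.Ω s l k * a.q (y j) (x k) := by
      intro l k
      rw [hsym i l, h.form.symm (y l), hsym k j]
    simp only [h3]
    rw [h.Gm_sum_eq']
    have h4 : a.tau s y x (x i) = 0 := by
      rw [hy, tau_add_left, hτ, tau_kap hs h h2 hx, add_zero]
    have h5 := congrArg (a.q (y j)) h4
    rw [map_zero, tau, map_sum] at h5
    rw [← h5]
    refine Finset.sum_congr rfl fun l _ => ?_
    rw [← map_om (a.q (y j)), ← map_om (a.q (x i)), map_add, map_smul, map_smul, smul_eq_mul,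
      smul_eq_mul, h.form.symm (x i) (y l), h.form.symm (x i) (om a.Ω y l)]

omit [DecidableEq J] in
/-- **F2** -/
theorem F2_s (h : a.Good) (hV : SVers a c0 c1) {x y : J → V} (hx : x ∈ a.K)
    (hy : y ∈ a.K) (s : Fin 3) (v : V) : a.tau s x y v = a.tau s y x v := by
  rw [← sub_eq_zero]
  apply h.form.nondeg
  intro g
  obtain ⟨c, hc1, hc2⟩ := hV (fun s' => if s' = s then wd a.q g v else 0) (fun s' => by
    split_ifs
    · exact wd_sk h.form g v
    · intro u v; simp) (fun _ _ => 0) (fun _ _ => by simp) (fun _ => rfl)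
  classical
  have h1 := h.first_order (Y := fun s' => if s' = s then wd a.q g v else 0) hx hy c hc1
  simp only [hc2, zero_mul, Finset.sum_const_zero, zero_add] at h1
  have h2 : ∀ x y : J → V, ∑ l, a.q ((if a.arm l = s then wd a.q g v else 0 : End L V) (x l))
      (om a.Ω y l) = ∑ l with a.arm l = s,
        (a.q g (x l) * a.q v (om a.Ω y l) - a.q v (x l) * a.q g (om a.Ω y l)) := by
    intro x y
    rw [Finset.sum_filter]
    refine Finset.sum_congr rfl fun l _ => ?_
    by_cases hl : a.arm l = s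
    · rw [if_pos hl, if_pos hl, wd_apply, map_sub, map_smul, map_smul, LinearMap.sub_apply,
        LinearMap.smul_apply, LinearMap.smul_apply, smul_eq_mul, smul_eq_mul]
    · rw [if_neg hl, if_neg hl, LinearMap.zero_apply, map_zero, LinearMap.zero_apply]
  rw [h2, h2, ← Finset.sum_sub_distrib] at h1
  rw [h.form.symm, map_sub, tau, tau, map_sum, map_sum, ← Finset.sum_sub_distrib, ← neg_eq_zero,
    ← Finset.sum_neg_distrib, ← h1]
  refine Finset.sum_congr rfl fun l _ => ?_
  rw [map_add, map_add, map_smul, map_smul, map_smul, map_smul, h.form.symm (x l) v,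
    h.form.symm (y l) v, h.form.symm (om a.Ω x l) v, h.form.symm (om a.Ω y l) v]
  simp only [smul_eq_mul]
  ring

omit [DecidableEq J] in
/-- the special sum of two elements of the kernel -/
theorem sum_K (h : a.Good) (hV : SVers a c0 c1) {x y : J → V} (hx : x ∈ a.K)
    (hy : y ∈ a.K) {η : J → J → L} (hη : ∀ l k, η l k = - η k l) (hηs : ∀ l, η c0 l = η c1 l) :
    ∑ l, ∑ k, η l k * a.q (x l) (y k) = 0 := by
  classical
  obtain ⟨c, hc1, hc2⟩ := hV (fun _ => 0) (fun s u v => by simp) η hη hηs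
  have h1 := h.first_order (Y := fun _ => 0) hx hy c hc1
  simp only [LinearMap.zero_apply, map_zero, Finset.sum_const_zero, sub_zero, add_zero] at h1
  rw [← h1]
  exact Finset.sum_congr rfl fun l _ => Finset.sum_congr rfl fun k _ => by rw [hc2]

/-- isotropic elements of the special kernel are orthogonal to the special kernel -/
theorem N1K_s (hs : Spc a c0 c1) (h : a.Good) (h2 : (2 : L) ≠ 0) (hV : SVers a c0 c1)
    (hN : N1s a c0 c1) {x y : J → V} (hx : x ∈ Ks a c0 c1) (hy : y ∈ Ks a c0 c1)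
    (hxx : ∀ l k, a.q (x l) (x k) = 0) :
    y ∈ a.E (pp a.q (Submodule.span L (Set.range x))) := by
  have hox : ∀ l k, a.q (om a.Ω x l) (x k) = 0 := by
    intro l k
    rw [om, map_sum, LinearMap.sum_apply]
    exact Finset.sum_eq_zero fun j _ => by rw [map_smul, LinearMap.smul_apply, hxx, smul_zero]
  have h1 := gram_s hs h h2 hN hx (z := y) (R := ⊤) (fun l => trivial)
    (Cf.mem_K.mp (Ks_le hy)).1 (fun l v hv _ => (Cf.mem_K.mp (Ks_le hy)).2 l v hv)
    (fun η hη hηs => sum_K h hV (Ks_le hy) (Ks_le hx) hη hηs) (fun s i => by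
      rw [F2_s h hV (Ks_le hy) (Ks_le hx), tau]
      exact Finset.sum_eq_zero fun l _ => by rw [hxx, hox, zero_smul, zero_smul, add_zero])
  exact Esh_to_E hs h h2 h1 (by rw [(mem_Ks.mp hy).2]; exact zero_mem _)

/-- **Lemma Z.** -/
theorem lemmaZ_s (hs : Spc a c0 c1) (h : a.Good) (h2 : (2 : L) ≠ 0) (hV : SVers a c0 c1)
    [FiniteDimensional L V]
    (hN : N1s a c0 c1) {x z : J → V} (hx : x ∈ Ks a c0 c1) {R : Submodule L V}
    (hxR : ∀ l, x l ∈ R) (hR : R ≤ pp a.q R) (hz : ∀ l, z l ∈ a.C l)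
    (hzR : ∀ t ∈ a.E R, a.M t z = 0) (hτ : ∀ s, ∀ r ∈ R, a.tau s z x r = 0) :
    z ∈ Esh a c0 c1 (pp a.q (Submodule.span L (Set.range x))) := by
  have hxK := Ks_le hx
  refine gram_s hs h h2 hN hx hxR hz (fun l v hv hvR => ?_) (fun η hη hηs => ?_)
    (fun s i => hτ s _ (hxR i))
  · have h1 := hzR (Pi.single l v) (mem_E.mpr fun k => by
      by_cases hk : k = l
      · subst hk; rw [Pi.single_eq_same]; exact ⟨hv, hvR⟩
      · rw [Pi.single_eq_of_ne hk]; exact ⟨zero_mem _, zero_mem _⟩)
    rw [M_apply, Finset.sum_eq_single l] at h1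
    · rwa [Pi.single_eq_same] at h1
    · intro k _ hk
      rw [Pi.single_eq_of_ne hk, map_zero, LinearMap.zero_apply]
    · intro h; exact absurd (Finset.mem_univ _) h
  · obtain ⟨c, hc1, hc2⟩ := hV (fun _ => 0) (fun s u v => by simp) η hη hηs
    obtain ⟨cs, h3, h4, h5⟩ := h.exists_cs h2 c hR
    have hkey := h.key c hxK hz hxR hzR cs h3 (fun l => h4 _ _) h5
    obtain ⟨c0', g1, -, g3⟩ := exists_metric h.form h2 c.leib (fun _ : ℕ => (⊥ : Submodule L V)) ∅
      (fun i hi => absurd hi (Finset.notMem_empty i))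
      (fun i hi => absurd hi (Finset.notMem_empty i)) hR
    have h6 : a.Tt z x (fun s => dif c (cs s) (h3 s)) = 0 := by
      have h7 := h.Tt_const z x (dif c c0' g1)
      have h8 : a.Tt z x ((fun s => dif c (cs s) (h3 s)) - fun _ => dif c c0' g1) = 0 := by
        apply Tt_eq_zero hxR hτ
        intro s r hr
        show dif c (cs s) (h3 s) r - dif c c0' g1 r ∈ R
        rw [dif_apply, dif_apply, sub_sub_sub_cancel_right]
        exact R.sub_mem (h5 s r hr) (g3 r hr)
      rw [Tt_sub, h7, sub_zero] at h8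
      exact h8
    rw [h6, add_zero] at hkey
    rw [← hkey]
    exact Finset.sum_congr rfl fun l _ => Finset.sum_congr rfl fun k _ => by rw [hc2]

end key

end Vale.Agent.P182.H588.SP
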