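import Vale.Agent.P182.H922.Dicho

/-!
# T-SPIN: the lifting lemma and the Hessian identity for a special matrix

`Ω` is in normal form with respect to two indices `c0`, `c1`: the rows `c0` and `c1` agree
outside `c0`, `c1`.  The admissible variations `η` are those with equal rows `c0` and `c1`.
-/

namespace Vale.Agent.P182.H588

open Module Matrix Vale.Agent.P182.H533 Vale.Agent.P182.H922

section spo

variable {L V J : Type*} [Field L] [AddCommGroup V] [Module L V] [Fintype J] [DecidableEq J]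

omit [Fintype J] [DecidableEq J] in
/-- the normal form of the special matrix -/
structure SpO (Ω : Matrix J J L) (c0 c1 : J) : Prop where
  skew : Ωᵀ = -Ω
  ne0 : Ω c0 c1 ≠ 0
  eq : ∀ l, l ≠ c0 → l ≠ c1 → Ω c0 l = Ω c1 l

omit [Fintype J] [DecidableEq J] in
theorem skew_apply {Ω : Matrix J J L} (hΩ : Ωᵀ = -Ω) (l l' : J) : Ω l l' = - Ω l' l := by
  have := congrFun (congrFun hΩ l') l
  rwa [Matrix.transpose_apply, Matrix.neg_apply] at this

omit [Fintype J] [DecidableEq J] in
theorem skew_diag (h2 : (2 : L) ≠ 0) {Ω : Matrix J J L} (hΩ : Ωᵀ = -Ω) (l : J) : Ω l l = 0 := by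
  have h1 := skew_apply hΩ l l
  have h3 : (2 : L) * Ω l l = 0 := by linear_combination h1
  exact (mul_eq_zero.mp h3).resolve_left h2

omit [Fintype J] [DecidableEq J] in
theorem SpO.ne {Ω : Matrix J J L} {c0 c1 : J} (h2 : (2 : L) ≠ 0) (h : SpO Ω c0 c1) : c0 ≠ c1 := by
  rintro rfl
  exact h.ne0 (skew_diag h2 h.skew _)

/-- `T` kills the vector `u₀` -/
def Kl (Ω : Matrix J J L) (c0 c1 : J) (T : (J → L) →ₗ[L] V) : Prop :=
  T (Ω c0) = Ω c0 c1 • T (Pi.single c0 1)

theorem map_eq_sum (T : (J → L) →ₗ[L] V) (x : J → L) : T x = ∑ l, x l • T (Pi.single l 1) := by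
  conv_lhs => rw [pi_eq_sum_univ' x]
  rw [map_sum]
  exact Finset.sum_congr rfl fun l _ => map_smul _ _ _

omit [Fintype J] in
/-- the other form of the condition -/
theorem Kl.row1 (h2 : (2 : L) ≠ 0) {Ω : Matrix J J L} {c0 c1 : J} (h : SpO Ω c0 c1)
    {T : (J → L) →ₗ[L] V} (hT : Kl Ω c0 c1 T) : T (Ω c1) = - (Ω c0 c1 • T (Pi.single c1 1)) := by
  have e1 : Ω c1 = Ω c0 - Ω c0 c1 • (Pi.single c1 1 + Pi.single c0 1 : J → L) := by
    funext l
    rw [Pi.sub_apply, Pi.smul_apply, Pi.add_apply, smul_eq_mul]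
    by_cases h0 : l = c0
    · subst h0
      rw [Pi.single_eq_same, Pi.single_eq_of_ne (h.ne h2), skew_diag h2 h.skew,
        skew_apply h.skew c1 l]
      ring
    by_cases h1 : l = c1
    · subst h1
      rw [Pi.single_eq_same, Pi.single_eq_of_ne (h.ne h2).symm, skew_diag h2 h.skew]
      ring
    · rw [Pi.single_eq_of_ne h0, Pi.single_eq_of_ne h1, h.eq l h0 h1]
      ring
  rw [e1, map_sub, map_smul, map_add, hT, smul_add]
  abel

/-- the images under the matrices `G_s` -/
theorem Kl.T_Gm (h2 : (2 : L) ≠ 0) {arm : J → Fin 3} {Ω : Matrix J J L} {c0 c1 : J}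
    (h : SpO Ω c0 c1) {T : (J → L) →ₗ[L] V} (hT : Kl Ω c0 c1 T) (s : Fin 3) :
    T (Gm arm Ω s *ᵥ Pi.single c0 1) = T (Gm arm Ω s *ᵥ Pi.single c1 1) := by
  have hG : ∀ k, T (Gm arm Ω s *ᵥ Pi.single k 1) =
      (∑ l, (if arm l = s then Ω l k else 0) • T (Pi.single l 1)) +
        (if arm k = s then 1 else 0 : L) • T (Ω k) := by
    intro k
    rw [map_eq_sum T (Gm arm Ω s *ᵥ Pi.single k 1), map_eq_sum T (Ω k), Finset.smul_sum,
      ← Finset.sum_add_distrib]
    refine Finset.sum_congr rfl fun l _ => ?_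
    rw [smul_smul, ← add_smul, Matrix.mulVec_single_one, Matrix.col_apply, Gm_apply,
      skew_apply h.skew k l]
    congr 1
    split_ifs <;> ring
  rw [hG, hG, hT, hT.row1 h2 h]
  have h3 : (∑ l, (if arm l = s then Ω l c0 else 0) • T (Pi.single l 1)) -
      (∑ l, (if arm l = s then Ω l c1 else 0) • T (Pi.single l 1)) =
      (if arm c0 = s then - Ω c0 c1 else 0) • T (Pi.single c0 1) +
        (if arm c1 = s then - Ω c0 c1 else 0) • T (Pi.single c1 1) := by
    rw [← Finset.sum_sub_distrib]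
    have h4 : ∀ l, (if arm l = s then Ω l c0 else 0) • T (Pi.single l 1) -
        (if arm l = s then Ω l c1 else 0) • T (Pi.single l 1) =
        (if l = c0 then (if arm c0 = s then - Ω c0 c1 else 0) • T (Pi.single c0 1) else 0) +
          (if l = c1 then (if arm c1 = s then - Ω c0 c1 else 0) • T (Pi.single c1 1) else 0) := by
      intro l
      by_cases h0 : l = c0
      · subst h0
        rw [if_pos rfl, if_neg (h.ne h2), skew_diag h2 h.skew, ← sub_smul, add_zero]
        congr 1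
        split_ifs <;> ring
      by_cases h1 : l = c1
      · subst h1
        rw [if_pos rfl, if_neg h0, skew_diag h2 h.skew, ← sub_smul, zero_add,
          skew_apply h.skew l c0]
        congr 1
        split_ifs <;> ring
      · rw [if_neg h0, if_neg h1, skew_apply h.skew l c0, skew_apply h.skew l c1, h.eq l h0 h1,
          sub_self, add_zero]
    rw [Finset.sum_congr rfl fun l _ => h4 l, Finset.sum_add_distrib, Finset.sum_ite_eq',
      Finset.sum_ite_eq', if_pos (Finset.mem_univ _), if_pos (Finset.mem_univ _)]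
  rw [← sub_eq_zero] at h3 ⊢
  rw [← h3]
  split_ifs <;> module

/-- **the symmetry argument**: an antisymmetric matrix orthogonal to all admissible variations
with the row relation is zero -/
theorem SpO.symm_zero (h2 : (2 : L) ≠ 0) {Ω : Matrix J J L} {c0 c1 : J} (h : SpO Ω c0 c1)
    {b : J → J → L} (hb : ∀ l k, b l k = - b k l)
    (h1 : ∀ l k, l ≠ c0 → l ≠ c1 → k ≠ c0 → k ≠ c1 → b l k = 0)
    (h3 : ∀ k, k ≠ c0 → k ≠ c1 → b c0 k + b c1 k = 0)
    (h4 : ∀ k, ∑ l, Ω c0 l * b l k = Ω c0 c1 * b c0 k) : ∀ l k, b l k = 0 := by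
  have hd : ∀ l, b l l = 0 := fun l => by
    have h5 : (2 : L) * b l l = 0 := by linear_combination hb l l
    exact (mul_eq_zero.mp h5).resolve_left h2
  have hne := h.ne h2
  have e1 : ∀ k, k ≠ c0 → k ≠ c1 → b c1 k = b c0 k := by
    intro k hk0 hk1
    have h5 := h4 k
    rw [Finset.sum_eq_single c1] at h5
    · exact mul_left_cancel₀ h.ne0 h5
    · intro l _ hl
      by_cases hl0 : l = c0
      · subst hl0; rw [skew_diag h2 h.skew, zero_mul]
      · rw [h1 l k hl0 hl hk0 hk1, mul_zero]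
    · intro hm; exact absurd (Finset.mem_univ _) hm
  have e2 : ∀ k, k ≠ c0 → k ≠ c1 → b c0 k = 0 := by
    intro k hk0 hk1
    have h5 := h3 k hk0 hk1
    rw [e1 k hk0 hk1, ← two_mul] at h5
    exact (mul_eq_zero.mp h5).resolve_left h2
  have e3 : ∀ k, k ≠ c0 → k ≠ c1 → b c1 k = 0 := fun k hk0 hk1 => by
    rw [e1 k hk0 hk1, e2 k hk0 hk1]
  have e4 : b c0 c1 = 0 := by
    have h5 := h4 c1
    rw [Finset.sum_eq_zero] at h5
    · exact (mul_eq_zero.mp h5.symm).resolve_left h.ne0
    · intro l _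
      by_cases hl0 : l = c0
      · subst hl0; rw [skew_diag h2 h.skew, zero_mul]
      by_cases hl1 : l = c1
      · subst hl1; rw [hd, mul_zero]
      · rw [hb, e3 l hl0 hl1, neg_zero, mul_zero]
  intro l k
  by_cases hl0 : l = c0
  · subst hl0
    by_cases hk0 : k = l
    · rw [hk0, hd]
    by_cases hk1 : k = c1
    · rw [hk1, e4]
    · exact e2 k hk0 hk1
  by_cases hl1 : l = c1
  · subst hl1
    by_cases hk1 : k = l
    · rw [hk1, hd]
    by_cases hk0 : k = c0
    · rw [hk0, hb, e4, neg_zero]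
    · exact e3 k hk0 hk1
  by_cases hk0 : k = c0
  · rw [hk0, hb, e2 l hl0 hl1, neg_zero]
  by_cases hk1 : k = c1
  · rw [hk1, hb, e3 l hl0 hl1, neg_zero]
  · exact h1 l k hl0 hl1 hk0 hk1

/-- the admissible variation `e_i ∧ e_j` -/
def ad1 (i j : J) : Matrix J J L := Matrix.single i j 1 - Matrix.single j i 1

omit [Fintype J] in
theorem ad1_skew (i j : J) : (ad1 i j : Matrix J J L)ᵀ = - ad1 i j := by
  rw [ad1, Matrix.transpose_sub, Matrix.transpose_single, Matrix.transpose_single, neg_sub]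

omit [Fintype J] in
theorem ad1_row {i j c : J} (hi : i ≠ c) (hj : j ≠ c) (l : J) : (ad1 i j : Matrix J J L) c l = 0 := by
  rw [ad1, Matrix.sub_apply, Matrix.single_apply_of_ne _ _ _ _ _ (fun h => hi h.1),
    Matrix.single_apply_of_ne _ _ _ _ _ (fun h => hj h.1), sub_zero]

omit [Fintype J] in
theorem ad1_self_row {i j : J} (hij : i ≠ j) (l : J) :
    (ad1 i j : Matrix J J L) i l = if l = j then 1 else 0 := by
  rw [ad1, Matrix.sub_apply, Matrix.single_apply_of_ne j i _ i l (fun h => hij h.1.symm), sub_zero]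
  by_cases h : l = j
  · subst h
    rw [Matrix.single_apply_same, if_pos rfl]
  · rw [Matrix.single_apply_of_ne _ _ _ _ _ (fun h' => h h'.2.symm), if_neg h]

omit [Fintype J] in
/-- the variation `(e_{c0} + e_{c1}) ∧ e_k` is admissible -/
theorem ad2_row {c0 c1 k : J} (hne : c0 ≠ c1) (hk0 : k ≠ c0) (hk1 : k ≠ c1) (l : J) :
    (ad1 c0 k + ad1 c1 k : Matrix J J L) c0 l = (ad1 c0 k + ad1 c1 k : Matrix J J L) c1 l := by
  rw [Matrix.add_apply, Matrix.add_apply, ad1_self_row hk0.symm, ad1_self_row hk1.symm,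
    ad1_row hne.symm hk0, ad1_row hne hk1, add_zero, zero_add]

/-- **The lifting lemma, special form.** -/
theorem exists_lift_s [FiniteDimensional L V] {arm : J → Fin 3} {q : V →ₗ[L] V →ₗ[L] L}
    (hq : IsForm q) (h2 : (2 : L) ≠ 0)
    (T : (J → L) →ₗ[L] V) {Ω : Matrix J J L} {c0 c1 : J} (hsp : SpO Ω c0 c1)
    (hTk : Kl Ω c0 c1 T) (C : Core q (Sop arm q T Ω))
    {A : Fin 3 → End L C.V1} (hA : ∀ s, IsSk C.q1 (A s))
    (hsum : ∑ s, (A s * C.S1 hq s - C.S1 hq s * A s) = 0) :
    ∃ X : Fin 3 → End L V, (∀ s, IsSk q (X s)) ∧ (∀ s, ∀ i ∈ C.I, X s i ∈ C.I) ∧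
      (∀ s, ∀ v : C.V1, C.P hq (X s v) = A s v) ∧ ∃ η : Matrix J J L, ηᵀ = -η ∧
        (∀ l, η c0 l = η c1 l) ∧
        ∀ x, T (η *ᵥ x) + ∑ s, X s (T (Gm arm Ω s *ᵥ x)) = 0 := by
  classical
  have hΩ := hsp.skew
  let 𝒢 : Submodule L ((J → L) →ₗ[L] V) :=
    { carrier := {y | ∃ Y : Fin 3 → End L V, (∀ s, IsSk q (Y s)) ∧ (∀ s, ∀ i ∈ C.I, Y s i ∈ C.I) ∧
        (∀ s, ∀ v : C.V1, C.P hq (Y s v) = 0) ∧ ∃ η : Matrix J J L, ηᵀ = -η ∧
          (∀ l, η c0 l = η c1 l) ∧
          ∀ x, y x = T (η *ᵥ x) + ∑ s, Y s (T (Gm arm Ω s *ᵥ x))}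
      add_mem' := by
        rintro a b ⟨Y, h1, h2, h3, η, h4, h6, h5⟩ ⟨Y', h1', h2', h3', η', h4', h6', h5'⟩
        refine ⟨Y + Y', ?_, ?_, ?_, η + η', ?_, ?_, ?_⟩
        · intro s u v
          simp only [Pi.add_apply, LinearMap.add_apply, map_add, h1 s u v, h1' s u v]
          ring
        · intro s i hi
          exact Submodule.add_mem _ (h2 s i hi) (h2' s i hi)
        · intro s v
          simp only [Pi.add_apply, LinearMap.add_apply, map_add, h3 s v, h3' s v, add_zero]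
        · rw [Matrix.transpose_add, h4, h4', neg_add]
        · intro l
          rw [Matrix.add_apply, Matrix.add_apply, h6, h6']
        · intro x
          rw [LinearMap.add_apply, h5, h5', Matrix.add_mulVec, map_add]
          simp only [Pi.add_apply, LinearMap.add_apply, Finset.sum_add_distrib]
          abel
      zero_mem' := by
        refine ⟨0, ?_, ?_, ?_, 0, ?_, ?_, ?_⟩
        · intro s u v; simp
        · intro s i _; exact Submodule.zero_mem _
        · intro s v; simp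
        · simp
        · intro l; rfl
        · intro x; simp
      smul_mem' := by
        rintro c a ⟨Y, h1, h2, h3, η, h4, h6, h5⟩
        refine ⟨c • Y, ?_, ?_, ?_, c • η, ?_, ?_, ?_⟩
        · intro s u v
          simp only [Pi.smul_apply, LinearMap.smul_apply, map_smul, h1 s u v, smul_eq_mul]
          ring
        · intro s i hi
          exact Submodule.smul_mem _ _ (h2 s i hi)
        · intro s v
          simp only [Pi.smul_apply, LinearMap.smul_apply, map_smul, h3 s v, smul_zero]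
        · rw [Matrix.transpose_smul, h4, smul_neg]
        · intro l
          rw [Matrix.smul_apply, Matrix.smul_apply, h6]
        · intro x
          rw [LinearMap.smul_apply, h5, Matrix.smul_mulVec, map_smul, smul_add]
          simp only [Pi.smul_apply, LinearMap.smul_apply, Finset.smul_sum] }
  let A' : Fin 3 → End L V := fun s => C.V1.subtype ∘ₗ A s ∘ₗ C.P hq
  have hA' : ∀ s v, A' s v = (A s (C.P hq v) : V) := fun s v => rfl
  let y0 : (J → L) →ₗ[L] V := ∑ s, A' s ∘ₗ T ∘ₗ (Gm arm Ω s).mulVecLin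
  have hy0 : ∀ x, y0 x = ∑ s, A' s (T (Gm arm Ω s *ᵥ x)) := by
    intro x
    simp only [y0, LinearMap.sum_apply, LinearMap.comp_apply, Matrix.mulVecLin_apply]
  -- the two special values agree
  have heta : ∀ η : Matrix J J L, ηᵀ = -η → (∀ l, η c0 l = η c1 l) →
      η *ᵥ Pi.single c0 1 = η *ᵥ Pi.single c1 1 := by
    intro η h3 h4
    funext l
    rw [Matrix.mulVec_single_one, Matrix.mulVec_single_one, Matrix.col_apply, Matrix.col_apply,
      skew_apply h3 l c0, skew_apply h3 l c1, h4]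
  have hy0c : y0 (Pi.single c0 1) = y0 (Pi.single c1 1) := by
    rw [hy0, hy0]
    exact Finset.sum_congr rfl fun s _ => by rw [hTk.T_Gm h2 hsp]
  have h𝒢c : ∀ y ∈ 𝒢, y (Pi.single c0 1) = y (Pi.single c1 1) := by
    rintro y ⟨Y, -, -, -, η, h3, h4, h5⟩
    rw [h5, h5, heta η h3 h4]
    congr 1
    exact Finset.sum_congr rfl fun s _ => by rw [hTk.T_Gm h2 hsp]
  have main : y0 ∈ 𝒢 := by
    by_contra hy
    obtain ⟨f, hf0, hfle⟩ := Submodule.exists_le_ker_of_notMem hy
    obtain ⟨ψ0, hψ0⟩ := exists_trace hq f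
    -- normalise the multiplier
    obtain ⟨w, hw⟩ : ∃ w : V, (2 * Ω c0 c1) • w =
        Ω c0 c1 • ψ0 (Pi.single c0 1) - ψ0 (Ω c0) :=
      ⟨(2 * Ω c0 c1)⁻¹ • (Ω c0 c1 • ψ0 (Pi.single c0 1) - ψ0 (Ω c0)), by
        rw [smul_smul, mul_inv_cancel₀ (mul_ne_zero h2 hsp.ne0), one_smul]⟩
    let pr : (J → L) →ₗ[L] L := (LinearMap.proj c1 : (J → L) →ₗ[L] L) -
      (LinearMap.proj c0 : (J → L) →ₗ[L] L)
    let ψ : (J → L) →ₗ[L] V := ψ0 + pr.smulRight w
    have hψs : ∀ x, ψ x = ψ0 x + (x c1 - x c0) • w := fun x => rfl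
    have hne := hsp.ne h2
    have hψk : Kl Ω c0 c1 ψ := by
      rw [Kl, hψs, hψs, skew_diag h2 hΩ, Pi.single_eq_same, Pi.single_eq_of_ne hne.symm,
        sub_zero, zero_sub, smul_add, smul_smul]
      rw [← sub_eq_zero]
      have h4 : ψ0 (Ω c0) + Ω c0 c1 • w - (Ω c0 c1 • ψ0 (Pi.single c0 1) + (Ω c0 c1 * -1) • w) =
          (2 * Ω c0 c1) • w - (Ω c0 c1 • ψ0 (Pi.single c0 1) - ψ0 (Ω c0)) := by module
      rw [h4, hw, sub_self]
    have htrψ : ∀ y : (J → L) →ₗ[L] V, y (Pi.single c0 1) = y (Pi.single c1 1) →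
        LinearMap.trace L V (y ∘ₗ ad q ψ) = LinearMap.trace L V (y ∘ₗ ad q ψ0) := by
      intro y hyc
      congr 1
      ext v
      rw [LinearMap.comp_apply, LinearMap.comp_apply]
      have h3 : ad q ψ v = ad q ψ0 v + q w v • (Pi.single c1 1 - Pi.single c0 1 : J → L) := by
        funext l
        rw [Pi.add_apply, Pi.smul_apply, ad_apply, ad_apply, hψs, map_add, LinearMap.add_apply,
          map_smul, LinearMap.smul_apply, smul_eq_mul, smul_eq_mul, Pi.sub_apply, mul_comm]
        congr 2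
        have hsc : ∀ a b : J, (Pi.single a 1 : J → L) b = (Pi.single b 1 : J → L) a := by
          intro a b
          rw [Pi.single_apply, Pi.single_apply]
          by_cases hab : b = a
          · rw [if_pos hab, if_pos hab.symm]
          · rw [if_neg hab, if_neg (fun h => hab h.symm)]
        rw [hsc l c1, hsc l c0]
      rw [h3, map_add, map_smul, map_sub, hyc, sub_self, smul_zero, add_zero]
    have hψ : f y0 = LinearMap.trace L V (y0 ∘ₗ ad q ψ) := by rw [hψ0, htrψ y0 hy0c]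
    have hf : ∀ y ∈ 𝒢, LinearMap.trace L V (y ∘ₗ ad q ψ) = 0 := fun y hy => by
      rw [htrψ y (h𝒢c y hy), ← hψ0]; exact hfle hy
    -- symmetry
    have hmem : ∀ η : Matrix J J L, ηᵀ = -η → (∀ l, η c0 l = η c1 l) →
        (T ∘ₗ η.mulVecLin) ∈ 𝒢 := by
      intro η h3 h4
      refine ⟨0, ?_, ?_, ?_, η, h3, h4, ?_⟩
      · intro s u v; simp
      · intro s i _; exact Submodule.zero_mem _
      · intro s v; simp
      · intro x; simp
    have htr1 : ∀ a b, LinearMap.trace L V ((T ∘ₗ (ad1 a b : Matrix J J L).mulVecLin) ∘ₗ ad q ψ) =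
        q (ψ (Pi.single b 1)) (T (Pi.single a 1)) - q (ψ (Pi.single a 1)) (T (Pi.single b 1)) := by
      intro a b
      have h3 : (T ∘ₗ (ad1 a b : Matrix J J L).mulVecLin) ∘ₗ ad q ψ =
          (q (ψ (Pi.single b 1))).smulRight (T (Pi.single a 1)) -
            (q (ψ (Pi.single a 1))).smulRight (T (Pi.single b 1)) := by
        ext v
        have h4 : ∀ (i j : J) (x : J → L), Matrix.single i j (1 : L) *ᵥ x =
            x j • Pi.single i (1 : L) := by
          intro i j x
          funext k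
          by_cases hk : k = i
          · subst hk
            simp [Matrix.mulVec, dotProduct, Matrix.single_apply]
          · simp [Matrix.mulVec, dotProduct, Pi.single_eq_of_ne hk, Ne.symm hk]
        simp only [ad1, LinearMap.comp_apply, Matrix.mulVecLin_apply, Matrix.sub_mulVec, map_sub,
          h4, LinearMap.sub_apply, LinearMap.smulRight_apply, map_smul, ad_apply]
      rw [h3, map_sub, LinearMap.trace_smulRight, LinearMap.trace_smulRight]
    let b : J → J → L := fun l k =>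
      q (ψ (Pi.single l 1)) (T (Pi.single k 1)) - q (ψ (Pi.single k 1)) (T (Pi.single l 1))
    have hb0 : ∀ l k, b l k = 0 := by
      refine hsp.symm_zero h2 (fun l k => (neg_sub _ _).symm) ?_ ?_ ?_
      · intro l k hl0 hl1 hk0 hk1
        have h3 := hf _ (hmem (ad1 k l) (ad1_skew k l) fun m => by
          rw [ad1_row hk0 hl0, ad1_row hk1 hl1])
        rwa [htr1] at h3
      · intro k hk0 hk1
        have h3 := hf _ (hmem (ad1 c0 k + ad1 c1 k) (by
          rw [Matrix.transpose_add, ad1_skew, ad1_skew, neg_add]) (ad2_row hne hk0 hk1))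
        have h4 : (T ∘ₗ (ad1 c0 k + ad1 c1 k : Matrix J J L).mulVecLin) ∘ₗ ad q ψ =
            (T ∘ₗ (ad1 c0 k : Matrix J J L).mulVecLin) ∘ₗ ad q ψ +
              (T ∘ₗ (ad1 c1 k : Matrix J J L).mulVecLin) ∘ₗ ad q ψ := by
          ext v
          simp only [LinearMap.comp_apply, Matrix.mulVecLin_apply, Matrix.add_mulVec, map_add,
            LinearMap.add_apply]
        rw [h4, map_add, htr1, htr1] at h3
        show q (ψ (Pi.single c0 1)) (T (Pi.single k 1)) - q (ψ (Pi.single k 1)) (T (Pi.single c0 1))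
          + (q (ψ (Pi.single c1 1)) (T (Pi.single k 1)) -
            q (ψ (Pi.single k 1)) (T (Pi.single c1 1))) = 0
        linear_combination -h3
      · intro k
        have h3 : ∑ l, Ω c0 l * b l k = q (ψ (Ω c0)) (T (Pi.single k 1)) -
            q (ψ (Pi.single k 1)) (T (Ω c0)) := by
          rw [map_eq_sum ψ (Ω c0), map_eq_sum T (Ω c0), map_sum, map_sum, LinearMap.sum_apply,
            ← Finset.sum_sub_distrib]
          refine Finset.sum_congr rfl fun l _ => ?_
          rw [map_smul, map_smul, LinearMap.smul_apply, smul_eq_mul, smul_eq_mul]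
          ring
        rw [h3, hψk, hTk, map_smul, map_smul, LinearMap.smul_apply, smul_eq_mul, smul_eq_mul]
        ring
    have e1 : ∀ a b, q (ψ (Pi.single a 1)) (T (Pi.single b 1)) =
        q (ψ (Pi.single b 1)) (T (Pi.single a 1)) := fun a b => sub_eq_zero.mp (hb0 a b)
    have hcomm := q_comm hq e1
    -- the operators
    let Ψ : Fin 3 → End L V := fun a => opr q T (Gm arm Ω a) ψ
    have e3 : ∀ a b v w, q v (Ψ a (Sop arm q T Ω b w)) = q (Ψ b (Sop arm q T Ω a v)) w :=
      fun a b v w => opr_rel arm hq hΩ hcomm a b v w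
    have e2 : ∀ a, ∀ i ∈ C.I, ∀ v, q (Ψ a i) v = q i (Ψ a v) := by
      intro a i hi v
      let X : End L V := (q i).smulRight v - (q v).smulRight i
      have hX : ∀ w, X w = q i w • v - q v w • i := fun w => rfl
      have hmem : (X ∘ₗ T ∘ₗ (Gm arm Ω a).mulVecLin) ∈ 𝒢 := by
        refine ⟨Pi.single a X, ?_, ?_, ?_, 0, by simp, fun _ => rfl, ?_⟩
        · intro s u w
          by_cases hs : s = a
          · subst hs
            rw [Pi.single_eq_same, hX, hX]
            simp only [map_sub, map_smul, LinearMap.sub_apply, LinearMap.smul_apply, smul_eq_mul]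
            rw [hq.symm u v, hq.symm u i]
            ring
          · rw [Pi.single_eq_of_ne hs]; simp
        · intro s j hj
          by_cases hs : s = a
          · subst hs
            rw [Pi.single_eq_same, hX, hi.2 j (C.I_le hj), zero_smul, zero_sub]
            exact Submodule.neg_mem _ (Submodule.smul_mem _ _ hi)
          · rw [Pi.single_eq_of_ne hs]; exact Submodule.zero_mem _
        · intro s u
          by_cases hs : s = a
          · subst hs
            rw [Pi.single_eq_same, hX, hi.2 _ (C.V1_le u.2), zero_smul, zero_sub, map_neg,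
              map_smul, C.P_eq_zero hq hi.2, smul_zero, neg_zero]
          · rw [Pi.single_eq_of_ne hs]; simp
        · intro x
          rw [Matrix.zero_mulVec, map_zero, zero_add, Finset.sum_eq_single a]
          · rw [Pi.single_eq_same]; rfl
          · intro b _ hb
            rw [Pi.single_eq_of_ne hb]; rfl
          · intro h; exact absurd (Finset.mem_univ _) h
      have h1 := hf _ hmem
      have h3 : (X ∘ₗ T ∘ₗ (Gm arm Ω a).mulVecLin) ∘ₗ ad q ψ =
          (q i ∘ₗ Ψ a).smulRight v - (q v ∘ₗ Ψ a).smulRight i := by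
        ext w
        rfl
      rw [h3, map_sub, LinearMap.trace_smulRight, LinearMap.trace_smulRight, sub_eq_zero] at h1
      rw [hq.symm]
      exact h1.symm
    have hkill := C.kill hq (Sop_SA arm hq T hΩ) e2 e3
    -- restriction to the core
    let R : Fin 3 → End L C.V1 := fun a => (C.P hq ∘ₗ Ψ a) ∘ₗ C.V1.subtype
    have hRa : ∀ a (v : C.V1), R a v = C.P hq (Ψ a v) := fun a v => rfl
    have hR : ∀ a b (v w : C.V1), C.q1 v (R a (C.S1 hq b w)) = C.q1 (R b (C.S1 hq a v)) w := by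
      intro a b v w
      rw [hRa, hRa, (C.isForm hq).symm, C.q_P, C.q_P]
      have h5 : ∀ (c d : Fin 3) (x y : C.V1), q (Ψ c (Sop arm q T Ω d x)) y =
          q (Ψ c (C.S1 hq d x)) y := by
        intro c d x y
        have h6 := hkill c _ (C.sub_P_mem_I hq (C.map_W (s := d) (C.V1_le x.2))) y (C.V1_le y.2)
        rw [map_sub, map_sub, LinearMap.sub_apply, sub_eq_zero] at h6
        exact h6
      rw [← h5, ← h5, hq.symm, e3]
    obtain ⟨D, hD, hRD⟩ := exists_quot (C.isForm hq) (C.S1_SA hq (Sop_SA arm hq T hΩ))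
      (C.S1_span hq (Sop_SA arm hq T hΩ)) hR
    have htr := trace_mul_sum (C.isForm hq) h2 hA (C.S1_SA hq (Sop_SA arm hq T hΩ)) hD hsum
    apply hf0
    rw [hψ]
    have h7 : y0 ∘ₗ ad q ψ = ∑ s, (C.V1.subtype ∘ₗ A s) ∘ₗ (C.P hq ∘ₗ Ψ s) := by
      ext v
      rw [LinearMap.comp_apply, hy0, LinearMap.sum_apply]
      rfl
    rw [h7, map_sum]
    rw [← htr]
    refine Finset.sum_congr rfl fun s _ => ?_
    rw [LinearMap.trace_comp_comm']
    have h8 : (C.P hq ∘ₗ Ψ s) ∘ₗ C.V1.subtype ∘ₗ A s = R s * A s := rfl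
    rw [h8, LinearMap.trace_mul_comm, hRD, mul_assoc]
  obtain ⟨Y, g1, g2, g3, η, g4, g6, g5⟩ := main
  refine ⟨fun s => A' s - Y s, ?_, ?_, ?_, -η, ?_, ?_, ?_⟩
  · intro s u v
    have h1 : q (A' s u) v = - q u (A' s v) := by
      have h3 := hA s (C.P hq u) (C.P hq v)
      rw [(C.isForm hq).symm, C.q_P, C.q_P] at h3
      rw [hA', hA', hq.symm, h3]
    simp only [LinearMap.sub_apply, map_sub, g1 s u v, h1]
    ring
  · intro s i hi
    rw [LinearMap.sub_apply, hA', C.P_eq_zero hq hi.2, map_zero]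
    exact Submodule.sub_mem _ (Submodule.zero_mem _) (g2 s i hi)
  · intro s v
    rw [LinearMap.sub_apply, map_sub, g3, sub_zero, hA', C.P_coe, C.P_coe]
  · rw [Matrix.transpose_neg, g4]
  · intro l
    rw [Matrix.neg_apply, Matrix.neg_apply, g6]
  · intro x
    have h1 := g5 x
    rw [hy0] at h1
    simp only [LinearMap.sub_apply, Finset.sum_sub_distrib]
    rw [h1, Matrix.neg_mulVec, map_neg]
    abel

end spo

section hess

variable {L V J : Type*} [Field L] [AddCommGroup V] [Module L V] [Fintype J] [DecidableEq J]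
  {arm : J → Fin 3}

/-- **The Hessian identity on the core, special form.** -/
theorem hess_s [FiniteDimensional L V] {q : V →ₗ[L] V →ₗ[L] L} (hq : IsForm q)
    (h2 : (2 : L) ≠ 0) {Ω : Matrix J J L} {c0 c1 : J} (hsp : SpO Ω c0 c1)
    {K : Set ((J → L) →ₗ[L] V)}
    (hK : KRel arm q Ω K) {T : (J → L) →ₗ[L] V} (hT : T ∈ K) (hTk : Kl Ω c0 c1 T)
    (hreal : ∀ (X : Fin 3 → End L V) (η : Matrix J J L), (∀ s, IsSk q (X s)) → ηᵀ = -η →
      (∀ l, η c0 l = η c1 l) →
      (∀ x, T (η *ᵥ x) + ∑ s, X s (T (Gm arm Ω s *ᵥ x)) = 0) →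
      ∃ c : Conn q, ∃ R ∈ K, (∀ j, c.δ (T (Pi.single j 1)) =
        X (arm j) (T (Pi.single j 1)) + R (Pi.single j 1)) ∧ ∀ i j, c.d (Ω i j) = η i j)
    (C : Core q (Sop arm q T Ω)) {R0 : (J → L) →ₗ[L] V} (hR0 : R0 ∈ K) {D0 : End L C.V1}
    (hD0 : ∀ a, C.res hq (opr q T (Gm arm Ω a) R0) = C.S1 hq a * D0) {D : End L C.V1}
    (hD : D ∈ Algebra.adjoin L {D0})
    {A B : Fin 3 → End L C.V1} (hA : ∀ s, IsSk C.q1 (A s))
    (hsA : ∑ s, (A s * C.S1 hq s - C.S1 hq s * A s) = 0)
    (hsB : ∑ s, (B s * C.S1 hq s - C.S1 hq s * B s) = 0) :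
    ∑ s, LinearMap.trace L C.V1 (B s * (D * (A s * C.S1 hq s - C.S1 hq s * A s) -
      (A s * C.S1 hq s - C.S1 hq s * A s) * D)) = 0 := by
  have hΩ := hsp.skew
  have hSA := Sop_SA arm hq T hΩ
  obtain ⟨X, hX, hXI, hXA, η, hη, hηs, hTη⟩ := exists_lift_s (arm := arm) hq h2 T hsp hTk C hA hsA
  obtain ⟨c, R, hR, hc1, hc2⟩ := hreal X η hX hη hηs hTη
  -- the operators
  have hcR := hK.compat hq hΩ hT hR
  have hc0 := hK.compat hq hΩ hT hR0
  obtain ⟨DR, hDRs, hDR1, hDR2⟩ := C.exists_D hq hSA hcR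
  obtain ⟨D0', hD0s, hD01, hD02⟩ := C.exists_D hq hSA hc0
  have h0 : D0' = D0 := C.D_unique hq hSA fun a => by rw [← hD01, hD0]
  subst h0
  have hcomm : D0' * DR = DR * D0' := C.D_comm hq hSA hc0 hcR
    (fun a b v => hK.comm hq hΩ hT hR0 hR a b v) hD01 hD02 hDR1 hDR2
  have hS0 : ∀ s, D0' * C.S1 hq s = C.S1 hq s * D0' := fun s => by rw [← hD02, ← hD01]
  -- extend to the algebra
  have hext : ∀ M : End L C.V1, D0' * M = M * D0' → D * M = M * D := by
    intro M hM
    have h1 : Algebra.adjoin L {D0'} ≤ Subalgebra.centralizer L {M} := by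
      rw [Algebra.adjoin_le_iff, Set.singleton_subset_iff]
      rw [SetLike.mem_coe, Subalgebra.mem_centralizer_iff]
      intro g hg
      rw [Set.mem_singleton_iff.mp hg]
      exact hM.symm
    exact ((Subalgebra.mem_centralizer_iff L).mp (h1 hD) M rfl).symm
  let M : Fin 3 → End L V := fun s => opr q R (Gm arm Ω s) T + opr q T (Gm arm Ω s) R
  have hM1 : ∀ s, M s = (2 : L) • opr q T (Gm arm Ω s) R := by
    intro s
    show opr q R (Gm arm Ω s) T + opr q T (Gm arm Ω s) R = _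
    rw [hK.swap hq hΩ hR hT, two_smul]
  have hM2 : ∀ s, C.res hq (M s) = (2 : L) • (C.S1 hq s * DR) := by
    intro s
    rw [hM1, C.res_smul, ← hDR1]
  obtain ⟨c1', -, hc1'⟩ := C.exists_conn' hq hSA hX hXI hXA c (M := M) (by
      intro s w hw
      rw [hM1]
      exact Submodule.smul_mem _ _ (C.W_le_perp hq (hcR.map_W C s hw)))
    (delta_Sop' arm T hΩ hX hη hTη c hc1 hc2)
  refine c1'.hess' hc1' (fun s => hext _ (hS0 s)) (fun s => ?_) hsB
  rw [hM2, mul_smul_comm, smul_mul_assoc]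
  congr 1
  refine hext _ ?_
  rw [← mul_assoc, hS0, mul_assoc, mul_assoc, hcomm]

/-- **One eigenvalue or the null case, special form.** -/
theorem one_eigenvalue_or_null_s [FiniteDimensional L V] [IsAlgClosed L]
    {q : V →ₗ[L] V →ₗ[L] L} (hq : IsForm q)
    (h2 : (2 : L) ≠ 0) {Ω : Matrix J J L} {c0 c1 : J} (hsp : SpO Ω c0 c1)
    {K : Set ((J → L) →ₗ[L] V)}
    (hK : KRel arm q Ω K) {T : (J → L) →ₗ[L] V} (hT : T ∈ K) (hTk : Kl Ω c0 c1 T)
    (hreal : ∀ (X : Fin 3 → End L V) (η : Matrix J J L), (∀ s, IsSk q (X s)) → ηᵀ = -η →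
      (∀ l, η c0 l = η c1 l) →
      (∀ x, T (η *ᵥ x) + ∑ s, X s (T (Gm arm Ω s *ᵥ x)) = 0) →
      ∃ c : H533.Conn q, ∃ R ∈ K, (∀ j, c.δ (T (Pi.single j 1)) =
        X (arm j) (T (Pi.single j 1)) + R (Pi.single j 1)) ∧ ∀ i j, c.d (Ω i j) = η i j)
    (hn : ∀ s, IsNilpotent (Sop arm q T Ω s)) (C : Core q (Sop arm q T Ω))
    {R0 : (J → L) →ₗ[L] V} (hR0 : R0 ∈ K) {D : End L C.V1}
    (hD1 : ∀ a, C.res hq (opr q T (Gm arm Ω a) R0) = C.S1 hq a * D)
    (hD2 : ∀ a, C.res hq (opr q T (Gm arm Ω a) R0) = D * C.S1 hq a) (hDs : IsSA C.q1 D) :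
    (∃ d : L, IsNilpotent (D - d • (1 : End L C.V1))) ∨ NullCore C hq := by
  have hΩ := hsp.skew
  rcases nilp_or_idem D with h | ⟨f, hf1, hf2, hf3⟩
  · exact Or.inl h
  right
  have hSA := Sop_SA arm hq T hΩ
  have hnd : (C.q1 : LinearMap.BilinForm L C.V1).Nondegenerate :=
    ⟨(C.isForm hq).nondeg, fun y h => (C.isForm hq).nondeg y fun x => by
      rw [(C.isForm hq).symm]; exact h x⟩
  have hcomm : ∀ s, D * C.S1 hq s = C.S1 hq s * D := fun s => by rw [← hD2, ← hD1]
  have hcommf : ∀ s, Polynomial.aeval D f * C.S1 hq s = C.S1 hq s * Polynomial.aeval D f := by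
    intro s
    have h3 : Commute (C.S1 hq s) D := (hcomm s).symm
    have h4 : Polynomial.aeval D f ∈ Algebra.adjoin L {D} :=
      Polynomial.aeval_mem_adjoin_singleton L D
    have h5 : Algebra.adjoin L {D} ≤ Subalgebra.centralizer L {C.S1 hq s} := by
      rw [Algebra.adjoin_le_iff, Set.singleton_subset_iff, SetLike.mem_coe,
        Subalgebra.mem_centralizer_iff]
      intro g hg
      rw [Set.mem_singleton_iff.mp hg]
      exact h3
    exact ((Subalgebra.mem_centralizer_iff L).mp (h5 h4) _ rfl).symm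
  have hsum : ∑ s, C.S1 hq s = 0 := by
    ext v
    have h3 : (∑ s, C.S1 hq s) v = C.P hq ((∑ s, Sop arm q T Ω s) v) := by
      rw [LinearMap.sum_apply, LinearMap.sum_apply, map_sum]
      rfl
    have h4 : ∑ s, Sop arm q T Ω s = 0 := by
      ext w
      have h5 := Gm_sum arm Ω
      have h6 : (∑ s, Sop arm q T Ω s) w = T ((∑ s, Gm arm Ω s) *ᵥ ad q T w) := by
        rw [LinearMap.sum_apply, Matrix.sum_mulVec, map_sum]
        rfl
      rw [h6, h5, Matrix.zero_mulVec, map_zero]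
      rfl
    rw [h3, h4]
    simp
  refine split_null (B := C.q1) (S := C.S1 hq) (P := Polynomial.aeval D f) hnd
    (C.isForm hq).symm h2 (fun s => C.S1_SA hq hSA s) (S1_nilp hq hSA C hn) hsum
    (C.iInf_ker hq hSA) hf1 (aeval_SA hDs f) (fun s => hcommf s) hf2 hf3 ?_
  intro A B hA hB
  exact hess_s hq h2 hsp hK hT hTk hreal C hR0 hD1 (Polynomial.aeval_mem_adjoin_singleton L D)
    hA.1 hA.2 hB.2

end hess

end Vale.Agent.P182.H588
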