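import Vale.Agent.P182.H388.SCount
import Vale.Agent.P182.H258.Prod1

/-!
# The choice of `S`, for special configurations
-/

namespace Vale.Agent.P182.H588.SP

open Module Matrix Vale.Agent.P182.H533 Vale.Agent.P182.H96 Vale.Agent.P182.H96.Cf
open Vale.Agent.P182.H258 (SkC kerV mem_kerV kerV_le exists_ct exists_lift M_zero)
open Vale.Agent.P182.H388.S

section prod

variable {L V J : Type*} [Field L] [AddCommGroup V] [Module L V] [Fintype J] [DecidableEq J]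
  {a : Cf L V J (Fin 3)} {c0 c1 : J} [FiniteDimensional L V]

omit [DecidableEq J] [FiniteDimensional L V] in
/-- `∑ u` of a family `c t` -/
theorem UM_ct (h : a.Good) {S : Submodule L V} {c : ↥S →ₗ[L] Dual L ↥S} {t z : J → V}
    (htS : ∀ l, t l ∈ S) (hz : ∀ l (s : ↥S), a.q (z l) s = c ⟨t l, htS l⟩ s)
    (hU : ∀ hU : UM a c0 c1 t ∈ S, c ⟨UM a c0 c1 t, hU⟩ = 0) : UM a c0 c1 z ∈ pp a.q S := by
  have hUS : UM a c0 c1 t ∈ S := by
    rw [UM_apply]
    exact S.sum_mem fun l _ => S.smul_mem _ (htS l)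
  intro s hs
  have h1 : a.q (UM a c0 c1 z) s = c ⟨UM a c0 c1 t, hUS⟩ ⟨s, hs⟩ := by
    have e1 : (⟨UM a c0 c1 t, hUS⟩ : ↥S) = ∑ l, uu a c0 c1 l • (⟨t l, htS l⟩ : ↥S) := by
      apply Subtype.ext
      rw [Submodule.coe_sum]
      rfl
    rw [e1, UM_apply, map_sum, map_sum, LinearMap.sum_apply, LinearMap.sum_apply]
    refine Finset.sum_congr rfl fun l _ => ?_
    rw [map_smul, map_smul, LinearMap.smul_apply, LinearMap.smul_apply, ← hz l ⟨s, hs⟩]
  rw [h.form.symm, h1, hU, LinearMap.zero_apply]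

omit [FiniteDimensional L V] in
theorem kapS_le_K (hs : Spc a c0 c1) (h : a.Good) (h2 : (2 : L) ≠ 0) :
    kapS a c0 c1 ≤ a.K := by
  rintro _ ⟨v, ⟨h0, h1⟩, rfl⟩
  exact kap_mem_K hs h h2 h0 h1

omit [FiniteDimensional L V] [DecidableEq J] [Fintype J] in
theorem kapS_le_Esh (hs : Spc a c0 c1) (D : Submodule L V) :
    kapS a c0 c1 ≤ Esh a c0 c1 D := by
  rintro _ ⟨v, ⟨h0, h1⟩, rfl⟩
  exact kap_mem_Esh hs h0 h1 D

omit [FiniteDimensional L V] in
theorem perp_K (h : a.Good) : a.perp a.K = a.E ⊤ := by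
  apply le_antisymm (po_le _)
  intro t ht
  refine mem_perp.mpr ⟨mem_E_top.mp ht, fun w hw => ?_⟩
  rw [h.M_skew, (mem_K'.mp hw).2 t (mem_E_top.mp ht), neg_zero]

omit [FiniteDimensional L V] in
/-- `κ` does not change the orthogonal -/
theorem perp_Ek (hs : Spc a c0 c1) (h : a.Good) (h2 : (2 : L) ≠ 0) (S : Submodule L V) :
    a.perp (a.E S ⊔ kapS a c0 c1) = a.perp (a.E S) := by
  have e1 : a.perp (a.E S ⊔ kapS a c0 c1) = a.perp (a.E S) ⊓ a.perp (kapS a c0 c1) := po_sup _ _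
  rw [e1]
  refine inf_eq_left.mpr ((po_le _).trans ?_)
  rw [← perp_K h]
  exact po_anti (kapS_le_K hs h h2)

omit [FiniteDimensional L V] in
/-- testing an element of `perp (Esh (R^⊥))` against one column -/
theorem om_mem_of_perp (hs : Spc a c0 c1) (h : a.Good) {R : Submodule L V} {t : J → V}
    (ht : t ∈ a.perp (Esh a c0 c1 (pp a.q R))) {k : J} (k0 : k ≠ c0) (k1 : k ≠ c1) :
    om a.Ω t k ∈ pp a.q (a.C k ⊓ pp a.q R) := by
  intro v hv
  have e2 := (mem_perp.mp ht).2 (Pi.single k v) ⟨fun j => by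
      by_cases hj : j = k
      · subst hj; rw [Pi.single_eq_same]; exact hv.1
      · rw [Pi.single_eq_of_ne hj]; exact zero_mem _, fun j _ _ => by
      by_cases hj : j = k
      · subst hj; rw [Pi.single_eq_same]; exact hv.2
      · rw [Pi.single_eq_of_ne hj]; exact zero_mem _, by
      rw [Pi.single_eq_of_ne k0.symm, Pi.single_eq_of_ne k1.symm, add_zero]
      exact zero_mem _⟩
  rw [M_apply, Finset.sum_eq_single k] at e2
  · rwa [Pi.single_eq_same] at e2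
  · intro j _ hj
    rw [Pi.single_eq_of_ne hj, map_zero, LinearMap.zero_apply]
  · intro h; exact absurd (Finset.mem_univ _) h

/-- testing an element of `perp (Esh (R^⊥))` against the two special columns -/
theorem UM_mem_of_perp (hs : Spc a c0 c1) (h : a.Good) (h2 : (2 : L) ≠ 0) {R : Submodule L V}
    {t : J → V} (ht : t ∈ a.perp (Esh a c0 c1 (pp a.q R))) :
    UM a c0 c1 t ∈ (a.C c0 ⊓ a.C c1) ⊔ R := by
  have htC := (mem_perp.mp ht).1
  have h3 : UM a c0 c1 t ∈ pp a.q ((a.C c0 ⊔ a.C c1) ⊓ pp a.q R) := by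
    rintro w ⟨hw, hwR⟩
    obtain ⟨u, hu, v, hv, rfl⟩ := Submodule.mem_sup.mp hw
    have e2 := (mem_perp.mp ht).2 (Pi.single c0 u + Pi.single c1 v) ⟨fun j => by
        rw [Pi.add_apply]
        by_cases hj : j = c0
        · subst hj; rw [Pi.single_eq_same, Pi.single_eq_of_ne hs.ne, add_zero]; exact hu
        · by_cases hj1 : j = c1
          · subst hj1; rw [Pi.single_eq_same, Pi.single_eq_of_ne hj, zero_add]; exact hv
          · rw [Pi.single_eq_of_ne hj, Pi.single_eq_of_ne hj1, add_zero]; exact zero_mem _,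
        fun j hj hj1 => by
          rw [Pi.add_apply, Pi.single_eq_of_ne hj, Pi.single_eq_of_ne hj1, add_zero]
          exact zero_mem _, by
        rw [Pi.add_apply, Pi.add_apply, Pi.single_eq_same, Pi.single_eq_same,
          Pi.single_eq_of_ne hs.ne, Pi.single_eq_of_ne hs.ne.symm, add_zero, zero_add]
        exact hwR⟩
    rw [M_apply, Finset.sum_eq_add c0 c1 hs.ne (fun k _ hk => by
        rw [Pi.add_apply, Pi.single_eq_of_ne hk.1, Pi.single_eq_of_ne hk.2, add_zero, map_zero,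
          LinearMap.zero_apply])
      (fun h => absurd (Finset.mem_univ _) h) (fun h => absurd (Finset.mem_univ _) h),
      Pi.add_apply, Pi.add_apply, Pi.single_eq_same, Pi.single_eq_same,
      Pi.single_eq_of_ne hs.ne, Pi.single_eq_of_ne hs.ne.symm, add_zero, zero_add,
      om_c0 hs h h2, om_c1 hs h h2, map_add, map_sub] at e2
    have e3 : a.q u (t c0) = 0 := by rw [h.form.symm]; exact h.iso c0 hu _ (htC c0)
    have e4 : a.q v (t c1) = 0 := by rw [h.form.symm]; exact h.iso c1 hv _ (htC c1)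
    rw [e3, e4, add_zero, sub_zero] at e2
    rw [map_add, LinearMap.add_apply]
    exact e2
  have e4 : (a.C c0 ⊔ a.C c1) ⊓ pp a.q R = pp a.q ((a.C c0 ⊓ a.C c1) ⊔ R) := by
    have e5 : a.C c0 ⊔ a.C c1 = pp a.q (a.C c0 ⊓ a.C c1) := by
      rw [← pp_pp h.form (a.C c0 ⊔ a.C c1)]
      congr 1
      ext v
      constructor
      · intro hv
        refine ⟨?_, ?_⟩
        · rw [← hs.lag0]; exact pp_anti le_sup_left hv
        · rw [← hs.lag1]; exact pp_anti le_sup_right hv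
      · rintro ⟨h4, h5⟩ w hw
        obtain ⟨u, hu, u', hu', rfl⟩ := Submodule.mem_sup.mp hw
        rw [map_add, LinearMap.add_apply, h.iso c0 h4 u hu, h.iso c1 h5 u' hu', add_zero]
    rw [e5]
    ext v
    constructor
    · rintro ⟨h3, h4⟩ u hu
      obtain ⟨u1, hu1, u2, hu2, rfl⟩ := Submodule.mem_sup.mp hu
      rw [map_add, LinearMap.add_apply, h3 u1 hu1, h4 u2 hu2, add_zero]
    · intro hv
      exact ⟨pp_anti le_sup_left hv, pp_anti le_sup_right hv⟩
  rw [e4, pp_pp h.form] at h3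
  exact h3

/-- elements of `Hom(N_s, S/R)` are killed by the forms which vanish on `R` -/
theorem ct_zero_s (hs : Spc a c0 c1) (h : a.Good) (h2 : (2 : L) ≠ 0) {R S : Submodule L V}
    (D : DatS a c0 c1 R S)
    {c : ↥S →ₗ[L] Dual L ↥S} (hc : SkC a S c) (hcR : ∀ u : ↥S, (u : V) ∈ R → c u = 0)
    {t : J → V} (ht : t ∈ a.E S) (ht' : t ∈ a.perp (Esh a c0 c1 (pp a.q R))) :
    t ∈ a.E (kerV c) ⊔ kapS a c0 c1 := by
  -- the case `∑ u t ∈ R`
  have key : ∀ t : J → V, t ∈ a.E S → t ∈ a.perp (Esh a c0 c1 (pp a.q R)) →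
      UM a c0 c1 t ∈ R → t ∈ a.E (kerV c) := by
    intro t ht ht' hU
    have h1 := mem_E.mp ht
    have hsup : ∀ k, om a.Ω t k ∈ pp a.q (a.C k) ⊔ R := by
      intro k
      by_cases k0 : k = c0
      · subst k0
        rw [om_c0 hs h h2, hs.lag0, add_comm]
        exact Submodule.add_mem_sup (h1 _).1 hU
      · by_cases k1 : k = c1
        · subst k1
          rw [om_c1 hs h h2, hs.lag1, sub_eq_add_neg, add_comm]
          exact Submodule.add_mem_sup (neg_mem (h1 _).1) hU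
        · have e1 := om_mem_of_perp hs h ht' k0 k1
          have e4 : a.C k ⊓ pp a.q R = pp a.q (pp a.q (a.C k) ⊔ R) := by
            ext v
            constructor
            · rintro ⟨h3, h4⟩ u hu
              obtain ⟨u1, hu1, u2, hu2, rfl⟩ := Submodule.mem_sup.mp hu
              rw [map_add, LinearMap.add_apply, h4 u2 hu2, add_zero, h.form.symm]
              exact hu1 v h3
            · intro hv
              refine ⟨?_, fun u hu => hv u (le_sup_right (a := pp a.q (a.C k)) hu)⟩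
              rw [← pp_pp h.form (a.C k)]
              exact fun u hu => hv u (le_sup_left (b := R) hu)
          rwa [e4, pp_pp h.form] at e1
    obtain ⟨z, hz, hz2⟩ := exists_ct h hc (t := t) (fun l => (h1 l).2) (fun l => (h1 l).1) (by
      intro k w hw hwC
      obtain ⟨u, hu, r, hr, hur⟩ := Submodule.mem_sup.mp (hsup k)
      have hrS : r ∈ S := D.le hr
      have huS : u ∈ S := by
        have e5 : u = om a.Ω t k - r := eq_sub_of_add_eq hur
        rw [e5]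
        exact S.sub_mem (om_mem (fun l => (h1 l).2) k) hrS
      have e6 : (⟨om a.Ω t k, om_mem (fun l => (h1 l).2) k⟩ : ↥S) = ⟨u, huS⟩ + ⟨r, hrS⟩ :=
        Subtype.ext hur.symm
      rw [e6, map_add, hcR ⟨r, hrS⟩ hr, add_zero, hc.sk, neg_eq_zero]
      exact hc.col k _ _ hwC hu)
    have h3 : z ∈ Esh a c0 c1 (pp a.q S) := D.ext ⟨E_le_Esh _ (mem_E.mpr fun l =>
      ⟨(mem_perp.mp hz).1 l, fun r hr => by
        rw [h.form.symm]
        have e1 := hz2 l ⟨r, D.le hr⟩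
        rw [hc.sk, hcR ⟨r, D.le hr⟩ hr, LinearMap.zero_apply, neg_zero] at e1
        exact e1⟩), hz⟩
    have h4 := Esh_to_E hs h h2 h3 (UM_ct h (fun l => (h1 l).2) hz2 fun _ => hcR _ hU)
    refine mem_E.mpr fun l => ⟨(h1 l).1, mem_kerV.mpr ⟨(h1 l).2, ?_⟩⟩
    refine LinearMap.ext fun s => ?_
    rw [← hz2 l s, LinearMap.zero_apply, h.form.symm]
    exact (mem_E.mp h4 l).2 s s.2
  -- reduction to this case
  have hUS : UM a c0 c1 t ∈ S := by
    rw [UM_apply]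
    exact S.sum_mem fun l _ => S.smul_mem _ (mem_E.mp ht l).2
  obtain ⟨w, ⟨hw0, hw1⟩, r, hr, hwr⟩ := Submodule.mem_sup.mp (UM_mem_of_perp hs h h2 ht')
  have hwS : w ∈ S := by
    have e1 : w = UM a c0 c1 t - r := eq_sub_of_add_eq hwr
    rw [e1]
    exact S.sub_mem hUS (D.le hr)
  have hh0 : (2 : L)⁻¹ • w ∈ a.C c0 := Submodule.smul_mem _ _ hw0
  have hh1 : (2 : L)⁻¹ • w ∈ a.C c1 := Submodule.smul_mem _ _ hw1
  have hκK := kap_mem_K hs h h2 hh0 hh1
  have hκE : kap (L := L) c0 c1 ((2 : L)⁻¹ • w) ∈ a.E S := by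
    refine mem_E.mpr fun l => ⟨(kap_mem_Esh hs hh0 hh1 ⊤).1 l, ?_⟩
    by_cases hl0 : l = c0
    · subst hl0; rw [kap_c0 hs.ne]; exact S.smul_mem _ hwS
    · by_cases hl1 : l = c1
      · subst hl1; rw [kap_c1 hs.ne]; exact S.neg_mem (S.smul_mem _ hwS)
      · rw [kap_ne hl0 hl1]; exact S.zero_mem
  have h5 := key (t + kap (L := L) c0 c1 ((2 : L)⁻¹ • w)) (add_mem ht hκE)
    (add_mem ht' (K_le_perp _ (Esh_le _) hκK)) (by
      rw [map_add, UM_kap hs h, smul_smul, neg_mul, mul_inv_cancel₀ h2, neg_smul, one_smul,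
        ← hwr]
      have e1 : w + r + -w = r := by abel
      rw [e1]
      exact hr)
  have h7 : kap (L := L) c0 c1 ((2 : L)⁻¹ • w) ∈ kapS a c0 c1 := ⟨_, ⟨hh0, hh1⟩, rfl⟩
  have h6 := Submodule.sub_mem (a.E (kerV c) ⊔ kapS a c0 c1) (Submodule.mem_sup_left h5)
    (Submodule.mem_sup_right h7)
  rwa [add_sub_cancel_right] at h6

omit [Fintype J] [DecidableEq J] in
/-- `θ(S/Z) ≤ 0`, one column -/
theorem th_kerV (h : a.Good) {S : Submodule L V} {c : ↥S →ₗ[L] Dual L ↥S} (hc : SkC a S c)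
    (l : J) : finrank L (a.C l ⊓ S : Submodule L V) + finrank L (a.C l ⊓ pp a.q S : Submodule L V) ≤
      finrank L (a.C l ⊓ kerV c : Submodule L V) +
        finrank L (a.C l ⊓ pp a.q (kerV c) : Submodule L V) := by
  -- the two maps to `Dual S`
  let Φ : ↥(a.C l ⊓ S : Submodule L V) →ₗ[L] Dual L ↥S :=
    c ∘ₗ Submodule.inclusion (inf_le_right : a.C l ⊓ S ≤ S)
  let Ψ : ↥(a.C l ⊓ pp a.q (kerV c) : Submodule L V) →ₗ[L] Dual L ↥S :=
    { toFun := fun z => a.q z ∘ₗ S.subtype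
      map_add' := fun a b => by ext v; simp
      map_smul' := fun c a => by ext v; simp }
  have hle : LinearMap.range Φ ≤ LinearMap.range Ψ := by
    rintro _ ⟨u, rfl⟩
    obtain ⟨z, hz, hz2⟩ := exists_lift h.form S (a.C l) (Φ u) fun w hw =>
      hc.col l _ w u.2.1 hw
    refine ⟨⟨z, hz, fun w hw => ?_⟩, LinearMap.ext fun s => hz2 s⟩
    obtain ⟨hw1, hw2⟩ := mem_kerV.mp hw
    rw [h.form.symm]
    refine (hz2 ⟨w, hw1⟩).trans ?_
    show c _ _ = 0
    rw [hc.sk, hw2, LinearMap.zero_apply, neg_zero]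
  have hkΦ : (LinearMap.ker Φ).map (a.C l ⊓ S).subtype = a.C l ⊓ kerV c := by
    ext v
    constructor
    · rintro ⟨u, hu, rfl⟩
      exact ⟨u.2.1, mem_kerV.mpr ⟨u.2.2, hu⟩⟩
    · rintro ⟨h1, h2⟩
      obtain ⟨h3, h4⟩ := mem_kerV.mp h2
      exact ⟨⟨v, h1, h3⟩, h4, rfl⟩
  have hkΨ : (LinearMap.ker Ψ).map (a.C l ⊓ pp a.q (kerV c)).subtype = a.C l ⊓ pp a.q S := by
    ext v
    constructor
    · rintro ⟨u, hu, rfl⟩
      refine ⟨u.2.1, fun s hs => ?_⟩
      rw [h.form.symm]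
      exact LinearMap.congr_fun hu ⟨s, hs⟩
    · rintro ⟨h1, h2⟩
      refine ⟨⟨v, h1, pp_anti (kerV_le c) h2⟩, LinearMap.ext fun s => ?_, rfl⟩
      show a.q v s = 0
      rw [h.form.symm]
      exact h2 s s.2
  have e1 := LinearMap.finrank_range_add_finrank_ker Φ
  have e2 := LinearMap.finrank_range_add_finrank_ker Ψ
  rw [← Submodule.finrank_map_subtype_eq, hkΦ] at e1
  rw [← Submodule.finrank_map_subtype_eq, hkΨ] at e2
  have e3 := Submodule.finrank_mono hle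
  omega

/-- a Lagrangian column -/
theorem th_lag (h : a.Good) {c : J} (hc : pp a.q (a.C c) = a.C c) (S : Submodule L V) :
    (finrank L (a.C c ⊓ S : Submodule L V) : ℤ) + finrank L (a.C c ⊓ pp a.q S : Submodule L V) -
      finrank L (a.C c) = 2 * finrank L (S ⊓ a.C c : Submodule L V) - finrank L S := by
  have e0 : pp a.q (a.C c ⊔ S) = a.C c ⊓ pp a.q S := by
    ext v
    constructor
    · intro hv
      refine ⟨?_, pp_anti le_sup_right hv⟩
      rw [← hc]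
      exact pp_anti le_sup_left hv
    · rintro ⟨h3, h4⟩ w hw
      obtain ⟨u, hu, u', hu', rfl⟩ := Submodule.mem_sup.mp hw
      rw [← hc] at h3
      rw [map_add, LinearMap.add_apply, h3 u hu, h4 u' hu', add_zero]
  have e1 := H887.finrank_perp h.form (a.C c ⊔ S)
  rw [← pp_eq h.form, e0] at e1
  have e2 := H887.finrank_perp h.form (a.C c)
  rw [← pp_eq h.form, hc] at e2
  have e3 := Submodule.finrank_sup_add_finrank_inf_eq (a.C c) S
  rw [inf_comm S]
  omega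

theorem thS_kerV (hs : Spc a c0 c1) (h : a.Good) {S : Submodule L V}
    {c : ↥S →ₗ[L] Dual L ↥S} (hc : SkC a S c) :
    thS a c0 c1 S ≤ thS a c0 c1 (kerV c) := by
  have key : ∀ T : Submodule L V, 2 * thS a c0 c1 T =
      (∑ l ∈ (Finset.univ.erase c0).erase c1, 2 * ((finrank L (a.C l ⊓ T : Submodule L V) : ℤ) +
        finrank L (a.C l ⊓ pp a.q T : Submodule L V) - finrank L (a.C l))) +
      ((finrank L (a.C c0 ⊓ T : Submodule L V) : ℤ) +
        finrank L (a.C c0 ⊓ pp a.q T : Submodule L V) - finrank L (a.C c0)) +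
      ((finrank L (a.C c1 ⊓ T : Submodule L V) : ℤ) +
        finrank L (a.C c1 ⊓ pp a.q T : Submodule L V) - finrank L (a.C c1)) := by
    intro T
    have e0 := th_lag h hs.lag0 T
    have e1 := th_lag h hs.lag1 T
    rw [thS, Cf.θ, ← Finset.add_sum_erase _ _ (Finset.mem_univ c0),
      ← Finset.add_sum_erase _ _ (Finset.mem_erase.mpr ⟨hs.ne.symm, Finset.mem_univ c1⟩),
      ← Finset.mul_sum, e0, e1]
    ring
  have h1 := th_kerV h hc c0
  have h2 := th_kerV h hc c1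
  have h3 : ∑ l ∈ (Finset.univ.erase c0).erase c1, 2 * ((finrank L (a.C l ⊓ S : Submodule L V) : ℤ) +
        finrank L (a.C l ⊓ pp a.q S : Submodule L V) - finrank L (a.C l)) ≤
      ∑ l ∈ (Finset.univ.erase c0).erase c1, 2 * ((finrank L (a.C l ⊓ kerV c : Submodule L V) : ℤ) +
        finrank L (a.C l ⊓ pp a.q (kerV c) : Submodule L V) - finrank L (a.C l)) :=
    Finset.sum_le_sum fun l _ => by
      have := th_kerV h hc l
      omega
  have k1 := key S
  have k2 := key (kerV c)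
  omega

/-- the double orthogonal computation -/
theorem dim_X_s (hs : Spc a c0 c1) (h : a.Good) (h2 : (2 : L) ≠ 0) {R Z : Submodule L V}
    (hK : a.K ≤ Esh a c0 c1 (pp a.q R)) :
    finrank L (Esh a c0 c1 (pp a.q R) ⊓ a.perp (a.E Z) : Submodule L (J → V)) +
      finrank L (a.E Z ⊔ kapS a c0 c1 : Submodule L (J → V)) +
      finrank L (a.perp (Esh a c0 c1 (pp a.q R))) = finrank L (a.E ⊤) + finrank L a.K +
        finrank L ((a.E Z ⊔ kapS a c0 c1) ⊓ a.perp (Esh a c0 c1 (pp a.q R)) :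
          Submodule L (J → V)) := by
  set P := a.perp (Esh a c0 c1 (pp a.q R)) with hP
  have hPE : P ≤ a.E ⊤ := po_le _
  have hKP : a.K ≤ P := K_le_perp _ (Esh_le _)
  have hEk : a.E Z ⊔ kapS a c0 c1 ≤ a.E ⊤ :=
    sup_le (E_le_top _) ((kapS_le_K hs h h2).trans (po_le _))
  have e1 : a.perp (a.E Z ⊔ kapS a c0 c1 ⊔ P) =
      Esh a c0 c1 (pp a.q R) ⊓ a.perp (a.E Z) := by
    have e2 : a.perp (a.E Z ⊔ kapS a c0 c1 ⊔ P) = a.perp (a.E Z ⊔ kapS a c0 c1) ⊓ a.perp P :=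
      po_sup _ _
    have e3 : a.perp P = Esh a c0 c1 (pp a.q R) ⊔ a.K := po_po h.M_skew (Esh_le _)
    rw [e2, e3, sup_eq_left.mpr hK, inf_comm, perp_Ek hs h h2]
  have e4 := finrank_po (M := a.M) (E := a.E ⊤) h.M_skew
    (sup_le hEk hPE : a.E Z ⊔ kapS a c0 c1 ⊔ P ≤ a.E ⊤)
  have e5 : (a.E Z ⊔ kapS a c0 c1 ⊔ P) ⊓ po a.M (a.E ⊤) (a.E ⊤) = a.K :=
    inf_eq_right.mpr (hKP.trans le_sup_right)
  have e6 : po a.M (a.E ⊤) (a.E Z ⊔ kapS a c0 c1 ⊔ P) =
      Esh a c0 c1 (pp a.q R) ⊓ a.perp (a.E Z) := e1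
  rw [e5, e6] at e4
  have e7 := Submodule.finrank_sup_add_finrank_inf_eq (a.E Z ⊔ kapS a c0 c1) P
  omega

/-- the kernel of a form which vanishes on `R` -/
theorem dat_kerV_s (hs : Spc a c0 c1) (h : a.Good) (h2 : (2 : L) ≠ 0) {R S : Submodule L V}
    (D : DatS a c0 c1 R S) (hK : a.K ≤ Esh a c0 c1 (pp a.q R)) {c : ↥S →ₗ[L] Dual L ↥S}
    (hc : SkC a S c) (hcR : ∀ u : ↥S, (u : V) ∈ R → c u = 0) :
    DatS a c0 c1 R (kerV c) ∧ thS a c0 c1 (kerV c) = thS a c0 c1 S := by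
  have hZS := kerV_le c
  have hRZ : R ≤ kerV c := fun r hr => mem_kerV.mpr ⟨D.le hr, hcR ⟨r, D.le hr⟩ hr⟩
  have hZ : kerV c ≤ pp a.q (kerV c) := hZS.trans (D.iso.trans (pp_anti hZS))
  have hKP : kapS a c0 c1 ≤ a.perp (Esh a c0 c1 (pp a.q R)) :=
    (kapS_le_K hs h h2).trans (K_le_perp _ (Esh_le _))
  have e1 := dim_X_s hs h h2 hK (Z := S)
  have e2 := dim_X_s hs h h2 hK (Z := kerV c)
  have e3 : (a.E S ⊔ kapS a c0 c1) ⊓ a.perp (Esh a c0 c1 (pp a.q R)) =
      (a.E (kerV c) ⊔ kapS a c0 c1) ⊓ a.perp (Esh a c0 c1 (pp a.q R)) := by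
    apply le_antisymm
    · rintro t ⟨h1, h3⟩
      refine ⟨?_, h3⟩
      obtain ⟨e, he, k, hk, rfl⟩ := Submodule.mem_sup.mp h1
      have he' : e ∈ a.perp (Esh a c0 c1 (pp a.q R)) := by
        have := sub_mem h3 (hKP hk)
        rwa [add_sub_cancel_right] at this
      exact add_mem (ct_zero_s hs h h2 D hc hcR he he') (Submodule.mem_sup_right hk)
    · exact inf_le_inf_right _ (sup_le_sup_right (E_mono hZS) _)
  rw [e3] at e1
  have hX : ∀ {W : Submodule L V}, R ≤ W →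
      Esh a c0 c1 (pp a.q W) ≤ Esh a c0 c1 (pp a.q R) ⊓ a.perp (a.E W) := fun {W} hRW =>
    le_inf (Esh_mono (pp_anti hRW)) (Esh_le_perp_s hs h h2)
  have e4 : Esh a c0 c1 (pp a.q R) ⊓ a.perp (a.E S) = Esh a c0 c1 (pp a.q S) :=
    le_antisymm D.ext (hX D.le)
  rw [e4] at e1
  have e5 := Submodule.finrank_mono (hX hRZ)
  have e6 := thS_kerV hs h hc
  rw [thS_eq hs h, thS_eq hs h] at e6
  have e7 : finrank L (Esh a c0 c1 (pp a.q R) ⊓ a.perp (a.E (kerV c)) : Submodule L (J → V)) ≤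
      finrank L (Esh a c0 c1 (pp a.q (kerV c))) := by omega
  have e8 := Submodule.eq_of_le_of_finrank_le (hX hRZ) e7
  refine ⟨⟨hRZ, hZ, e8.ge⟩, ?_⟩
  rw [thS_eq hs h, thS_eq hs h]
  rw [← e8] at e2
  omega

/-- `S` can be chosen without skew forms vanishing on `R` -/
theorem exists_min_s (hs : Spc a c0 c1) (h : a.Good) (h2 : (2 : L) ≠ 0) {R S₀ : Submodule L V}
    (D : DatS a c0 c1 R S₀) (hK : a.K ≤ Esh a c0 c1 (pp a.q R)) :
    ∃ S ≤ S₀, DatS a c0 c1 R S ∧ thS a c0 c1 S = thS a c0 c1 S₀ ∧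
      ∀ c : ↥S →ₗ[L] Dual L ↥S, SkC a S c → (∀ u : ↥S, (u : V) ∈ R → c u = 0) → c = 0 := by
  have key : ∀ (n : ℕ) (S : Submodule L V), finrank L S ≤ n → DatS a c0 c1 R S →
      ∃ S' ≤ S, DatS a c0 c1 R S' ∧ thS a c0 c1 S' = thS a c0 c1 S ∧
        ∀ c : ↥S' →ₗ[L] Dual L ↥S', SkC a S' c → (∀ u : ↥S', (u : V) ∈ R → c u = 0) → c = 0 := by
    intro n
    induction n with
    | zero =>
      intro S hn D
      refine ⟨S, le_rfl, D, rfl, fun c _ _ => ?_⟩
      have h0 : S = ⊥ := Submodule.finrank_eq_zero.mp (Nat.le_zero.mp hn)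
      subst h0
      refine LinearMap.ext fun u => ?_
      have : u = 0 := Subsingleton.elim _ _
      rw [this, map_zero, map_zero]
    | succ n ih =>
      intro S hn D
      by_cases hall : ∀ c : ↥S →ₗ[L] Dual L ↥S, SkC a S c →
          (∀ u : ↥S, (u : V) ∈ R → c u = 0) → c = 0
      · exact ⟨S, le_rfl, D, rfl, hall⟩
      · push Not at hall
        obtain ⟨c, hc, hcR, hc0⟩ := hall
        obtain ⟨D', hθ⟩ := dat_kerV_s hs h h2 D hK hc hcR
        have hlt : kerV c < S := by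
          refine lt_of_le_of_ne (kerV_le c) fun heq => hc0 (LinearMap.ext fun u => ?_)
          have h1 : (u : V) ∈ kerV c := by rw [heq]; exact u.2
          exact (mem_kerV.mp h1).2
        obtain ⟨S', h1, h3, h4, h5⟩ := ih (kerV c) (by
          have := Submodule.finrank_lt_finrank_of_lt hlt
          omega) D'
        exact ⟨S', h1.trans hlt.le, h3, h4.trans hθ, h5⟩
  exact key _ S₀ le_rfl D

/-- the radical stays small -/
theorem rad_small_s (hs : Spc a c0 c1) (h : a.Good) (h2 : (2 : L) ≠ 0)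
    {R S S₀ : Submodule L V} (D₀ : DatS a c0 c1 R S₀) (D : DatS a c0 c1 R S)
    (hle : S ≤ S₀) (hθ : thS a c0 c1 S = thS a c0 c1 S₀)
    (hK : a.K ≤ Esh a c0 c1 (pp a.q R)) {m : ℕ}
    (hrad : finrank L (Esh a c0 c1 (pp a.q S₀) ⊓ a.perp (Esh a c0 c1 (pp a.q S₀)) :
      Submodule L (J → V)) ≤ m + finrank L (a.E S₀ ⊔ kapS a c0 c1 : Submodule L (J → V))) :
    finrank L (Esh a c0 c1 (pp a.q S) ⊓ a.perp (Esh a c0 c1 (pp a.q S)) :
      Submodule L (J → V)) ≤ m + finrank L (a.E S ⊔ kapS a c0 c1 : Submodule L (J → V)) := by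
  have hKS := ds_K_le D hK
  have hKS₀ := ds_K_le D₀ hK
  have D1 : DatS a c0 c1 S S₀ :=
    ⟨hle, D₀.iso, (inf_le_inf_right _ (Esh_mono (pp_anti D.le))).trans D₀.ext⟩
  have hκP : ∀ T : Submodule L V, kapS a c0 c1 ≤ a.perp (Esh a c0 c1 (pp a.q T)) :=
    fun T => (kapS_le_K hs h h2).trans (K_le_perp _ (Esh_le _))
  have hEP : ∀ T : Submodule L V, a.E T ⊔ kapS a c0 c1 ≤ a.perp (Esh a c0 c1 (pp a.q T)) :=
    fun T => sup_le (E_le_perp_s hs h h2) (hκP T)
  have h6 : a.perp (Esh a c0 c1 (pp a.q S₀)) =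
      (a.E S₀ ⊔ kapS a c0 c1) ⊔ a.perp (Esh a c0 c1 (pp a.q S)) := by
    rw [ds_h6 hs h h2 D1 hKS, sup_assoc, sup_eq_right.mpr (hκP S)]
  have e1 := finrank_po (M := a.M) (E := a.E ⊤) h.M_skew
    (Esh_le (a := a) (c0 := c0) (c1 := c1) (pp a.q S))
  have e2 := finrank_po (M := a.M) (E := a.E ⊤) h.M_skew
    (Esh_le (a := a) (c0 := c0) (c1 := c1) (pp a.q S₀))
  have e3 : Esh a c0 c1 (pp a.q S) ⊓ po a.M (a.E ⊤) (a.E ⊤) = a.K := inf_eq_right.mpr hKS
  have e4 : Esh a c0 c1 (pp a.q S₀) ⊓ po a.M (a.E ⊤) (a.E ⊤) = a.K := inf_eq_right.mpr hKS₀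
  rw [e3] at e1
  rw [e4] at e2
  have e5 := Submodule.finrank_sup_add_finrank_inf_eq (a.E S₀ ⊔ kapS a c0 c1)
    (a.perp (Esh a c0 c1 (pp a.q S)))
  rw [← h6] at e5
  have e1' : finrank L (Esh a c0 c1 (pp a.q S)) + finrank L (a.perp (Esh a c0 c1 (pp a.q S))) =
      finrank L (a.E ⊤) + finrank L a.K := e1
  have e2' : finrank L (Esh a c0 c1 (pp a.q S₀)) +
      finrank L (a.perp (Esh a c0 c1 (pp a.q S₀))) =
      finrank L (a.E ⊤) + finrank L a.K := e2
  rw [thS_eq hs h, thS_eq hs h] at hθ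
  have e6 : a.E S ⊔ kapS a c0 c1 ≤
      (a.E S₀ ⊔ kapS a c0 c1) ⊓ a.perp (Esh a c0 c1 (pp a.q S)) :=
    le_inf (sup_le_sup_right (E_mono hle) _) (hEP S)
  have e7 : finrank L ((a.E S₀ ⊔ kapS a c0 c1) ⊓ a.perp (Esh a c0 c1 (pp a.q S)) :
      Submodule L (J → V)) ≤ finrank L (a.E S ⊔ kapS a c0 c1 : Submodule L (J → V)) := by omega
  have e8 := Submodule.eq_of_le_of_finrank_le e6 e7
  set X := Esh a c0 c1 (pp a.q S) ⊓ a.perp (Esh a c0 c1 (pp a.q S)) with hX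
  have hES₀ : a.E S₀ ≤ Esh a c0 c1 (pp a.q S) :=
    (E_mono (D₀.iso.trans (pp_anti hle))).trans (E_le_Esh _)
  have hXX : X ≤ Esh a c0 c1 (pp a.q S₀) ⊓ a.perp (Esh a c0 c1 (pp a.q S₀)) := by
    rintro t ⟨h1, h2⟩
    exact ⟨D1.ext ⟨h1, po_anti hES₀ h2⟩, po_anti (Esh_mono (pp_anti hle)) h2⟩
  have e9 : X ⊓ (a.E S₀ ⊔ kapS a c0 c1) = a.E S ⊔ kapS a c0 c1 := by
    apply le_antisymm
    · rintro t ⟨⟨-, h2⟩, h3⟩
      rw [e8]
      exact ⟨h3, h2⟩
    · exact le_inf (le_inf (sup_le ((E_mono D.iso).trans (E_le_Esh _)) (kapS_le_Esh hs _)) (hEP S))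
        (sup_le_sup_right (E_mono hle) _)
  have e10 := Submodule.finrank_sup_add_finrank_inf_eq X (a.E S₀ ⊔ kapS a c0 c1)
  rw [e9] at e10
  have e11 : finrank L (X ⊔ (a.E S₀ ⊔ kapS a c0 c1) : Submodule L (J → V)) ≤
      finrank L (Esh a c0 c1 (pp a.q S₀) ⊓ a.perp (Esh a c0 c1 (pp a.q S₀)) :
        Submodule L (J → V)) :=
    Submodule.finrank_mono (sup_le hXX (le_inf
      (sup_le ((E_mono D₀.iso).trans (E_le_Esh _)) (kapS_le_Esh hs _)) (hEP S₀)))
  omega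

end prod

end Vale.Agent.P182.H588.SP
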