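import Vale.Agent.P182.H588.SProd1
import Vale.Agent.P182.H258.Prod2

/-!
# `Hom(N, S^*) = C x`, for special configurations
-/

namespace Vale.Agent.P182.H588.SP

open Module Matrix Vale.Agent.P182.H533 Vale.Agent.P182.H96 Vale.Agent.P182.H96.Cf
open Vale.Agent.P182.H258 (SkC kerV mem_kerV kerV_le exists_ct exists_lift M_zero epsC
  epsC_apply epsC_indep epsC_skew epsC_flag)
open Vale.Agent.P182.H388.S

section prod

variable {L V J : Type*} [Field L] [AddCommGroup V] [Module L V] [Fintype J] [DecidableEq J]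
  {a : Cf L V J (Fin 3)} {c0 c1 : J} [FiniteDimensional L V]

omit [FiniteDimensional L V] [DecidableEq J] in
theorem UM_mem_of {t : J → V} {S : Submodule L V} (ht : ∀ l, t l ∈ S) :
    UM a c0 c1 t ∈ S := by
  rw [UM_apply]
  exact S.sum_mem fun l _ => S.smul_mem _ (ht l)

omit [FiniteDimensional L V] [DecidableEq J] in
/-- `κ` of a vector of `S` is in `E S` -/
theorem kap_mem_E (hs : Spc a c0 c1) {S : Submodule L V} {v : V} (h0 : v ∈ a.C c0)
    (h1 : v ∈ a.C c1) (hv : v ∈ S) : kap (L := L) c0 c1 v ∈ a.E S := by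
  refine mem_E.mpr fun l => ⟨(kap_mem_Esh hs h0 h1 ⊤).1 l, ?_⟩
  by_cases hl0 : l = c0
  · subst hl0; rw [kap_c0 hs.ne]; exact hv
  · by_cases hl1 : l = c1
    · subst hl1; rw [kap_c1 hs.ne]; exact S.neg_mem hv
    · rw [kap_ne hl0 hl1]; exact S.zero_mem

omit [FiniteDimensional L V] [DecidableEq J] in
/-- special elements of `E S ⊔ κ` are in `E S` -/
theorem mem_E_of_sup (hs : Spc a c0 c1) (h : a.Good) (h2 : (2 : L) ≠ 0) {S : Submodule L V}
    {y : J → V} (hy : UM a c0 c1 y ∈ S) (hyE : y ∈ a.E S ⊔ kapS a c0 c1) : y ∈ a.E S := by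
  obtain ⟨e, he, k, hk, rfl⟩ := Submodule.mem_sup.mp hyE
  obtain ⟨v, ⟨h0, h1⟩, rfl⟩ := hk
  have e1 : UM a c0 c1 e ∈ S := UM_mem_of fun l => (mem_E.mp he l).2
  have e2 : (2 : L) • v ∈ S := by
    rw [map_add, UM_kap hs h] at hy
    have := S.sub_mem e1 hy
    convert this using 1
    rw [neg_smul]
    abel
  have hv : v ∈ S := by
    have := S.smul_mem (2 : L)⁻¹ e2
    rwa [smul_smul, inv_mul_cancel₀ h2, one_smul] at this
  exact add_mem he (kap_mem_E hs h0 h1 hv)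

/-- the radical of `Esh (S^⊥)` is `E_S + K` -/
theorem rad_eq_s (hs : Spc a c0 c1) (h : a.Good) (h2 : (2 : L) ≠ 0) {S : Submodule L V}
    (hS : S ≤ pp a.q S) (hKS : a.K ≤ Esh a c0 c1 (pp a.q S)) {y : J → V}
    (hy : y ∈ Ks a c0 c1) (hyS : y ∉ a.E S)
    (hrad : finrank L (Esh a c0 c1 (pp a.q S) ⊓ a.perp (Esh a c0 c1 (pp a.q S)) :
      Submodule L (J → V)) ≤ 1 + finrank L (a.E S ⊔ kapS a c0 c1 : Submodule L (J → V))) :
    Esh a c0 c1 (pp a.q S) ⊓ a.perp (Esh a c0 c1 (pp a.q S)) = a.E S ⊔ a.K := by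
  have h1 : a.E S ⊔ a.K ≤ Esh a c0 c1 (pp a.q S) ⊓ a.perp (Esh a c0 c1 (pp a.q S)) :=
    sup_le (le_inf ((E_mono hS).trans (E_le_Esh _)) (E_le_perp_s hs h h2))
      (le_inf hKS (K_le_perp _ (Esh_le _)))
  symm
  apply Submodule.eq_of_le_of_finrank_le h1
  have h3 : a.E S ⊔ kapS a c0 c1 < a.E S ⊔ a.K := by
    refine lt_of_le_of_ne (sup_le_sup_left (kapS_le_K hs h h2) _) fun heq => hyS ?_
    have h4 : y ∈ a.E S ⊔ kapS a c0 c1 := by
      rw [heq]
      exact (le_sup_right : a.K ≤ a.E S ⊔ a.K) (Ks_le hy)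
    exact mem_E_of_sup hs h h2 (by rw [(mem_Ks.mp hy).2]; exact S.zero_mem) h4
  have h5 := Submodule.finrank_lt_finrank_of_lt h3
  omega

/-- `Hom(N, V/S) → Hom(N, S^*)` is onto -/
theorem perp_ES_s (h : a.Good) {S : Submodule L V}
    (hKS : a.K ≤ Esh a c0 c1 (pp a.q S))
    (hrad : Esh a c0 c1 (pp a.q S) ⊓ a.perp (Esh a c0 c1 (pp a.q S)) = a.E S ⊔ a.K) :
    a.perp (a.E S) = Esh a c0 c1 (pp a.q S) ⊔ a.perp (Esh a c0 c1 (pp a.q S)) := by
  set P := a.perp (Esh a c0 c1 (pp a.q S)) with hP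
  have hPE : P ≤ a.E ⊤ := po_le _
  have e1 : a.perp (Esh a c0 c1 (pp a.q S) ⊔ P) = a.E S ⊔ a.K := by
    have e2 : a.perp (Esh a c0 c1 (pp a.q S) ⊔ P) =
        a.perp (Esh a c0 c1 (pp a.q S)) ⊓ a.perp P := po_sup _ _
    have e3 : a.perp P = Esh a c0 c1 (pp a.q S) ⊔ a.K := po_po h.M_skew (Esh_le _)
    rw [e2, e3, sup_eq_left.mpr hKS, inf_comm]
    exact hrad
  have e4 : a.perp (a.perp (Esh a c0 c1 (pp a.q S) ⊔ P)) = Esh a c0 c1 (pp a.q S) ⊔ P ⊔ a.K :=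
    po_po h.M_skew (sup_le (Esh_le _) hPE)
  have e5 : a.perp (a.E S ⊔ a.K) = a.perp (a.E S) := by
    have e6 : a.perp (a.E S ⊔ a.K) = a.perp (a.E S) ⊓ a.perp a.K := po_sup _ _
    rw [e6, perp_K h]
    exact inf_eq_left.mpr (po_le _)
  rw [e1, e5] at e4
  rw [e4]
  exact sup_eq_left.mpr (hKS.trans le_sup_left)

omit [FiniteDimensional L V] [DecidableEq J] in
/-- `∑ u` of `ε x` -/
theorem UM_eps {x : J → V} (hx : UM a c0 c1 x = 0) {S : Submodule L V} (hxS : ∀ l, x l ∈ S)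
    {b : Fin 3 → End L V} (hb : a.Eps S b) :
    UM a c0 c1 (fun l => b (a.arm l) (x l)) ∈ S := by
  have e1 : UM a c0 c1 (fun l => b (a.arm l) (x l)) =
      ∑ l, uu a c0 c1 l • (b (a.arm l) (x l) - b 0 (x l)) := by
    have e2 : b 0 (UM a c0 c1 x) = 0 := by rw [hx, map_zero]
    rw [UM_apply, map_sum] at e2
    rw [UM_apply]
    have e3 : ∑ l, uu a c0 c1 l • (b (a.arm l) (x l) - b 0 (x l)) =
        ∑ l, uu a c0 c1 l • b (a.arm l) (x l) - ∑ l, b 0 (uu a c0 c1 l • x l) := by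
      rw [← Finset.sum_sub_distrib]
      exact Finset.sum_congr rfl fun l _ => by rw [smul_sub, map_smul]
    rw [e3, e2, sub_zero]
  rw [e1]
  exact S.sum_mem fun l _ => S.smul_mem _ (hb.comp _ _ _ (hxS l))

/-- every special element of `Hom(N, S^*)` is of the form `ε x` -/
theorem exists_eps_s (hs : Spc a c0 c1) (h : a.Good) (h2 : (2 : L) ≠ 0)
    (hV : SVers a c0 c1) (hN : N1s a c0 c1) {x : J → V} (hx : x ∈ Ks a c0 c1)
    {S : Submodule L V} (D : DatS a c0 c1 (Submodule.span L (Set.range x)) S)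
    (hKS : a.K ≤ Esh a c0 c1 (pp a.q S))
    (hrad : Esh a c0 c1 (pp a.q S) ⊓ a.perp (Esh a c0 c1 (pp a.q S)) = a.E S ⊔ a.K)
    {z : J → V} (hz : z ∈ a.perp (a.E S)) (hU : UM a c0 c1 z ∈ pp a.q S) :
    ∃ b, a.Eps S b ∧ ∀ l, z l - b (a.arm l) (x l) ∈ pp a.q S := by
  have hxS : ∀ l, x l ∈ S := fun l => D.le (Submodule.subset_span ⟨l, rfl⟩)
  rw [perp_ES_s h hKS hrad] at hz
  obtain ⟨e, he, f, hf, rfl⟩ := Submodule.mem_sup.mp hz
  obtain ⟨g, hg, t, ⟨b, hb, ht⟩, rfl⟩ := Submodule.mem_sup.mp (F4S_s hs h h2 hV hN hx D hf)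
  refine ⟨b, hb, fun l => ?_⟩
  obtain ⟨k, hk, s, hs', rfl⟩ := Submodule.mem_sup.mp hg
  have h3 : e + (k + s) ∈ Esh a c0 c1 (pp a.q S) :=
    add_mem he (add_mem (hKS hk) (E_le_Esh _ (E_mono D.iso hs')))
  have ht' : t = fun l => b (a.arm l) (x l) := funext ht
  have h4 : UM a c0 c1 (e + (k + s)) ∈ pp a.q S := by
    have h5 : UM a c0 c1 t ∈ pp a.q S := by
      rw [ht']
      exact D.iso (UM_eps (mem_Ks.mp hx).2 hxS hb)
    have h6 := (pp a.q S).sub_mem hU h5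
    rw [← map_sub] at h6
    convert h6 using 2
    abel
  have h7 := (mem_E.mp (Esh_to_E hs h h2 h3 h4) l).2
  convert h7 using 1
  simp only [Pi.add_apply, ht]
  abel

/-- forms which vanish on the values of `x` -/
theorem skc_inj_s (hs : Spc a c0 c1) (h : a.Good) (h2 : (2 : L) ≠ 0) {x : J → V}
    (hx : x ∈ Ks a c0 c1) {S : Submodule L V}
    (D : DatS a c0 c1 (Submodule.span L (Set.range x)) S) (hxS : ∀ l, x l ∈ S)
    (hmin : ∀ c : ↥S →ₗ[L] Dual L ↥S, SkC a S c →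
      (∀ u : ↥S, (u : V) ∈ Submodule.span L (Set.range x) → c u = 0) → c = 0)
    {c : ↥S →ₗ[L] Dual L ↥S} (hc : SkC a S c)
    (h0 : ∀ l k, c ⟨x l, hxS l⟩ ⟨x k, hxS k⟩ = 0) : c = 0 := by
  have hx' := mem_K.mp (Ks_le hx)
  apply hmin c hc
  obtain ⟨z, hz, hz2⟩ := exists_ct h hc hxS hx'.1 (fun k w hw hwC => by
    rw [hc.sk, neg_eq_zero]
    exact hc.col k _ _ hwC (fun v hv => hx'.2 k v hv))
  have hzU : UM a c0 c1 z ∈ pp a.q S := UM_ct h hxS hz2 fun hU => by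
    have e1 : (⟨UM a c0 c1 x, hU⟩ : ↥S) = 0 := Subtype.ext (mem_Ks.mp hx).2
    rw [e1, map_zero]
  have h3 : z ∈ a.E (pp a.q S) := by
    refine Esh_to_E hs h h2 (D.ext ⟨E_le_Esh _ (mem_E.mpr fun l =>
      ⟨(mem_perp.mp hz).1 l, fun r hr => ?_⟩), hz⟩) hzU
    induction hr using Submodule.span_induction with
    | mem r hr =>
      obtain ⟨k, rfl⟩ := hr
      rw [h.form.symm]
      exact (hz2 l ⟨x k, hxS k⟩).trans (h0 l k)
    | zero => rw [map_zero, LinearMap.zero_apply]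
    | add u v _ _ hu hv => rw [map_add, LinearMap.add_apply, hu, hv, add_zero]
    | smul c u _ hu => rw [map_smul, LinearMap.smul_apply, hu, smul_zero]
  have h4 : ∀ l, c ⟨x l, hxS l⟩ = 0 := by
    intro l
    refine LinearMap.ext fun s => ?_
    rw [← hz2 l s, LinearMap.zero_apply, h.form.symm]
    exact (mem_E.mp h3 l).2 s s.2
  intro u hu
  obtain ⟨v, hv⟩ := u
  have hu' : v ∈ Submodule.span L (Set.range x) := hu
  have key : ∀ w ∈ Submodule.span L (Set.range x), ∀ hw : w ∈ S, c ⟨w, hw⟩ = 0 := by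
    intro w hw
    induction hw using Submodule.span_induction with
    | mem r hr =>
      obtain ⟨k, rfl⟩ := hr
      intro _
      exact h4 k
    | zero => intro hw; exact map_zero c
    | add u v hu' hv' hu hv =>
      intro hw
      have e1 : (⟨u + v, hw⟩ : ↥S) = ⟨u, D.le hu'⟩ + ⟨v, D.le hv'⟩ := rfl
      rw [e1, map_add, hu, hv, add_zero]
    | smul b u hu' hu =>
      intro hw
      have e1 : (⟨b • u, hw⟩ : ↥S) = b • ⟨u, D.le hu'⟩ := rfl
      rw [e1, map_smul, hu, smul_zero]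
  exact key v hu' hv

/-- correction by an element of `Esh (S^⊥)` -/
theorem exists_adj_s (hs : Spc a c0 c1) (h : a.Good) (h2 : (2 : L) ≠ 0) {S : Submodule L V}
    {z : J → V} (hz : z ∈ a.perp (a.E S)) :
    ∃ w ∈ Esh a c0 c1 (pp a.q S), UM a c0 c1 (z - w) ∈ pp a.q S := by
  classical
  have hne := hs.ne
  have hom : ∀ l, om a.Ω z l ∈ pp a.q (a.C l) ⊔ pp a.q S := fun l => by
    have e0 : pp a.q (a.C l ⊓ S) = pp a.q (a.C l) ⊔ pp a.q S := by
      rw [← pp_pp h.form (pp a.q (a.C l) ⊔ pp a.q S)]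
      congr 1
      ext v
      constructor
      · rintro ⟨h3, h4⟩ w hw
        obtain ⟨u, hu, u', hu', rfl⟩ := Submodule.mem_sup.mp hw
        rw [map_add, LinearMap.add_apply, h.form.symm u, h.form.symm u', hu _ h3, hu' _ h4,
          add_zero]
      · intro hv
        refine ⟨?_, ?_⟩
        · rw [← pp_pp h.form (a.C l)]; exact pp_anti le_sup_left hv
        · rw [← pp_pp h.form S]; exact pp_anti le_sup_right hv
    rw [← e0]
    intro v hv
    have e3 := (mem_perp.mp hz).2 (Pi.single l v) (mem_E.mpr fun j => by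
      by_cases hj : j = l
      · subst hj; rw [Pi.single_eq_same]; exact hv
      · rw [Pi.single_eq_of_ne hj]; exact ⟨zero_mem _, zero_mem _⟩)
    rw [M_apply, Finset.sum_eq_single l] at e3
    · rwa [Pi.single_eq_same] at e3
    · intro j _ hj
      rw [Pi.single_eq_of_ne hj, map_zero, LinearMap.zero_apply]
    · intro h; exact absurd (Finset.mem_univ _) h
  have m0 : UM a c0 c1 z ∈ a.C c0 ⊔ pp a.q S := by
    have e1 := hom c0
    rw [hs.lag0, om_c0 hs h h2] at e1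
    have := sub_mem e1 (Submodule.mem_sup_left (T := pp a.q S) ((mem_perp.mp hz).1 c0))
    rwa [add_sub_cancel_right] at this
  have m1 : UM a c0 c1 z ∈ a.C c1 ⊔ pp a.q S := by
    have e1 := hom c1
    rw [hs.lag1, om_c1 hs h h2] at e1
    have := add_mem e1 (Submodule.mem_sup_left (T := pp a.q S) ((mem_perp.mp hz).1 c1))
    rwa [sub_add_cancel] at this
  obtain ⟨u, hu, s, hs1, e1⟩ := Submodule.mem_sup.mp m0
  obtain ⟨v, hv, t, ht1, e2⟩ := Submodule.mem_sup.mp m1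
  set w : J → V := Pi.single c0 (-((2 : L)⁻¹ • u)) + Pi.single c1 ((2 : L)⁻¹ • v) with hw
  have w0 : w c0 = -((2 : L)⁻¹ • u) := by
    rw [hw, Pi.add_apply, Pi.single_eq_same, Pi.single_eq_of_ne hne, add_zero]
  have w1 : w c1 = (2 : L)⁻¹ • v := by
    rw [hw, Pi.add_apply, Pi.single_eq_same, Pi.single_eq_of_ne hne.symm, zero_add]
  have wn : ∀ l, l ≠ c0 → l ≠ c1 → w l = 0 := fun l l0 l1 => by
    rw [hw, Pi.add_apply, Pi.single_eq_of_ne l0, Pi.single_eq_of_ne l1, add_zero]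
  refine ⟨w, ⟨fun l => ?_, fun l l0 l1 => ?_, ?_⟩, ?_⟩
  · by_cases l0 : l = c0
    · subst l0; rw [w0]; exact neg_mem ((a.C l).smul_mem _ hu)
    · by_cases l1 : l = c1
      · subst l1; rw [w1]; exact (a.C l).smul_mem _ hv
      · rw [wn l l0 l1]; exact zero_mem _
  · rw [wn l l0 l1]; exact zero_mem _
  · have e3 : v - u = s - t := by
      rw [eq_sub_iff_add_eq, sub_add_eq_add_sub, e2, ← e1]
      abel
    rw [w0, w1, ← sub_eq_neg_add, ← smul_sub, e3]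
    exact (pp a.q S).smul_mem _ ((pp a.q S).sub_mem hs1 ht1)
  · have e4 : UM a c0 c1 w = (2 : L)⁻¹ • (u + v) := by
      rw [UM_apply, Finset.sum_eq_add c0 c1 hne
        (fun k _ hk => by rw [wn k hk.1 hk.2, smul_zero])
        (fun h => absurd (Finset.mem_univ _) h) (fun h => absurd (Finset.mem_univ _) h),
        uu_c0 hs h, uu_c1 hs, w0, w1, neg_one_smul, neg_neg, one_smul, smul_add]
    have e5 : UM a c0 c1 z = (2 : L)⁻¹ • ((u + s) + (v + t)) := by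
      rw [e1, e2, ← two_smul L, smul_smul, inv_mul_cancel₀ h2, one_smul]
    have e6 : UM a c0 c1 (z - w) = (2 : L)⁻¹ • (s + t) := by
      rw [map_sub, e4, e5, ← smul_sub]
      congr 1
      abel
    rw [e6]
    exact (pp a.q S).smul_mem _ ((pp a.q S).add_mem hs1 ht1)

/-- there are special elements of `Hom(N, S^*)` if `θ(S) ≤ 0` -/
theorem exists_zS_s (hs : Spc a c0 c1) (h : a.Good) (h2 : (2 : L) ≠ 0) {x : J → V}
    (hx : x ∈ Ks a c0 c1) (hx0 : x ≠ 0) {S : Submodule L V}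
    (hxS : ∀ l, x l ∈ S) (hθ : thS a c0 c1 S ≤ 0) :
    ∃ z ∈ a.perp (a.E S), UM a c0 c1 z ∈ pp a.q S ∧ z ∉ Esh a c0 c1 (pp a.q S) := by
  by_contra hcon
  push Not at hcon
  have hle : a.perp (a.E S) ≤ Esh a c0 c1 (pp a.q S) := by
    intro z hz
    obtain ⟨w, hw, hU⟩ := exists_adj_s hs h h2 hz
    have h3 := hcon (z - w) (sub_mem hz (Esh_le_perp_s hs h h2 hw)) hU
    have := add_mem h3 hw
    rwa [sub_add_cancel] at this
  have e1 := finrank_po (M := a.M) (E := a.E ⊤) h.M_skew (E_le_top (a := a) S)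
  have e2 := Submodule.finrank_mono hle
  have e3 : finrank L (a.C c0 ⊓ a.C c1 ⊓ S : Submodule L V) <
      finrank L (a.E S ⊓ po a.M (a.E ⊤) (a.E ⊤) : Submodule L (J → V)) := by
    rw [← finrank_map_kap (L := L) hs.ne]
    apply Submodule.finrank_lt_finrank_of_lt
    refine lt_of_le_of_ne ?_ fun heq => hx0 ?_
    · rintro _ ⟨v, ⟨⟨h0, h1⟩, hv⟩, rfl⟩
      exact ⟨kap_mem_E hs h0 h1 hv, kap_mem_K hs h h2 h0 h1⟩
    · have h3 : x ∈ a.E S ⊓ po a.M (a.E ⊤) (a.E ⊤) :=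
        ⟨mem_E.mpr fun l => ⟨(mem_K'.mp (Ks_le hx)).1 l, hxS l⟩, Ks_le hx⟩
      rw [← heq] at h3
      obtain ⟨v, -, hv⟩ := h3
      have h4 : UM a c0 c1 x = 0 := (mem_Ks.mp hx).2
      rw [← hv, UM_kap hs h, neg_smul, neg_eq_zero] at h4
      have hv0 : v = 0 := (smul_eq_zero.mp h4).resolve_left h2
      rw [← hv, hv0, map_zero]
  have e4 : po a.M (a.E ⊤) (a.E S) = a.perp (a.E S) := rfl
  rw [e4] at e1
  have e5 := finrank_E_kapS hs S
  rw [thS_eq hs h] at hθ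
  omega

end prod

end Vale.Agent.P182.H588.SP
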