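import Vale.Agent.P182.H398.Nak
import Vale.Agent.P182.H922.NullL
import Vale.Agent.P182.H578.Der
import Vale.Agent.P182.H588.Ctx

/-!
# The blocks `U_i` of the glued core

`U_i` is the largest subspace `U` of the preimage of the eigenspace `V_{1,i}` of `D` in `W` with
`∑ S_a U = U`.  On it `t'^* = d_i t^*`.
-/

namespace Vale.Agent.P182.H588.B

open Module Matrix Vale.Agent.P182.H533 Vale.Agent.P182.H922 Vale.Agent.P182.B1
  Vale.Agent.P182.H338 Vale.Agent.P182.H578 Vale.Agent.P182.H588 Vale.Agent.P182.H398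

section gen

variable {L V : Type*} [Field L] [AddCommGroup V] [Module L V]

/-- the largest subspace of `A` which is spanned by its images -/
def Ub (S : Fin 3 → End L V) (A : Submodule L V) : Submodule L V := ⨅ n, wo S A n

theorem wo_anti {S : Fin 3 → End L V} {A : Submodule L V} (hA : ∀ a, ∀ v ∈ A, S a v ∈ A) :
    Antitone (wo S A) := by
  refine antitone_nat_of_succ_le fun n => ?_
  induction n with
  | zero =>
    rw [wo_succ]
    refine iSup_le fun a => ?_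
    rintro _ ⟨v, hv, rfl⟩
    exact hA a v hv
  | succ n ih =>
    rw [wo_succ S A (n + 1), wo_succ S A n]
    exact iSup_mono fun a => Submodule.map_mono ih

theorem exists_stab [FiniteDimensional L V] {S : Fin 3 → End L V} {A : Submodule L V}
    (hA : ∀ a, ∀ v ∈ A, S a v ∈ A) : ∃ N, ∀ n ≥ N, wo S A n = Ub S A := by
  obtain ⟨N, hN⟩ := IsArtinian.monotone_stabilizes
    (⟨fun r => OrderDual.toDual (wo S A r), fun a b h => wo_anti hA h⟩ :
      ℕ →o (Submodule L V)ᵒᵈ)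
  refine ⟨N, fun n hn => ?_⟩
  have h1 : ∀ m ≥ N, wo S A m = wo S A N := fun m hm => (hN m hm).symm
  apply le_antisymm
  · refine le_iInf fun m => ?_
    rcases le_total m n with h | h
    · exact wo_anti hA h
    · rw [h1 n hn, ← h1 m (hn.trans h)]
  · exact iInf_le _ n

theorem Ub_le (S : Fin 3 → End L V) (A : Submodule L V) : Ub S A ≤ A := iInf_le _ 0

theorem Ub_map [FiniteDimensional L V] {S : Fin 3 → End L V} {A : Submodule L V}
    (hA : ∀ a, ∀ v ∈ A, S a v ∈ A) : ⨆ a, (Ub S A).map (S a) = Ub S A := by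
  obtain ⟨N, hN⟩ := exists_stab hA
  rw [← hN (N + 1) (Nat.le_succ N), ← hN N le_rfl] at *
  have h1 : wo S A N = wo S A (N + 1) := by rw [hN N le_rfl, hN (N + 1) (Nat.le_succ N)]
  rw [← wo_succ]
  exact h1.symm.trans rfl

theorem Ub_stab [FiniteDimensional L V] {S : Fin 3 → End L V} {A : Submodule L V}
    (hA : ∀ a, ∀ v ∈ A, S a v ∈ A) (a : Fin 3) {v : V} (hv : v ∈ Ub S A) : S a v ∈ Ub S A := by
  have : S a v ∈ ⨆ a, (Ub S A).map (S a) :=
    Submodule.mem_iSup_of_mem a (Submodule.mem_map_of_mem hv)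
  rwa [Ub_map hA] at this

theorem wo_iSup {κ : Type*} {S : Fin 3 → End L V} (A : κ → Submodule L V) (n : ℕ) :
    wo S (⨆ i, A i) n = ⨆ i, wo S (A i) n := by
  induction n with
  | zero => rfl
  | succ n ih =>
    simp only [wo_succ]
    rw [ih]
    simp only [Submodule.map_iSup]
    exact iSup_comm

theorem wo_fix {S : Fin 3 → End L V} {W : Submodule L V} (hW : ⨆ a, W.map (S a) = W) (n : ℕ) :
    wo S W n = W := by
  induction n with
  | zero => rfl
  | succ n ih => rw [wo_succ, ih, hW]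

theorem iSup_Ub [FiniteDimensional L V] {κ : Type*} [Fintype κ] {S : Fin 3 → End L V}
    {A : κ → Submodule L V} (hA : ∀ i a, ∀ v ∈ A i, S a v ∈ A i) {W : Submodule L V}
    (hW : ⨆ a, W.map (S a) = W) (hAW : ⨆ i, A i = W) : ⨆ i, Ub S (A i) = W := by
  classical
  choose N hN using fun i => exists_stab (hA i)
  set M := Finset.univ.sup N with hM
  have h1 : ∀ i, wo S (A i) M = Ub S (A i) := fun i =>
    hN i M (Finset.le_sup (f := N) (Finset.mem_univ i))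
  rw [← wo_fix hW M, ← hAW, wo_iSup]
  exact iSup_congr fun i => (h1 i).symm

end gen

section blk

variable {L V J : Type*} [Field L] [AddCommGroup V] [Module L V] [Fintype J] [DecidableEq J]
  {𝒟 : Cfg L V J} {κ : Type*}

/-- the preimage of the range of `E` in `W` -/
noncomputable def Ab (hG : 𝒟.Good) {t : J → V} (C : Core 𝒟.q (Res 𝒟 t)) [FiniteDimensional L V]
    (E : End L C.V1) : Submodule L V :=
  C.W ⊓ (LinearMap.range E).comap (C.P hG.form)

variable [FiniteDimensional L V]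

/-- the blocks -/
noncomputable def Ui (hG : 𝒟.Good) {t : J → V} (C : Core 𝒟.q (Res 𝒟 t)) (E : End L C.V1) : Submodule L V :=
  Ub (Res 𝒟 t) (Ab hG C E)

variable (hG : 𝒟.Good) {t t' : J → V} (C : Core 𝒟.q (Res 𝒟 t)) {D : End L C.V1}
  {P : κ → End L C.V1} {d : κ → L} {E : End L C.V1}

theorem SA_Res (t : J → V) (hG : 𝒟.Good) (s : Fin 3) : IsSA 𝒟.q (Res 𝒟 t s) :=
  Sop_SA 𝒟.arm hG.form (Tt L t) hG.skew s

theorem P_S_W {w : V} (hw : w ∈ C.W) (s : Fin 3) :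
    C.P hG.form (Res 𝒟 t s w) = C.S1 hG.form s (C.P hG.form w) := by
  have h1 := C.P_S hG.form (SA_Res t hG) s (C.W_le_perp hG.form hw)
  exact h1

theorem Ab_stab (hE : ∀ s, E * C.S1 hG.form s = C.S1 hG.form s * E) (a : Fin 3) {v : V}
    (hv : v ∈ Ab hG C E) : Res 𝒟 t a v ∈ Ab hG C E := by
  refine ⟨C.map_W hv.1, ?_⟩
  obtain ⟨x, hx⟩ := hv.2
  refine ⟨C.S1 hG.form a x, ?_⟩
  rw [P_S_W hG C hv.1, ← hx, ← Module.End.mul_apply, hE]
  rfl

theorem Ui_le_W : Ui hG C E ≤ C.W := (Ub_le _ _).trans inf_le_left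

theorem Ui_stab (hE : ∀ s, E * C.S1 hG.form s = C.S1 hG.form s * E) (a : Fin 3) {v : V}
    (hv : v ∈ Ui hG C E) : Res 𝒟 t a v ∈ Ui hG C E :=
  Ub_stab (fun a v hv => Ab_stab hG C hE a hv) a hv

theorem Ui_map (hE : ∀ s, E * C.S1 hG.form s = C.S1 hG.form s * E) :
    ⨆ a, (Ui hG C E).map (Res 𝒟 t a) = Ui hG C E :=
  Ub_map fun a v hv => Ab_stab hG C hE a hv

theorem I_le_Ab : C.I ≤ Ab hG C E := fun v hv =>
  ⟨C.I_le hv, ⟨0, by rw [map_zero, C.P_eq_zero hG.form (C.I_le_perp hv)]⟩⟩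

theorem iSup_Ab [Fintype κ] [Nonempty κ] (hP : ∑ i, P i = 1) : ⨆ i, Ab hG C (P i) = C.W := by
  apply le_antisymm (iSup_le fun i => inf_le_left)
  intro w hw
  have h1 : w = ∑ i, ((P i (C.P hG.form w) : C.V1) : V) + (w - C.P hG.form w) := by
    have h2 : ∑ i, ((P i (C.P hG.form w) : C.V1) : V) = (C.P hG.form w : V) := by
      rw [← Submodule.coe_sum, ← LinearMap.sum_apply, hP]
      rfl
    rw [h2]; abel
  rw [h1]
  have h3 : ∀ i, ((P i (C.P hG.form w) : C.V1) : V) ∈ Ab hG C (P i) := fun i =>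
    ⟨C.V1_le (P i (C.P hG.form w)).2, ⟨C.P hG.form w, by rw [C.P_coe]⟩⟩
  obtain ⟨i0⟩ := ‹Nonempty κ›
  exact add_mem (Submodule.sum_mem _ fun i _ => Submodule.mem_iSup_of_mem i (h3 i))
    (Submodule.mem_iSup_of_mem i0 (I_le_Ab hG C (C.sub_P_mem_I hG.form hw)))

/-- **`W` is the sum of the blocks** -/
theorem iSup_Ui [Fintype κ] [Nonempty κ] (hP : ∑ i, P i = 1)
    (hPc : ∀ i s, P i * C.S1 hG.form s = C.S1 hG.form s * P i) :
    ⨆ i, Ui hG C (P i) = C.W :=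
  iSup_Ub (fun i a v hv => Ab_stab hG C (hPc i) a hv) C.hW (iSup_Ab hG C hP)

theorem P_Ui {v : V} (hv : v ∈ Ui hG C E) : C.P hG.form v ∈ LinearMap.range E :=
  ((Ub_le _ _ : Ui hG C E ≤ Ab hG C E) hv).2

theorem mem_I_of_P {w : V} (hw : w ∈ C.W) (h : C.P hG.form w = 0) : w ∈ C.I := by
  have h1 := C.sub_P_mem_I hG.form hw
  rwa [h, Submodule.coe_zero, sub_zero] at h1

/-- `I` is the sum of its intersections with the blocks -/
theorem iSup_I [Fintype κ] [DecidableEq κ] [Nonempty κ] (hPP : ∀ i, P i * P i = P i)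
    (hPo : ∀ i j, i ≠ j → P i * P j = 0)
    (hP : ∑ i, P i = 1) (hPc : ∀ i s, P i * C.S1 hG.form s = C.S1 hG.form s * P i) :
    ⨆ i, (C.I ⊓ Ui hG C (P i)) = C.I := by
  apply le_antisymm (iSup_le fun i => inf_le_left)
  intro v hv
  have h1 : v ∈ ⨆ i, Ui hG C (P i) := by rw [iSup_Ui hG C hP hPc]; exact C.I_le hv
  rw [Submodule.mem_iSup_iff_exists_finsupp] at h1
  obtain ⟨f, hf, hfv⟩ := h1
  rw [Finsupp.sum_fintype _ _ (fun _ => rfl)] at hfv
  have h2 : ∑ i, C.P hG.form (f i) = 0 := by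
    rw [← map_sum, hfv, C.P_eq_zero hG.form (C.I_le_perp hv)]
  have h3 : ∀ i, C.P hG.form (f i) = 0 := by
    intro i
    have h4 : P i (∑ j, C.P hG.form (f j)) = C.P hG.form (f i) := by
      rw [map_sum, Finset.sum_eq_single i]
      · obtain ⟨x, hx⟩ := P_Ui hG C (hf i)
        rw [← hx, ← Module.End.mul_apply, hPP]
      · intro j _ hj
        obtain ⟨x, hx⟩ := P_Ui hG C (hf j)
        rw [← hx, ← Module.End.mul_apply, hPo i j hj.symm, LinearMap.zero_apply]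
      · intro h; exact absurd (Finset.mem_univ _) h
    rw [← h4, h2, map_zero]
  rw [← hfv]
  exact Submodule.sum_mem _ fun i _ => Submodule.mem_iSup_of_mem i
    ⟨mem_I_of_P hG C (Ui_le_W hG C (hf i)) (h3 i), hf i⟩

/-- the block maps onto the eigenspace -/
theorem exists_Ui [Fintype κ] [DecidableEq κ] [Nonempty κ] (hPP : ∀ i, P i * P i = P i)
    (hPo : ∀ i j, i ≠ j → P i * P j = 0)
    (hP : ∑ i, P i = 1) (hPc : ∀ i s, P i * C.S1 hG.form s = C.S1 hG.form s * P i) (i : κ)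
    (x : C.V1) : ∃ u ∈ Ui hG C (P i), C.P hG.form u = P i x := by
  have h1 : (x : V) ∈ ⨆ i, Ui hG C (P i) := by rw [iSup_Ui hG C hP hPc]; exact C.V1_le x.2
  rw [Submodule.mem_iSup_iff_exists_finsupp] at h1
  obtain ⟨f, hf, hfv⟩ := h1
  rw [Finsupp.sum_fintype _ _ (fun _ => rfl)] at hfv
  refine ⟨f i, hf i, ?_⟩
  have h2 : ∑ i, C.P hG.form (f i) = x := by
    rw [← map_sum, hfv, C.P_coe]
  rw [← h2, map_sum, Finset.sum_eq_single i]
  · obtain ⟨x, hx⟩ := P_Ui hG C (hf i)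
    rw [← hx, ← Module.End.mul_apply, hPP]
  · intro j _ hj
    obtain ⟨x, hx⟩ := P_Ui hG C (hf j)
    rw [← hx, ← Module.End.mul_apply, hPo i j hj.symm, LinearMap.zero_apply]
  · intro h; exact absurd (Finset.mem_univ _) h

section rel

omit [FiniteDimensional L V] in
/-- moving a related family over a residue -/
theorem q_Res_rel (hG : 𝒟.Good) {t y : J → V} (h : Rel 𝒟 t y) (l : J) (b : Fin 3) (v : V) :
    𝒟.q (y l) (Res 𝒟 t b v) = 𝒟.q (t l) (opr 𝒟.q (Tt L t) (Gm 𝒟.arm 𝒟.Ω b) (Tt L y) v) := by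
  rw [h.swap hG b]
  show 𝒟.q (y l) (opr 𝒟.q (Tt L t) (Gm 𝒟.arm 𝒟.Ω b) (Tt L t) v) = _
  rw [opr_apply, opr_apply, Tt_apply, Tt_apply, map_sum, map_sum]
  refine Finset.sum_congr rfl fun k _ => ?_
  rw [map_smul, map_smul, h.1 l k]

/-- the operators of a related family `y` map `words` to `words` -/
theorem rel_wo (hG : 𝒟.Good) {t y : J → V} (h : Rel 𝒟 t y) {A B : Submodule L V}
    (h0 : ∀ b, ∀ v ∈ A, opr 𝒟.q (Tt L t) (Gm 𝒟.arm 𝒟.Ω b) (Tt L y) v ∈ B) (n : ℕ) :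
    ∀ b, ∀ v ∈ wo (Res 𝒟 t) A n,
      opr 𝒟.q (Tt L t) (Gm 𝒟.arm 𝒟.Ω b) (Tt L y) v ∈ wo (Res 𝒟 t) B n := by
  induction n with
  | zero => exact h0
  | succ n ih =>
    intro b v hv
    rw [wo_succ] at hv
    refine Submodule.iSup_induction (fun a => (wo (Res 𝒟 t) A n).map (Res 𝒟 t a))
      (motive := fun x => opr 𝒟.q (Tt L t) (Gm 𝒟.arm 𝒟.Ω b) (Tt L y) x ∈
        wo (Res 𝒟 t) B (n + 1)) hv ?_ ?_ ?_
    · rintro a _ ⟨w, hw, rfl⟩
      have h1 := (compat_of_rel hG h).rel a b w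
      rw [h1]
      exact mem_wo_succ (ih a w hw) b
    · rw [map_zero]; exact zero_mem _
    · intro x y hx hy
      rw [map_add]; exact add_mem hx hy

/-- a related family whose operators map `A` to `I` is orthogonal to the words in `A` -/
theorem rel_zero (hG : 𝒟.Good) {t y : J → V} (h : Rel 𝒟 t y) {A B : Submodule L V}
    (h0 : ∀ b, ∀ v ∈ A, opr 𝒟.q (Tt L t) (Gm 𝒟.arm 𝒟.Ω b) (Tt L y) v ∈ B) {n : ℕ}
    (hB : wo (Res 𝒟 t) B n = ⊥) {v : V} (hv : v ∈ wo (Res 𝒟 t) A (n + 1)) (l : J) :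
    𝒟.q (y l) v = 0 := by
  rw [wo_succ] at hv
  refine Submodule.iSup_induction (fun a => (wo (Res 𝒟 t) A n).map (Res 𝒟 t a))
    (motive := fun x => 𝒟.q (y l) x = 0) hv ?_ ?_ ?_
  · rintro a _ ⟨w, hw, rfl⟩
    rw [q_Res_rel hG h]
    have h1 := rel_wo hG h h0 n a w hw
    rw [hB, Submodule.mem_bot] at h1
    rw [h1, map_zero]
  · rw [map_zero]
  · intro x y hx hy
    rw [map_add, hx, hy, add_zero]

theorem Rel.sub_smul (hG : 𝒟.Good) {t t' : J → V} (h : Rel 𝒟 t t') (c : L) :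
    Rel 𝒟 t (t' - c • t) := by
  constructor
  · intro l k
    rw [Pi.sub_apply, Pi.sub_apply, Pi.smul_apply, Pi.smul_apply, map_sub, map_smul, map_sub,
      map_smul, LinearMap.sub_apply, LinearMap.smul_apply, h.1 l k]
  · intro s
    have hxe : Tt L (t' - c • t) = Tt L t' + (-c) • Tt L t := by
      rw [Tt_sub, Tt_smul, neg_smul, sub_eq_add_neg]
    rw [hxe, opr_add_right, opr_smul_right]
    intro u v
    rw [LinearMap.add_apply, LinearMap.add_apply, LinearMap.smul_apply, LinearMap.smul_apply,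
      map_add, map_add, map_smul, map_smul, LinearMap.add_apply, LinearMap.smul_apply, h.2 s]
    congr 2
    exact SA_Res t hG s u v

end rel

section star

variable (ht : Rel 𝒟 t t') (hD1 : ∀ s, C.res hG.form (opr 𝒟.q (Tt L t) (Gm 𝒟.arm 𝒟.Ω s)
  (Tt L t')) = C.S1 hG.form s * D)

include ht hD1

/-- **`t'^* = d t^*` on the block** of an idempotent `E` with `D E = d E`. -/
theorem star_Ui {c : L} (hE : ∀ s, E * C.S1 hG.form s = C.S1 hG.form s * E)
    (hDE : D * E = c • E) {v : V} (hv : v ∈ Ui hG C E) (l : J) :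
    𝒟.q (t' l) v = c * 𝒟.q (t l) v := by
  have hrel := Rel.sub_smul hG ht c
  have h0 : ∀ b, ∀ v ∈ Ab hG C E,
      opr 𝒟.q (Tt L t) (Gm 𝒟.arm 𝒟.Ω b) (Tt L (t' - c • t)) v ∈ C.I := by
    intro b v hv
    have hc := compat_of_rel hG hrel
    apply mem_I_of_P hG C (hc.map_W C b hv.1)
    have h1 := C.P_eq_zero hG.form (hc.map_perp C b (C.I_le_perp (C.sub_P_mem_I hG.form hv.1)))
    rw [map_sub, map_sub, sub_eq_zero] at h1
    rw [h1]
    have hxe : Tt L (t' - c • t) = Tt L t' + (-c) • Tt L t := by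
      rw [Tt_sub, Tt_smul, neg_smul, sub_eq_add_neg]
    have h2 : C.res hG.form (opr 𝒟.q (Tt L t) (Gm 𝒟.arm 𝒟.Ω b) (Tt L (t' - c • t))) =
        C.S1 hG.form b * (D - c • 1) := by
      rw [hxe, opr_add_right, opr_smul_right, C.res_add, C.res_smul, hD1]
      have h3 : C.res hG.form (opr 𝒟.q (Tt L t) (Gm 𝒟.arm 𝒟.Ω b) (Tt L t)) =
          C.S1 hG.form b := C.res_S hG.form b
      have e1 : (-c) • C.S1 hG.form b = -(c • C.S1 hG.form b) :=
        LinearMap.ext fun v => Subtype.ext (neg_smul c (C.S1 hG.form b v : V))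
      rw [h3, mul_sub, mul_smul_comm, mul_one, e1, sub_eq_add_neg]
    show C.res hG.form (opr 𝒟.q (Tt L t) (Gm 𝒟.arm 𝒟.Ω b) (Tt L (t' - c • t)))
      (C.P hG.form v) = 0
    obtain ⟨x, hx⟩ := hv.2
    rw [h2, ← hx, Module.End.mul_apply, LinearMap.sub_apply, ← Module.End.mul_apply D E, hDE,
      LinearMap.smul_apply, LinearMap.smul_apply, Module.End.one_apply, sub_self, map_zero]
  have h1 := rel_zero hG hrel h0 (wo_I hG.form (SA_Res t hG) C) (v := v)
    ((iInf_le _ (C.N + 1) : Ui hG C E ≤ _) hv) l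
  rw [Pi.sub_apply, Pi.smul_apply, map_sub, map_smul, LinearMap.sub_apply, LinearMap.smul_apply,
    sub_eq_zero] at h1
  exact h1

/-- `opr r G t'` on a block -/
theorem opr_Ui {c : L} (hE : ∀ s, E * C.S1 hG.form s = C.S1 hG.form s * E)
    (hDE : D * E = c • E) {v : V} (hv : v ∈ Ui hG C E) (r : (J → L) →ₗ[L] V) (a : Fin 3) :
    opr 𝒟.q r (Gm 𝒟.arm 𝒟.Ω a) (Tt L t') v = c • opr 𝒟.q r (Gm 𝒟.arm 𝒟.Ω a) (Tt L t) v := by
  have h1 : ad 𝒟.q (Tt L t') v = c • ad 𝒟.q (Tt L t) v := by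
    funext k
    rw [ad_apply, Pi.smul_apply, ad_apply, Tt_single, Tt_single, smul_eq_mul]
    exact star_Ui hG C ht hD1 hE hDE hv k
  rw [opr_apply, opr_apply, h1, Matrix.mulVec_smul, map_smul]

/-- the residues of `t'` against `t` on a block -/
theorem res_Ui {c : L} (hE : ∀ s, E * C.S1 hG.form s = C.S1 hG.form s * E)
    (hDE : D * E = c • E) {v : V} (hv : v ∈ Ui hG C E) (a : Fin 3) :
    opr 𝒟.q (Tt L t') (Gm 𝒟.arm 𝒟.Ω a) (Tt L t) v = c • Res 𝒟 t a v := by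
  rw [← ht.swap hG a, opr_Ui hG C ht hD1 hE hDE hv]
  rfl

/-- **The residues of `x t + y t'` on a block.** -/
theorem Resx_Ui {c : L} (hE : ∀ s, E * C.S1 hG.form s = C.S1 hG.form s * E)
    (hDE : D * E = c • E) {v : V} (hv : v ∈ Ui hG C E) (x y : L) (a : Fin 3) :
    Res 𝒟 (x • t + y • t') a v = (x + y * c) ^ 2 • Res 𝒟 t a v := by
  show opr 𝒟.q (Tt L (x • t + y • t')) (Gm 𝒟.arm 𝒟.Ω a) (Tt L (x • t + y • t')) v = _
  have e1 : Tt L (x • t + y • t') = x • Tt L t + y • Tt L t' := by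
    rw [Tt_add, Tt_smul, Tt_smul]
  rw [e1, opr_add_right, opr_smul_right, opr_smul_right, LinearMap.add_apply,
    LinearMap.smul_apply, LinearMap.smul_apply, opr_Ui hG C ht hD1 hE hDE hv,
    opr_add_left, opr_smul_left, opr_smul_left, LinearMap.add_apply, LinearMap.smul_apply,
    LinearMap.smul_apply, res_Ui hG C ht hD1 hE hDE hv]
  change x • (x • Res 𝒟 t a v + y • c • Res 𝒟 t a v) +
    y • c • (x • Res 𝒟 t a v + y • c • Res 𝒟 t a v) = _
  module

/-- **Different blocks are orthogonal.** -/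
theorem ortho_Ui {E' : End L C.V1} {c c' : L} (hcc : c ≠ c')
    (hE : ∀ s, E * C.S1 hG.form s = C.S1 hG.form s * E) (hDE : D * E = c • E)
    (hE' : ∀ s, E' * C.S1 hG.form s = C.S1 hG.form s * E') (hDE' : D * E' = c' • E')
    {u v : V} (hu : u ∈ Ui hG C E) (hv : v ∈ Ui hG C E') : 𝒟.q u v = 0 := by
  rw [← Ui_map hG C hE] at hu
  refine Submodule.iSup_induction (fun a => (Ui hG C E).map (Res 𝒟 t a))
    (motive := fun x => 𝒟.q x v = 0) hu ?_ ?_ ?_
  · rintro a _ ⟨w, hw, rfl⟩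
    have h1 : 𝒟.q (opr 𝒟.q (Tt L t) (Gm 𝒟.arm 𝒟.Ω a) (Tt L t') w) v =
        c * 𝒟.q (Res 𝒟 t a w) v := by
      rw [opr_Ui hG C ht hD1 hE hDE hw, map_smul, LinearMap.smul_apply]
      rfl
    have h2 : 𝒟.q (opr 𝒟.q (Tt L t) (Gm 𝒟.arm 𝒟.Ω a) (Tt L t') w) v =
        c' * 𝒟.q (Res 𝒟 t a w) v := by
      rw [ht.2 a, opr_Ui hG C ht hD1 hE' hDE' hv, map_smul, smul_eq_mul]
      congr 1
      exact (SA_Res t hG a w v).symm
    have h3 : (c - c') * 𝒟.q (Res 𝒟 t a w) v = 0 := by rw [sub_mul, ← h1, ← h2, sub_self]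
    exact (mul_eq_zero.mp h3).resolve_left (sub_ne_zero.mpr hcc)
  · rw [map_zero, LinearMap.zero_apply]
  · intro x y hx hy
    rw [map_add, LinearMap.add_apply, hx, hy, add_zero]

end star

end blk

end Vale.Agent.P182.H588.B
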