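import Vale.Agent.P182.H588.UBlk
import Vale.Agent.P182.H983.GDef
import Vale.Agent.P182.H55.NullA
import Vale.Agent.P182.H89.Red

/-!
# The blocks `U_i`: types, socle, nilpotency
-/

namespace Vale.Agent.P182.H588.B

open Module Matrix Vale.Agent.P182.H533 Vale.Agent.P182.H922 Vale.Agent.P182.B1
  Vale.Agent.P182.H338 Vale.Agent.P182.H578 Vale.Agent.P182.H588 Vale.Agent.P182.H983

section lin

variable {L E : Type*} [Field L] [AddCommGroup E] [Module L E] [FiniteDimensional L E]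

/-- a nonzero summand of a free nilpotent operator contains a vector of maximal height -/
theorem exists_top {S P : End L E} {p : ℕ} (hp : S ^ p = 0)
    (hfree : finrank L E = p * finrank L (LinearMap.ker S)) (hPS : P * S = S * P)
    (hPP : P * P = P) (hP0 : P ≠ 0) : ∃ x, (S ^ (p - 1)) (P x) ≠ 0 := by
  by_contra hcon
  push Not at hcon
  have hE : 0 < finrank L E := by
    rw [Module.finrank_pos_iff_exists_ne_zero]
    by_contra h
    push Not at h
    exact hP0 (LinearMap.ext fun x => h _)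
  have hp1 : 1 ≤ p := by
    rcases Nat.eq_zero_or_pos p with h | h
    · rw [h, zero_mul] at hfree; omega
    · exact h
  have hker : LinearMap.range (S ^ (p - 1)) = LinearMap.ker S := by
    apply Submodule.eq_of_le_of_finrank_eq
    · rintro _ ⟨x, rfl⟩
      rw [LinearMap.mem_ker, ← Module.End.mul_apply, ← pow_succ', Nat.sub_add_cancel hp1, hp]
      rfl
    · rw [H55.finrank_range_pow S hp rfl hfree (Nat.sub_le _ _), Nat.sub_sub_self hp1, one_mul]
  have hPc : ∀ n, P * S ^ n = S ^ n * P := fun n => (Commute.pow_right hPS n)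
  -- the powers vanish on the range of `P`
  have key : ∀ n, ∀ x, (S ^ n) (P x) = 0 → P x = 0 := by
    intro n
    induction n with
    | zero => intro x hx; simpa using hx
    | succ n ih =>
      intro x hx
      apply ih
      have h1 : (S ^ n) (P x) ∈ LinearMap.ker S := by
        rw [LinearMap.mem_ker, ← Module.End.mul_apply, ← pow_succ']
        exact hx
      rw [← hker] at h1
      obtain ⟨z, hz⟩ := h1
      have h2 : (S ^ n) (P x) = P ((S ^ n) (P x)) := by
        rw [← Module.End.mul_apply (S ^ n) P, ← hPc, ← Module.End.mul_apply P, ← mul_assoc, hPP]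
      rw [h2, ← hz, ← Module.End.mul_apply, hPc, Module.End.mul_apply]
      exact hcon z
  apply hP0
  refine LinearMap.ext fun x => key p x ?_
  rw [hp]
  rfl

end lin

section words

variable {L V : Type*} [Field L] [AddCommGroup V] [Module L V] {q : V →ₗ[L] V →ₗ[L] L}
  {S : Fin 3 → End L V}

/-- long words kill the orthogonal space of `W` -/
theorem wordsOn_perp (hq : IsForm q) (hS : ∀ s, IsSA q (S s)) (C : Core q S) :
    wordsOn S (perp q C.W) C.N = ⊥ := by
  have key : ∀ n m, n + m = C.N → ∀ v ∈ wordsOn S (perp q C.W) n, ∀ w ∈ words S m,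
      q v w = 0 := by
    intro n
    induction n with
    | zero =>
      intro m hm v hv w hw
      rw [zero_add] at hm
      subst hm
      rw [← C.hN] at hw
      have := hv w hw
      first | exact this | (rw [hq.symm]; exact this)
    | succ n ih =>
      intro m hm v hv w hw
      refine Submodule.iSup_induction (fun s => (wordsOn S (perp q C.W) n).map (S s))
        (motive := fun x => q x w = 0) hv ?_ ?_ ?_
      · rintro s _ ⟨v', hv', rfl⟩
        rw [hS s]
        refine ih (m + 1) (by omega) v' hv' _ ?_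
        rw [words_succ]
        exact Submodule.mem_iSup_of_mem s (Submodule.mem_map_of_mem hw)
      · rw [map_zero, LinearMap.zero_apply]
      · intro x y hx hy
        rw [map_add, LinearMap.add_apply, hx, hy, add_zero]
  rw [eq_bot_iff]
  intro v hv
  rw [Submodule.mem_bot]
  apply hq.nondeg
  intro w
  exact key C.N 0 (by omega) v hv w trivial

end words

section blk

variable {L V J : Type*} [Field L] [AddCommGroup V] [Module L V] [Fintype J] [DecidableEq J]
  {𝒟 : Cfg L V J} {κ : Type*} [FiniteDimensional L V]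
  (hG : 𝒟.Good) {t t' : J → V} (C : Core 𝒟.q (Res 𝒟 t)) {D : End L C.V1}
  {P : κ → End L C.V1} {d : κ → L} {E : End L C.V1}

theorem nil_Ui (hG : 𝒟.Good) (C : Core 𝒟.q (Res 𝒟 t)) :
    ∃ N, wordsOn (Res 𝒟 t) (perp 𝒟.q C.W) N = ⊥ :=
  ⟨C.N, wordsOn_perp hG.form (SA_Res t hG) C⟩

theorem P_pow {w : V} (hw : w ∈ C.W) (s : Fin 3) (n : ℕ) :
    (Res 𝒟 t s ^ n) w ∈ C.W ∧
      C.P hG.form ((Res 𝒟 t s ^ n) w) = (C.S1 hG.form s ^ n) (C.P hG.form w) := by
  induction n with
  | zero => exact ⟨by simpa using hw, by simp⟩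
  | succ n ih =>
    rw [pow_succ', pow_succ', Module.End.mul_apply, Module.End.mul_apply, ← ih.2]
    exact ⟨C.map_W ih.1, P_S_W hG C ih.1 s⟩

theorem pow_mem_I {p : Fin 3 → ℕ} (hp : ∀ s, C.S1 hG.form s ^ p s = 0) (s : Fin 3) {w : V}
    (hw : w ∈ C.W) : (Res 𝒟 t s ^ p s) w ∈ C.I := by
  obtain ⟨h1, h2⟩ := P_pow hG C hw s (p s)
  apply mem_I_of_P hG C h1
  rw [h2, hp]
  rfl

theorem soc_W (hG : 𝒟.Good) {w : V} (hw : w ∈ C.W) (h : ∀ a, Res 𝒟 t a w ∈ C.I) :
    w ∈ C.I := by
  apply mem_I_of_P hG C hw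
  have h1 : C.P hG.form w ∈ ⨅ s, LinearMap.ker (C.S1 hG.form s) := by
    rw [Submodule.mem_iInf]
    intro s
    rw [LinearMap.mem_ker, ← P_S_W hG C hw, C.P_eq_zero hG.form (C.I_le_perp (h s))]
  rw [C.iInf_ker hG.form (SA_Res t hG), Submodule.mem_bot] at h1
  exact h1

/-- the form on `W` -/
theorem q_W {v w : V} (hv : v ∈ C.W) (hw : w ∈ C.W) :
    𝒟.q v w = C.q1 (C.P hG.form v) (C.P hG.form w) := by
  have h1 : 𝒟.q (v - C.P hG.form v) w = 0 := by
    rw [hG.form.symm]
    exact C.I_ortho_W hG.form (C.sub_P_mem_I hG.form hv) hw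
  have h2 : 𝒟.q (C.P hG.form v) (w - C.P hG.form w) = 0 :=
    C.I_ortho_W hG.form (C.sub_P_mem_I hG.form hw) (C.V1_le (C.P hG.form v).2)
  rw [map_sub, LinearMap.sub_apply, sub_eq_zero] at h1
  rw [map_sub, sub_eq_zero] at h2
  rw [h1, h2]
  rfl

theorem one_le_p {p : ℕ} {s : Fin 3} (h0 : 0 < finrank L C.V1)
    (hfree : finrank L C.V1 = p * finrank L (LinearMap.ker (C.S1 hG.form s))) : 1 ≤ p := by
  rcases Nat.eq_zero_or_pos p with h | h
  · rw [h, zero_mul] at hfree; omega
  · exact h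

/-- the sizes of the blocks are exact on every `U_i` -/
theorem top_Ui [Fintype κ] [DecidableEq κ] [Nonempty κ] (hPP : ∀ i, P i * P i = P i)
    (hPo : ∀ i j, i ≠ j → P i * P j = 0)
    (hP : ∑ i, P i = 1) (hPc : ∀ i s, P i * C.S1 hG.form s = C.S1 hG.form s * P i)
    (hPS : ∀ i, IsSA C.q1 (P i)) (hP0 : ∀ i, P i ≠ 0) {p : Fin 3 → ℕ}
    (hp : ∀ s, C.S1 hG.form s ^ p s = 0)
    (hfree : ∀ s, finrank L C.V1 = p s * finrank L (LinearMap.ker (C.S1 hG.form s)))
    (i : κ) (s : Fin 3) :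
    ∃ v ∈ Ui hG C (P i), ∃ w ∈ Ui hG C (P i), 𝒟.q v ((Res 𝒟 t s ^ (p s - 1)) w) ≠ 0 := by
  obtain ⟨x, hx⟩ := exists_top (hp s) (hfree s) (hPc i s) (hPP i) (hP0 i)
  obtain ⟨y, hy⟩ : ∃ y, C.q1 ((C.S1 hG.form s ^ (p s - 1)) (P i x)) y ≠ 0 := by
    by_contra h
    push Not at h
    exact hx ((C.isForm hG.form).nondeg _ h)
  obtain ⟨w, hw, hwx⟩ := exists_Ui hG C hPP hPo hP hPc i x
  obtain ⟨v, hv, hvy⟩ := exists_Ui hG C hPP hPo hP hPc i y
  refine ⟨v, hv, w, hw, ?_⟩
  obtain ⟨h1, h2⟩ := P_pow hG C (Ui_le_W hG C hw) s (p s - 1)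
  rw [q_W hG C (Ui_le_W hG C hv) h1, h2, hwx, hvy, hPS]
  have h3 : P i ((C.S1 hG.form s ^ (p s - 1)) (P i x)) =
      (C.S1 hG.form s ^ (p s - 1)) (P i x) := by
    have h4 : P i * C.S1 hG.form s ^ (p s - 1) = C.S1 hG.form s ^ (p s - 1) * P i :=
      (Commute.pow_right (hPc i s) _)
    rw [← Module.End.mul_apply (C.S1 hG.form s ^ (p s - 1)) (P i), ← Module.End.mul_apply,
      ← mul_assoc, h4, mul_assoc, hPP]
  rw [h3, (C.isForm hG.form).symm]
  exact hy

end blk

end Vale.Agent.P182.H588.B
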